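import Vale.Agent.P137.Defs

/-!
# P137: symmetry, monotonicity and measurability of the maximal function
-/

open MeasureTheory Set
open scoped ENNReal

namespace Vale.Agent.P137

variable {d : ℕ}

/-- Monotonicity in the moduli of the coordinates. -/
def BlockDec (F : (Fin d → ℝ) → ℝ≥0∞) : Prop :=
  ∀ x y : Fin d → ℝ, (∀ i, |y i| ≤ |x i|) → F x ≤ F y

theorem measurableSet_euclBall (x : Fin d → ℝ) (r : ℝ) : MeasurableSet (euclBall x r) :=
  measurableSet_lt (by fun_prop) measurable_const

theorem euclBall_mono {x : Fin d → ℝ} {r s : ℝ} (hr : 0 ≤ r) (h : r ≤ s) :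
    euclBall x r ⊆ euclBall x s := fun _ hy => hy.trans_le (pow_le_pow_left₀ hr h 2)

/-- Reflection of one coordinate about `m`. -/
def reflectAt (i : Fin d) (m : ℝ) (y : Fin d → ℝ) : Fin d → ℝ :=
  Function.update y i (2 * m - y i)

theorem measurePreserving_reflectAt (i : Fin d) (m : ℝ) :
    MeasurePreserving (reflectAt i m) (volume : Measure (Fin d → ℝ)) volume := by
  have h : reflectAt i m
      = fun (y : Fin d → ℝ) j => (if j = i then fun t => 2 * m - t else id) (y j) := by
    funext y j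
    by_cases hj : j = i
    · subst hj; simp [reflectAt]
    · simp [reflectAt, hj]
  rw [h]
  refine volume_preserving_pi fun j => ?_
  split_ifs
  · convert (measurePreserving_add_left (volume : Measure ℝ) (2 * m)).comp
      (Measure.measurePreserving_neg (volume : Measure ℝ)) using 1
    funext t; simp [sub_eq_add_neg]
  · exact MeasurePreserving.id _

theorem reflectAt_reflectAt (i : Fin d) (m : ℝ) (y : Fin d → ℝ) :
    reflectAt i m (reflectAt i m y) = y := by
  funext j
  by_cases hj : j = i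
  · subst hj; simp [reflectAt]
  · simp [reflectAt, hj]

theorem mem_euclBall_update {x y : Fin d → ℝ} {r : ℝ} (i : Fin d) (a : ℝ) :
    y ∈ euclBall (Function.update x i a) r
      ↔ (y i - a) ^ 2 + ∑ j ∈ Finset.univ.erase i, (y j - x j) ^ 2 < r ^ 2 := by
  rw [euclBall, mem_ofPred_eq, ← Finset.add_sum_erase _ _ (Finset.mem_univ i)]
  simp only [Function.update_self]
  rw [Finset.sum_congr rfl fun j hj => by rw [Function.update_of_ne (Finset.ne_of_mem_erase hj)]]

theorem lintegral_preimage_reflectAt (i : Fin d) (m : ℝ) {F : (Fin d → ℝ) → ℝ≥0∞} (hF : Measurable F)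
    (s : Set (Fin d → ℝ)) (hs : MeasurableSet s) :
    ∫⁻ y in reflectAt i m ⁻¹' s, F (reflectAt i m y) = ∫⁻ y in s, F y :=
  (measurePreserving_reflectAt i m).setLIntegral_comp_preimage hs hF

/-- Moving the centre towards a coordinate hyperplane increases the integral over the ball. -/
theorem lintegral_ball_update_le {F : (Fin d → ℝ) → ℝ≥0∞} (hF : BlockDec F) (hm : Measurable F)
    (x : Fin d → ℝ) (i : Fin d) {a : ℝ} (h : |a| ≤ |x i|) (r : ℝ) :
    ∫⁻ y in euclBall x r, F y ≤ ∫⁻ y in euclBall (Function.update x i a) r, F y := by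
  set Bb := euclBall x r
  set Ba := euclBall (Function.update x i a) r with hBa
  set R := reflectAt i ((a + x i) / 2) with hR
  have hBb : ∀ y, y ∈ Bb ↔ (y i - x i) ^ 2 + ∑ j ∈ Finset.univ.erase i, (y j - x j) ^ 2 < r ^ 2 :=
    fun y => by rw [← mem_euclBall_update i (x i), Function.update_eq_self]
  have hRy : ∀ y, R y i = a + x i - y i ∧ ∀ j ∈ Finset.univ.erase i, R y j = y j := fun y => by
    refine ⟨by simp [hR, reflectAt]; ring, fun j hj => ?_⟩
    simp [hR, reflectAt, Finset.ne_of_mem_erase hj]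
  have hmap : R ⁻¹' (Ba \ Bb) = Bb \ Ba := by
    ext y
    simp only [mem_preimage, mem_sdiff, hBa, mem_euclBall_update, hBb, (hRy y).1,
      Finset.sum_congr rfl fun j hj => show (R y j - x j) ^ 2 = (y j - x j) ^ 2 by
        rw [(hRy y).2 j hj]]
    rw [show (a + x i - y i - a) ^ 2 = (y i - x i) ^ 2 by ring,
      show (a + x i - y i - x i) ^ 2 = (y i - a) ^ 2 by ring]
  have hsq : a ^ 2 ≤ x i ^ 2 := sq_le_sq.2 h
  have key : ∀ y ∈ Bb \ Ba, F y ≤ F (R y) := by
    intro y hy
    refine hF _ _ fun j => ?_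
    by_cases hj : j = i
    · subst hj
      have h1 := (hBb y).1 hy.1
      have h2 : ¬ ((y j - a) ^ 2 + ∑ k ∈ Finset.univ.erase j, (y k - x k) ^ 2 < r ^ 2) :=
        fun hh => hy.2 ((mem_euclBall_update j a).2 hh)
      rw [(hRy y).1, ← sq_le_sq]
      push Not at h2
      rcases lt_trichotomy a (x j) with hlt | heq | hgt
      · have h3 : 0 ≤ a + x j := by nlinarith
        have h4 : 0 ≤ 2 * y j - (a + x j) := by nlinarith
        nlinarith [mul_nonneg h3 h4]
      · rw [heq] at h2; linarith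
      · have h3 : a + x j ≤ 0 := by nlinarith
        have h4 : 2 * y j - (a + x j) ≤ 0 := by nlinarith
        nlinarith [mul_nonneg (neg_nonneg.2 h3) (neg_nonneg.2 h4)]
    · rw [(hRy y).2 j (Finset.mem_erase.2 ⟨hj, Finset.mem_univ j⟩)]
  have hd : MeasurableSet (Bb \ Ba) := (measurableSet_euclBall _ _).diff (measurableSet_euclBall _ _)
  calc ∫⁻ y in Bb, F y
      = (∫⁻ y in Bb ∩ Ba, F y) + ∫⁻ y in Bb \ Ba, F y :=
        (lintegral_inter_add_sdiff _ _ (measurableSet_euclBall _ _)).symm
    _ ≤ (∫⁻ y in Bb ∩ Ba, F y) + ∫⁻ y in Bb \ Ba, F (R y) := by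
        exact add_le_add_right (setLIntegral_mono' hd key) _
    _ = (∫⁻ y in Ba ∩ Bb, F y) + ∫⁻ y in Ba \ Bb, F y := by
        rw [inter_comm, ← hmap, hR, lintegral_preimage_reflectAt i _ hm _
          ((measurableSet_euclBall _ _).diff (measurableSet_euclBall _ _))]
    _ = ∫⁻ y in Ba, F y := lintegral_inter_add_sdiff _ _ (measurableSet_euclBall _ _)

theorem lintegral_ball_mono {F : (Fin d → ℝ) → ℝ≥0∞} (hF : BlockDec F) (hm : Measurable F)
    {x y : Fin d → ℝ} (h : ∀ i, |y i| ≤ |x i|) (r : ℝ) :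
    ∫⁻ z in euclBall x r, F z ≤ ∫⁻ z in euclBall y r, F z := by
  have key : ∀ s : Finset (Fin d), ∫⁻ z in euclBall x r, F z
      ≤ ∫⁻ z in euclBall (fun i => if i ∈ s then y i else x i) r, F z := by
    intro s
    induction s using Finset.induction_on with
    | empty => simp
    | insert i s hi ih =>
      refine ih.trans ?_
      have e : (fun j => if j ∈ insert i s then y j else x j)
          = Function.update (fun j => if j ∈ s then y j else x j) i (y i) := by
        funext j
        by_cases hj : j = i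
        · subst hj; simp
        · simp [hj]
      rw [e]
      exact lintegral_ball_update_le hF hm _ i (by simpa [hi] using h i) r
  simpa using key Finset.univ

theorem volume_euclBall_eq (x y : Fin d → ℝ) (r : ℝ) :
    volume (euclBall x r) = volume (euclBall y r) := by
  have e : euclBall x r = (fun z => z + (y - x)) ⁻¹' euclBall y r := by
    ext z
    simp only [euclBall, mem_preimage, mem_ofPred_eq, Pi.add_apply, Pi.sub_apply]
    rw [Finset.sum_congr rfl fun i _ => show (z i + (y i - x i) - y i) ^ 2 = (z i - x i) ^ 2 by ring]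
  rw [e, measure_preimage_add_right]

theorem BlockDec.centredMax {F : (Fin d → ℝ) → ℝ≥0∞} (hF : BlockDec F) (hm : Measurable F) :
    BlockDec (centredMax F) := fun x y h => iSup₂_mono fun r _ => by
  rw [volume_euclBall_eq x y]
  exact ENNReal.div_le_div_right (lintegral_ball_mono hF hm h r) _

theorem centredMax_eq_rat {F : (Fin d → ℝ) → ℝ≥0∞} (x : Fin d → ℝ) :
    centredMax F x = ⨆ q : ℚ, ⨆ (_ : 0 < q),
      (∫⁻ y in euclBall x (q : ℝ), F y) / volume (euclBall x (q : ℝ)) := by
  refine le_antisymm (iSup₂_le fun r hr => ?_) (iSup₂_le fun q hq =>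
    le_iSup₂_of_le (q : ℝ) (by exact_mod_cast hq) le_rfl)
  have hU : euclBall x r = ⋃ q : {q : ℚ // 0 < q ∧ (q : ℝ) < r}, euclBall x (q : ℝ) := by
    ext y
    simp only [mem_iUnion]
    refine ⟨fun hy => ?_, fun ⟨q, hq⟩ => euclBall_mono (by exact_mod_cast q.2.1.le) q.2.2.le hq⟩
    have hy' : √(∑ i, (y i - x i) ^ 2) < r := (Real.sqrt_lt' hr).2 hy
    obtain ⟨q, hq1, hq2⟩ := exists_rat_btwn hy'
    have hq0 : (0 : ℝ) < q := (Real.sqrt_nonneg _).trans_lt hq1
    exact ⟨⟨q, by exact_mod_cast hq0, hq2⟩, (Real.sqrt_lt' hq0).1 hq1⟩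
  have hdir : Directed (· ⊆ ·) fun q : {q : ℚ // 0 < q ∧ (q : ℝ) < r} => euclBall x (q : ℝ) :=
    fun a b => by
      refine ⟨⟨max a.1 b.1, lt_max_of_lt_left a.2.1, by push_cast; exact max_lt a.2.2 b.2.2⟩, ?_, ?_⟩
      · exact euclBall_mono (by exact_mod_cast a.2.1.le) (by push_cast; exact le_max_left _ _)
      · exact euclBall_mono (by exact_mod_cast b.2.1.le) (by push_cast; exact le_max_right _ _)
  conv_lhs => arg 1; rw [hU, setLIntegral_iUnion_of_directed _ hdir]
  rw [ENNReal.iSup_div]
  refine iSup_le fun q => le_iSup₂_of_le q.1 q.2.1 ?_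
  exact ENNReal.div_le_div_left (measure_mono (euclBall_mono (by exact_mod_cast q.2.1.le) q.2.2.le)) _

theorem measurable_centredMax {F : (Fin d → ℝ) → ℝ≥0∞} (hm : Measurable F) :
    Measurable (centredMax F) := by
  have e : centredMax F = fun x => ⨆ q : ℚ, ⨆ (_ : 0 < q),
      (∫⁻ y in euclBall x (q : ℝ), F y) / volume (euclBall x (q : ℝ)) :=
    funext centredMax_eq_rat
  rw [e]
  refine Measurable.iSup fun q => Measurable.iSup fun _ => ?_
  simp_rw [volume_euclBall_eq _ (0 : Fin d → ℝ)]
  refine Measurable.div_const ?_ _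
  have : ∀ x, ∫⁻ y in euclBall x (q : ℝ), F y
      = ∫⁻ y, {z : (Fin d → ℝ) × (Fin d → ℝ) | z.2 ∈ euclBall z.1 (q : ℝ)}.indicator
          (fun z => F z.2) (x, y) := fun x => by
    rw [← lintegral_indicator (measurableSet_euclBall _ _)]
    rfl
  simp_rw [this]
  refine Measurable.lintegral_prod_right' ?_
  refine (hm.comp measurable_snd).indicator ?_
  simp only [euclBall, mem_ofPred_eq]
  exact measurableSet_lt (by fun_prop) measurable_const

end Vale.Agent.P137
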