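import Vale.Agent.P137.Lines

/-!
# P137: dyadic boxing of a down-set
-/

open MeasureTheory Set
open scoped ENNReal

namespace Vale.Agent.P137

/-- The dyadic interval `(z 2^k, (z+1) 2^k]`. -/
def dyI (k : ℤ) (z : ℕ) : Set ℝ := Ioc ((z : ℝ) * 2 ^ k) (((z : ℝ) + 1) * 2 ^ k)

/-- The dyadic cube of the positive orthant. -/
def dyQ {d : ℕ} (p : ℤ × (Fin d → ℕ)) : Set (Fin d → ℝ) := univ.pi fun j => dyI p.1 (p.2 j)

/-- The `m`-th dyadic ancestor. -/
def anc {d : ℕ} (p : ℤ × (Fin d → ℕ)) (m : ℕ) : ℤ × (Fin d → ℕ) :=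
  (p.1 + m, fun j => p.2 j / 2 ^ m)

theorem zpow_two_pos (k : ℤ) : (0 : ℝ) < 2 ^ k := zpow_pos (by norm_num) k

theorem volume_dyI (k : ℤ) (z : ℕ) : volume (dyI k z) = ENNReal.ofReal (2 ^ k) := by
  rw [dyI, Real.volume_Ioc]; congr 1; ring

theorem volume_dyQ {d : ℕ} (p : ℤ × (Fin d → ℕ)) :
    volume (dyQ p) = ENNReal.ofReal (2 ^ p.1) ^ d := by
  rw [dyQ, volume_pi_pi]; simp [volume_dyI]

theorem measurableSet_dyQ {d : ℕ} (p : ℤ × (Fin d → ℕ)) : MeasurableSet (dyQ p) :=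
  MeasurableSet.univ_pi fun _ => measurableSet_Ioc

theorem anc_bounds (z m : ℕ) : z / 2 ^ m * 2 ^ m ≤ z ∧ z + 1 ≤ (z / 2 ^ m + 1) * 2 ^ m := by
  have h := Nat.div_add_mod z (2 ^ m)
  have h2 := Nat.mod_lt z (show 2 ^ m > 0 by positivity)
  rw [add_mul, one_mul, mul_comm (z / 2 ^ m)]
  constructor <;> omega

theorem dyI_subset_anc (k : ℤ) (z m : ℕ) : dyI k z ⊆ dyI (k + m) (z / 2 ^ m) := by
  obtain ⟨h1, h2⟩ := anc_bounds z m
  have h1' : ((z / 2 ^ m : ℕ) : ℝ) * 2 ^ m ≤ z := by exact_mod_cast h1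
  have h2' : (z : ℝ) + 1 ≤ (((z / 2 ^ m : ℕ) : ℝ) + 1) * 2 ^ m := by exact_mod_cast h2
  have hp := zpow_two_pos k
  refine Ioc_subset_Ioc ?_ ?_ <;> rw [zpow_add₀ (two_ne_zero), zpow_natCast] <;> nlinarith

theorem dyQ_subset_anc {d : ℕ} (p : ℤ × (Fin d → ℕ)) (m : ℕ) : dyQ p ⊆ dyQ (anc p m) :=
  pi_mono fun j _ => dyI_subset_anc p.1 (p.2 j) m

theorem anc_anc {d : ℕ} (p : ℤ × (Fin d → ℕ)) (a b : ℕ) : anc (anc p a) b = anc p (a + b) := by
  refine Prod.ext ?_ ?_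
  · simp [anc, add_assoc]
  · funext j; simp [anc, Nat.div_div_eq_div_mul, pow_add]

theorem anc_of_inter {d : ℕ} {p p' : ℤ × (Fin d → ℕ)} {m : ℕ} (hm : p'.1 = p.1 + m)
    (x : Fin d → ℝ) (h : x ∈ dyQ p) (h' : x ∈ dyQ p') : p' = anc p m := by
  refine Prod.ext hm (funext fun j => ?_)
  have a : x j ∈ dyI p.1 (p.2 j) := h j (mem_univ j)
  have b : x j ∈ dyI p'.1 (p'.2 j) := h' j (mem_univ j)
  rw [dyI, hm, zpow_add₀ (two_ne_zero), zpow_natCast, mem_Ioc] at b
  rw [dyI, mem_Ioc] at a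
  have hp := zpow_two_pos p.1
  have c1 : ((p'.2 j : ℝ)) * 2 ^ m < p.2 j + 1 := by nlinarith
  have c2 : (p.2 j : ℝ) < (p'.2 j + 1) * 2 ^ m := by nlinarith
  have d1 : p'.2 j * 2 ^ m < p.2 j + 1 := by exact_mod_cast c1
  have d2 : p.2 j < (p'.2 j + 1) * 2 ^ m := by exact_mod_cast c2
  exact (Nat.div_eq_of_lt_le (by omega) d2).symm

/-- Invariance under moving towards the origin. -/
def DownSet {d : ℕ} (E : Set (Fin d → ℝ)) : Prop :=
  ∀ x y : Fin d → ℝ, (∀ i, |y i| ≤ |x i|) → x ∈ E → y ∈ E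

/-- The density threshold. -/
noncomputable def theta (d : ℕ) : ℝ≥0∞ := (2 ^ (d + 2) : ℝ≥0∞)⁻¹

/-- `E` fills at least the threshold fraction of the cube. -/
def Dense {d : ℕ} (E : Set (Fin d → ℝ)) (p : ℤ × (Fin d → ℕ)) : Prop :=
  theta d * volume (dyQ p) ≤ volume (E ∩ dyQ p)

/-- Maximal cubes of density at least the threshold. -/
def Stopped {d : ℕ} (E : Set (Fin d → ℝ)) (p : ℤ × (Fin d → ℕ)) : Prop :=
  Dense E p ∧ ∀ m : ℕ, 1 ≤ m → ¬ Dense E (anc p m)

theorem stopped_inter_eq {d : ℕ} {E : Set (Fin d → ℝ)} {p p' : ℤ × (Fin d → ℕ)}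
    (h : Stopped E p) (h' : Stopped E p') {x : Fin d → ℝ} (hx : x ∈ dyQ p) (hx' : x ∈ dyQ p') :
    p = p' := by
  wlog hle : p.1 ≤ p'.1 generalizing p p'
  · exact (this h' h hx' hx (le_of_not_ge hle)).symm
  obtain ⟨m, hm⟩ := Int.exists_add_of_le hle
  have e := anc_of_inter hm x hx hx'
  rcases Nat.eq_zero_or_pos m with rfl | hpos
  · rw [e]; simp [anc]
  · exact absurd (e ▸ h'.1) (h.2 m hpos)

theorem theta_pos (d : ℕ) : theta d ≠ 0 := by simp [theta]

theorem dense_of_subset {d : ℕ} {E : Set (Fin d → ℝ)} {p : ℤ × (Fin d → ℕ)} (h : dyQ p ⊆ E) :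
    Dense E p := by
  rw [Dense, inter_eq_right.2 h]
  refine mul_le_of_le_one_left zero_le (ENNReal.inv_le_one.2 ?_)
  exact one_le_pow₀ (by norm_num)

variable {n : ℕ}

theorem exists_stopped {E : Set (Fin (n + 1) → ℝ)} (hE : DownSet E) (hfin : volume E ≠ ⊤)
    {x : Fin (n + 1) → ℝ} (hx : x ∈ E) (hpos : ∀ j, 0 < x j) :
    ∃ p, Stopped E p ∧ ∀ j, |x j - (p.2 j : ℝ) * 2 ^ p.1| ≤ 3 * 2 ^ p.1 := by
  obtain ⟨δ, hδ, hδx⟩ : ∃ δ > (0 : ℝ), ∀ j, δ ≤ x j := by
    obtain ⟨j0, hj0⟩ := Finite.exists_min x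
    exact ⟨x j0, hpos j0, hj0⟩
  obtain ⟨a, ha⟩ := exists_pow_lt_of_lt_one hδ (show (1 / 2 : ℝ) < 1 by norm_num)
  set k : ℤ := -(a : ℤ) with hk
  have hl : (2 : ℝ) ^ k < δ := by rw [hk, zpow_neg, zpow_natCast]; simpa using ha
  set l : ℝ := 2 ^ k with hldef
  have hl0 : 0 < l := zpow_two_pos k
  set z : Fin (n + 1) → ℕ := fun j => ⌈x j / l⌉₊ - 2 with hz
  have hz2 : ∀ j, (z j : ℝ) * l < x j ∧ ((z j : ℝ) + 1) * l ≤ x j ∧ x j ≤ ((z j : ℝ) + 3) * l := fun j => by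
    have h1 : 1 < x j / l := by rw [lt_div_iff₀ hl0, one_mul]; linarith [hδx j]
    have h2 : 2 ≤ ⌈x j / l⌉₊ := Nat.lt_ceil.2 (by exact_mod_cast h1)
    have h3 := Nat.le_ceil (x j / l)
    have h4 := Nat.ceil_lt_add_one (show 0 ≤ x j / l by positivity)
    have e : (z j : ℝ) = ⌈x j / l⌉₊ - 2 := by rw [hz]; push_cast [Nat.cast_sub h2]; ring
    rw [e]
    rw [← sub_lt_iff_lt_add, lt_div_iff₀ hl0] at h4
    rw [div_le_iff₀ hl0] at h3
    refine ⟨?_, ?_, ?_⟩ <;> nlinarith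
  have hsub : dyQ (k, z) ⊆ E := fun y hy => hE x y (fun j => by
    have h : y j ∈ dyI k (z j) := hy j (mem_univ j)
    rw [dyI, mem_Ioc] at h
    rw [abs_of_pos (hpos j), abs_of_nonneg (le_trans (by positivity) h.1.le)]
    exact h.2.trans (hz2 j).2.1) hx
  obtain ⟨B, hB⟩ : ∃ B : ℕ, ∀ m, Dense E (anc (k, z) m) → m ≤ B := by
    have htop : volume E / theta (n + 1) ≠ ⊤ := ENNReal.div_ne_top hfin (theta_pos _)
    obtain ⟨B, hB⟩ := pow_unbounded_of_one_lt
      (max 1 ((volume E / theta (n + 1)).toReal) / l) (show (1 : ℝ) < 2 by norm_num)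
    refine ⟨B, fun m hm => ?_⟩
    by_contra hlt
    push Not at hlt
    have h1 : volume (dyQ (anc (k, z) m)) ≤ volume E / theta (n + 1) := by
      rw [ENNReal.le_div_iff_mul_le (Or.inl (theta_pos _)) (Or.inr hfin), mul_comm]
      exact hm.trans (measure_mono inter_subset_left)
    rw [volume_dyQ] at h1
    have hbig : max 1 ((volume E / theta (n + 1)).toReal) < 2 ^ (k + (m : ℤ)) := by
      rw [div_lt_iff₀ hl0] at hB
      refine hB.trans_le ?_
      rw [zpow_add₀ (two_ne_zero), zpow_natCast, mul_comm]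
      exact mul_le_mul_of_nonneg_left (pow_le_pow_right₀ (by norm_num) hlt.le) hl0.le
    have h2 : (2 : ℝ) ^ (k + (m : ℤ)) ≤ ((2 : ℝ) ^ (k + (m : ℤ))) ^ (n + 1) :=
      le_self_pow₀ ((le_max_left _ _).trans hbig.le) (by omega)
    have h3 := (ENNReal.toReal_le_toReal (by finiteness) htop).2 h1
    rw [ENNReal.toReal_pow, ENNReal.toReal_ofReal (zpow_two_pos _).le] at h3
    exact absurd (lt_of_le_of_lt (le_max_right _ _) hbig) (not_lt.2 (h2.trans h3))
  classical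
  set M := Nat.findGreatest (fun m => Dense E (anc (k, z) m)) B with hM
  have h0 : Dense E (anc (k, z) 0) := by simpa [anc] using dense_of_subset hsub
  refine ⟨anc (k, z) M, ⟨Nat.findGreatest_spec (P := fun m => Dense E (anc (k, z) m)) (Nat.zero_le B) h0,
    fun m hm hd => ?_⟩, fun j => ?_⟩
  · rw [anc_anc] at hd
    have := Nat.le_findGreatest (P := fun m => Dense E (anc (k, z) m)) (hB _ hd) hd
    rw [← hM] at this; omega
  · obtain ⟨b1, b2⟩ := anc_bounds (z j) M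
    have b1' : ((z j / 2 ^ M : ℕ) : ℝ) * 2 ^ M ≤ z j := by exact_mod_cast b1
    have b2' : (z j : ℝ) + 1 ≤ (((z j / 2 ^ M : ℕ) : ℝ) + 1) * 2 ^ M := by exact_mod_cast b2
    have hp : (1 : ℝ) ≤ 2 ^ M := one_le_pow₀ (by norm_num)
    obtain ⟨z1, -, z3⟩ := hz2 j
    simp only [anc]
    rw [zpow_add₀ (two_ne_zero), zpow_natCast, ← hldef, abs_le]
    constructor <;> nlinarith

/-- Lines in direction `i` along which membership changes within the cube. -/
def changing (E : Set (Fin (n + 1) → ℝ)) (i : Fin (n + 1)) (p : ℤ × (Fin (n + 1) → ℕ)) :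
    Set (Fin n → ℝ) :=
  (univ.pi fun j => dyI p.1 (p.2 (i.succAbove j))) ∩
    ((⋃ q : ℚ, {x' | (q : ℝ) ∈ dyI p.1 (p.2 i) ∧ i.insertNth (q : ℝ) x' ∈ E}) ∩
      {x' | i.insertNth (((p.2 i : ℝ) + 1) * 2 ^ p.1) x' ∉ E})

/-- Lines in direction `i` that meet `E` in positive length. -/
def shadow (E : Set (Fin (n + 1) → ℝ)) (i : Fin (n + 1)) : Set (Fin n → ℝ) :=
  ⋃ q : {q : ℚ // 0 < q}, {x' | i.insertNth ((q.1 : ℚ) : ℝ) x' ∈ E}

theorem measurableSet_changing {E : Set (Fin (n + 1) → ℝ)} (hE : MeasurableSet E) (i : Fin (n + 1))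
    (p : ℤ × (Fin (n + 1) → ℕ)) : MeasurableSet (changing E i p) := by
  have hm : ∀ t : ℝ, Measurable fun x' : Fin n → ℝ => i.insertNth (α := fun _ => ℝ) t x' := fun t =>
    (measurable_slice i).comp (measurable_const.prodMk measurable_id)
  refine (MeasurableSet.univ_pi fun _ => measurableSet_Ioc).inter
    ((MeasurableSet.iUnion fun q => ?_).inter (hm _ hE).compl)
  by_cases hq : (q : ℝ) ∈ dyI p.1 (p.2 i)
  · simp only [hq, true_and]; exact hm _ hE
  · simp [hq]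

theorem changing_subset_shadow (E : Set (Fin (n + 1) → ℝ)) (i : Fin (n + 1))
    (p : ℤ × (Fin (n + 1) → ℕ)) : changing E i p ⊆ shadow E i := fun x' hx => by
  obtain ⟨-, hq, -⟩ := hx
  obtain ⟨q, hq1, hq2⟩ := mem_iUnion.1 hq
  have h0 : (0 : ℝ) < q := lt_of_le_of_lt (by have := zpow_two_pos p.1; positivity) hq1.1
  exact mem_iUnion.2 ⟨⟨q, by exact_mod_cast h0⟩, hq2⟩

theorem changing_disjoint {E : Set (Fin (n + 1) → ℝ)} (hE : DownSet E) (i : Fin (n + 1))
    {p p' : ℤ × (Fin (n + 1) → ℕ)} (h : Stopped E p) (h' : Stopped E p') (hne : p ≠ p') :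
    Disjoint (changing E i p) (changing E i p') := by
  rw [Set.disjoint_left]
  intro x' hx hx'
  obtain ⟨hb, hq, ht⟩ := hx
  obtain ⟨hb', hq', ht'⟩ := hx'
  obtain ⟨q, hq1, hq2⟩ := mem_iUnion.1 hq
  obtain ⟨q', hq1', hq2'⟩ := mem_iUnion.1 hq'
  have hnonneg : ∀ {s : ℝ} {p : ℤ × (Fin (n + 1) → ℕ)}, s ∈ dyI p.1 (p.2 i) → 0 < s := fun {s p} hs =>
    lt_of_le_of_lt (by have := zpow_two_pos p.1; positivity) hs.1
  have hlt : ∀ {s : ℝ} {t : ℝ}, 0 < s → i.insertNth s x' ∈ E → i.insertNth t x' ∉ E → 0 ≤ t → s < t :=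
    fun {s t} hs h1 h2 ht0 => by
      by_contra hle
      push Not at hle
      refine h2 (hE _ _ (fun j => ?_) h1)
      rcases Fin.eq_self_or_eq_succAbove i j with rfl | ⟨c, rfl⟩
      · simpa [abs_of_nonneg ht0, abs_of_pos hs] using hle
      · simp
  have top_mem : ∀ p : ℤ × (Fin (n + 1) → ℕ), ((p.2 i : ℝ) + 1) * 2 ^ p.1 ∈ dyI p.1 (p.2 i) := fun p =>
    ⟨by have := zpow_two_pos p.1; nlinarith, le_rfl⟩
  have a := hlt (hnonneg hq1) hq2 ht' (hnonneg (top_mem p')).le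
  have b := hlt (hnonneg hq1') hq2' ht (hnonneg (top_mem p)).le
  obtain ⟨s, hs, hs'⟩ : ∃ s, s ∈ dyI p.1 (p.2 i) ∧ s ∈ dyI p'.1 (p'.2 i) := by
    rcases le_total (((p.2 i : ℝ) + 1) * 2 ^ p.1) (((p'.2 i : ℝ) + 1) * 2 ^ p'.1) with hle | hle
    · exact ⟨_, top_mem p, ⟨hq1'.1.trans b, hle⟩⟩
    · exact ⟨_, ⟨hq1.1.trans a, hle⟩, top_mem p'⟩
  have hmem : ∀ {s : ℝ} {p : ℤ × (Fin (n + 1) → ℕ)}, s ∈ dyI p.1 (p.2 i) →
      (x' ∈ univ.pi fun j => dyI p.1 (p.2 (i.succAbove j))) →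
      i.insertNth (α := fun _ => ℝ) s x' ∈ dyQ p := fun {s p} hs hb j _ => by
    rcases Fin.eq_self_or_eq_succAbove i j with rfl | ⟨c, rfl⟩
    · simpa using hs
    · simpa using hb c (mem_univ c)
  exact hne (stopped_inter_eq h h' (hmem hs hb) (hmem hs' hb'))

theorem tsum_changing_le {E : Set (Fin (n + 1) → ℝ)} (hE : DownSet E) (hm : MeasurableSet E)
    (i : Fin (n + 1)) :
    ∑' p : {p // Stopped E p}, volume (changing E i p.1) ≤ volume (shadow E i) := by
  rw [← measure_iUnion (fun a b hab => changing_disjoint hE i a.2 b.2 fun e => hab (Subtype.ext e))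
    fun p => measurableSet_changing hm i p.1]
  exact measure_mono (iUnion_subset fun p => changing_subset_shadow E i p.1)

/-- Uniform probability measure on a dyadic interval. -/
noncomputable def dyU (k : ℤ) (z : ℕ) : Measure ℝ :=
  (ENNReal.ofReal (2 ^ k))⁻¹ • volume.restrict (dyI k z)

instance dyU_isProb (k : ℤ) (z : ℕ) : IsProbabilityMeasure (dyU k z) := by
  constructor
  rw [dyU, Measure.smul_apply, Measure.restrict_apply_univ, volume_dyI, smul_eq_mul,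
    ENNReal.inv_mul_cancel (by simp [zpow_two_pos]) ENNReal.ofReal_ne_top]

theorem pi_dyU {d : ℕ} (k : ℤ) (z : Fin d → ℕ) :
    Measure.pi (fun j => dyU k (z j))
      = ((ENNReal.ofReal (2 ^ k)) ^ d)⁻¹ • volume.restrict (dyQ (k, z)) := by
  refine Measure.pi_eq fun s hs => ?_
  rw [Measure.smul_apply, Measure.restrict_apply (MeasurableSet.univ_pi hs), dyQ, ← pi_inter_distrib,
    volume_pi_pi, smul_eq_mul]
  simp only [dyU, Measure.smul_apply, smul_eq_mul, Finset.prod_mul_distrib, Finset.prod_const,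
    Finset.card_univ, Fintype.card_fin, ENNReal.inv_pow]
  congr 1
  exact Finset.prod_congr rfl fun j _ => (Measure.restrict_apply (hs j)).symm

/-- The hybrid of two points used between coordinates `i` and `i + 1`. -/
def hybrid (i : Fin (n + 1)) (w : (Fin (n + 1) → ℝ) × (Fin (n + 1) → ℝ)) : Fin n → ℝ :=
  fun j => if i.succAbove j < i then w.2 (i.succAbove j) else w.1 (i.succAbove j)

theorem hybrid_preserving (i : Fin (n + 1)) (μ : Fin (n + 1) → Measure ℝ)
    [∀ j, IsProbabilityMeasure (μ j)] :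
    MeasurePreserving (hybrid i) ((Measure.pi μ).prod (Measure.pi μ))
      (Measure.pi fun j => μ (i.succAbove j)) := by
  have h1 := (measurePreserving_arrowProdEquivProdArrow ℝ ℝ (Fin (n + 1)) μ μ).symm _
  have h2 := measurePreserving_piFinSuccAbove (α := fun _ => ℝ × ℝ) (fun j => (μ j).prod (μ j)) i
  have h3 : MeasurePreserving (fun (u : Fin n → ℝ × ℝ) j => if i.succAbove j < i then (u j).2 else (u j).1)
      (Measure.pi fun j => (μ (i.succAbove j)).prod (μ (i.succAbove j)))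
      (Measure.pi fun j => μ (i.succAbove j)) := by
    have := measurePreserving_pi (fun j => (μ (i.succAbove j)).prod (μ (i.succAbove j)))
      (fun j => μ (i.succAbove j))
      (f := fun j (u : ℝ × ℝ) => if i.succAbove j < i then u.2 else u.1) fun j => by
        split_ifs with hj
        · exact ⟨measurable_snd, by simp⟩
        · exact ⟨measurable_fst, by simp⟩
    exact this
  have h4 : MeasurePreserving Prod.snd (((μ i).prod (μ i)).prod
      (Measure.pi fun j => (μ (i.succAbove j)).prod (μ (i.succAbove j))))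
      (Measure.pi fun j => (μ (i.succAbove j)).prod (μ (i.succAbove j))) :=
    ⟨measurable_snd, by simp⟩
  exact h3.comp (h4.comp (h2.comp h1))

/-- In a stopped cube the changing lines have total measure comparable to a face. -/
theorem stopped_boundary {E : Set (Fin (n + 1) → ℝ)} (hE : DownSet E) (hm : MeasurableSet E)
    {p : ℤ × (Fin (n + 1) → ℕ)} (hp : Stopped E p) :
    theta (n + 1) * ENNReal.ofReal (2 ^ p.1) ^ n ≤ 2 * ∑ i, volume (changing E i p) := by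
  obtain ⟨k, z⟩ := p
  set l := ENNReal.ofReal (2 ^ k) with hl
  have hl0 : l ≠ 0 := by simp [hl, zpow_two_pos]
  have hlt : l ≠ ⊤ := ENNReal.ofReal_ne_top
  set ν := Measure.pi fun j => dyU k (z j) with hν
  have hνE : ∀ S, MeasurableSet S → ν S = (l ^ (n + 1))⁻¹ * volume (S ∩ dyQ (k, z)) := fun S hS => by
    rw [hν, pi_dyU, Measure.smul_apply, Measure.restrict_apply hS, smul_eq_mul]
  -- the density of `E` in the cube lies between `theta` and one half
  have hlow : theta (n + 1) ≤ ν E := by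
    rw [hνE E hm, ← mul_one (theta (n + 1)), ← ENNReal.inv_mul_cancel (pow_ne_zero (n + 1) hl0)
      (ENNReal.pow_ne_top hlt), mul_left_comm]
    refine mul_le_mul_right ?_ _
    have := hp.1
    rwa [Dense, volume_dyQ] at this
  have hhigh : ν E ≤ 2⁻¹ := by
    have h := hp.2 1 le_rfl
    rw [Dense, not_le, volume_dyQ] at h
    have hvol : volume (E ∩ dyQ (k, z)) ≤ theta (n + 1) * (2 * l) ^ (n + 1) := by
      refine (measure_mono (inter_subset_inter_right _ (dyQ_subset_anc (k, z) 1))).trans (h.le.trans ?_)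
      refine le_of_eq ?_
      simp only [anc]
      rw [zpow_add₀ (two_ne_zero), Nat.cast_one, zpow_one, ENNReal.ofReal_mul (zpow_two_pos k).le,
        ← hl, mul_comm l]
      simp
    rw [hνE E hm]
    refine (mul_le_mul_right hvol _).trans ?_
    rw [mul_pow, theta, pow_add (2 : ℝ≥0∞) (n + 1) 2, ENNReal.mul_inv (Or.inl (by simp)) (Or.inl (by finiteness))]
    calc (l ^ (n + 1))⁻¹ * ((2 ^ (n + 1))⁻¹ * (2 ^ 2)⁻¹ * (2 ^ (n + 1) * l ^ (n + 1)))
        = ((l ^ (n + 1))⁻¹ * l ^ (n + 1)) * (((2 ^ (n + 1))⁻¹ * 2 ^ (n + 1)) * (2 ^ 2)⁻¹) := by ring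
      _ ≤ 2⁻¹ := by
        rw [ENNReal.inv_mul_cancel (pow_ne_zero _ hl0) (ENNReal.pow_ne_top hlt),
          ENNReal.inv_mul_cancel (by simp) (by finiteness), one_mul, one_mul]
        exact ENNReal.inv_le_inv.2 (by norm_num)
  have hcompl : (2⁻¹ : ℝ≥0∞) ≤ ν Eᶜ := by
    rw [prob_compl_eq_one_sub hm, ← ENNReal.one_sub_inv_two]
    exact tsub_le_tsub_left hhigh 1
  -- pairs on both sides of the boundary cross a changing line
  set A : Set ((Fin (n + 1) → ℝ) × (Fin (n + 1) → ℝ)) :=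
    {w | w.1 ∈ E ∧ w.2 ∉ E ∧ w.1 ∈ dyQ (k, z) ∧ w.2 ∈ dyQ (k, z)}
  have hsub : A ⊆ ⋃ i, hybrid i ⁻¹' changing E i (k, z) := by
    rintro ⟨x, y⟩ ⟨hx, hy, hxQ, hyQ⟩
    set H : ℕ → Fin (n + 1) → ℝ := fun c j => if (j : ℕ) < c then y j else x j with hH
    have hH0 : H 0 ∈ E := by simpa [hH] using hx
    have hH1 : H (n + 1) ∉ E := by simpa [hH, Fin.is_le] using hy
    obtain ⟨c, hc, hc0, hc1⟩ : ∃ c < n + 1, H c ∈ E ∧ H (c + 1) ∉ E := by
      by_contra hcon
      push Not at hcon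
      have : ∀ c ≤ n + 1, H c ∈ E := by
        intro c
        induction c with
        | zero => exact fun _ => hH0
        | succ c ih => exact fun hc => hcon c (by omega) (ih (by omega))
      exact hH1 (this _ le_rfl)
    set i : Fin (n + 1) := ⟨c, hc⟩
    refine mem_iUnion.2 ⟨i, ?_⟩
    set x' := hybrid i (x, y) with hx'
    have e0 : H c = i.insertNth (x i) x' := by
      funext j
      rcases Fin.eq_self_or_eq_succAbove i j with rfl | ⟨b, rfl⟩
      · simp [hH, i]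
      · rw [Fin.insertNth_apply_succAbove]
        simp only [hH, hx', hybrid, i, Fin.lt_def]
    have e1 : H (c + 1) = i.insertNth (y i) x' := by
      funext j
      rcases Fin.eq_self_or_eq_succAbove i j with rfl | ⟨b, rfl⟩
      · simp [hH, i]
      · rw [Fin.insertNth_apply_succAbove]
        have hne : ((i.succAbove b : Fin (n + 1)) : ℕ) ≠ c := fun hh =>
          Fin.succAbove_ne i b (Fin.ext hh)
        simp only [hH, hx', hybrid, i, Fin.lt_def] at hne ⊢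
        by_cases hb : ((Fin.succAbove ⟨c, hc⟩ b : Fin (n + 1)) : ℕ) < c
        · rw [if_pos hb, if_pos (by omega)]
        · rw [if_neg hb, if_neg (by omega)]
    rw [e0] at hc0
    rw [e1] at hc1
    have hxi : x i ∈ dyI k (z i) := hxQ i (mem_univ i)
    have hyi : y i ∈ dyI k (z i) := hyQ i (mem_univ i)
    have hmono : ∀ {s t : ℝ}, 0 ≤ s → s ≤ t → i.insertNth t x' ∈ E → i.insertNth s x' ∈ E :=
      fun {s t} hs hst ht => hE _ _ (fun j => by
        rcases Fin.eq_self_or_eq_succAbove i j with rfl | ⟨b, rfl⟩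
        · simpa [abs_of_nonneg hs, abs_of_nonneg (hs.trans hst)] using hst
        · simp) ht
    have h0 : (0 : ℝ) ≤ (z i : ℝ) * 2 ^ k := by have := zpow_two_pos k; positivity
    refine ⟨fun j _ => ?_, ?_, ?_⟩
    · simp only [hybrid]
      split_ifs
      · exact hyQ _ (mem_univ _)
      · exact hxQ _ (mem_univ _)
    · obtain ⟨q, hq1, hq2⟩ := exists_rat_btwn hxi.1
      exact mem_iUnion.2 ⟨q, ⟨hq1, hq2.le.trans hxi.2⟩, hmono (h0.trans hq1.le) hq2.le hc0⟩
    · exact fun hh => hc1 (hmono (h0.trans hyi.1.le) hyi.2 hh)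
  have hA : ν E * ν Eᶜ = (ν.prod ν) A := by
    have hAe : A = (E ∩ dyQ (k, z)) ×ˢ (Eᶜ ∩ dyQ (k, z)) := by
      ext w; simp only [A, mem_ofPred_eq, mem_prod, mem_inter_iff, mem_compl_iff]; tauto
    rw [hAe, Measure.prod_prod, hνE _ (hm.inter (measurableSet_dyQ _)),
      hνE _ (hm.compl.inter (measurableSet_dyQ _)), hνE _ hm, hνE _ hm.compl]
    simp only [inter_assoc, inter_self]
  have hsum : theta (n + 1) * 2⁻¹ ≤ ∑ i, (l ^ n)⁻¹ * volume (changing E i (k, z)) := by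
    refine (mul_le_mul' hlow hcompl).trans ?_
    rw [hA]
    refine (measure_mono hsub).trans ((measure_iUnion_fintype_le _ _).trans (Finset.sum_le_sum fun i _ => ?_))
    rw [hν, (hybrid_preserving i fun j => dyU k (z j)).measure_preimage
      (measurableSet_changing hm i _).nullMeasurableSet, pi_dyU, Measure.smul_apply, smul_eq_mul]
    exact mul_le_mul_right (Measure.restrict_apply_le _ _) _
  rw [← Finset.mul_sum] at hsum
  calc theta (n + 1) * ENNReal.ofReal (2 ^ k) ^ n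
      = 2 * (theta (n + 1) * 2⁻¹) * l ^ n := by
        rw [mul_left_comm 2 (theta (n + 1)), ENNReal.mul_inv_cancel (by norm_num) (by norm_num), mul_one]
    _ ≤ 2 * ((l ^ n)⁻¹ * ∑ i, volume (changing E i (k, z))) * l ^ n := by gcongr
    _ = 2 * (((l ^ n)⁻¹ * l ^ n) * ∑ i, volume (changing E i (k, z))) := by ring
    _ = _ := by rw [ENNReal.inv_mul_cancel (pow_ne_zero _ hl0) (ENNReal.pow_ne_top hlt), one_mul]

end Vale.Agent.P137
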