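import Mathlib

/-!
# P137: the centred maximal function
-/

open MeasureTheory
open scoped ENNReal

namespace Vale.Agent.P137

/-- The open Euclidean ball of centre `x` and radius `r`. -/
def euclBall {d : ℕ} (x : Fin d → ℝ) (r : ℝ) : Set (Fin d → ℝ) :=
  {y | ∑ i, (y i - x i) ^ 2 < r ^ 2}

/-- The centred Hardy-Littlewood maximal function of a nonnegative function. -/
noncomputable def centredMax {d : ℕ} (F : (Fin d → ℝ) → ℝ≥0∞) (x : Fin d → ℝ) : ℝ≥0∞ :=
  ⨆ (r : ℝ) (_ : 0 < r), (∫⁻ y in euclBall x r, F y) / volume (euclBall x r)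

/-- Nonnegative, invariant under coordinate sign changes and nonincreasing in each `|x i|`. -/
def BlockDecreasing {d : ℕ} (f : (Fin d → ℝ) → ℝ) : Prop :=
  (∀ x, 0 ≤ f x) ∧ ∀ x y : Fin d → ℝ, (∀ i, |y i| ≤ |x i|) → f x ≤ f y

/-- The sum over the coordinate directions of `sup_h ‖f(· + h e_i) - f‖_1 / |h|`. -/
noncomputable def coordVariation {d : ℕ} (f : (Fin d → ℝ) → ℝ) : ℝ≥0∞ :=
  ∑ i, ⨆ h : ℝ, (∫⁻ x, ENNReal.ofReal |f (x + Pi.single i h) - f x|) / ENNReal.ofReal |h|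

end Vale.Agent.P137
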