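import Vale.Agent.P137.Basic

/-!
# P137: variation along coordinate lines of block decreasing functions
-/

open MeasureTheory Set
open scoped ENNReal

namespace Vale.Agent.P137

theorem measurable_of_evenDec {φ : ℝ → ℝ≥0∞} (h : ∀ s t : ℝ, |t| ≤ |s| → φ s ≤ φ t) : Measurable φ := by
  have e : φ = (fun u => φ (max u 0)) ∘ fun s => |s| := by
    funext s
    simp only [Function.comp_apply, max_eq_left (abs_nonneg s)]
    exact le_antisymm (h _ _ (by simp)) (h _ _ (by simp))
  rw [e]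
  refine Measurable.comp (Antitone.measurable fun u v huv => h _ _ ?_) (by fun_prop)
  rw [abs_of_nonneg (le_max_right _ _), abs_of_nonneg (le_max_right _ _)]
  exact max_le_max_right _ huv

theorem lintegral_shift (φ : ℝ → ℝ≥0∞) (hφ : Measurable φ) (h : ℝ) (s : Set ℝ) (hs : MeasurableSet s) :
    ∫⁻ t in (fun t => t + h) ⁻¹' s, φ (t + h) = ∫⁻ t in s, φ t :=
  (measurePreserving_add_right volume h).setLIntegral_comp_preimage hs hφ

theorem line_upper_pos {φ : ℝ → ℝ≥0∞} (hd : ∀ s t : ℝ, |t| ≤ |s| → φ s ≤ φ t) {h : ℝ} (hh : 0 < h) :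
    ∫⁻ s, (φ (s + h) - φ s) ≤ 2 * ENNReal.ofReal h * φ 0 := by
  have hm := measurable_of_evenDec hd
  rcases eq_or_ne (φ 0) ⊤ with htop | hne
  · have : 2 * ENNReal.ofReal h ≠ 0 := by simp [hh]
    rw [htop, ENNReal.mul_top this]; exact le_top
  have hle : ∀ t, φ t ≤ φ 0 := fun t => hd t 0 (by simp)
  have hzero : ∀ s ∉ Iio (0 : ℝ), φ (s + h) - φ s = 0 := fun s hs => by
    simp only [mem_Iio, not_lt] at hs
    exact tsub_eq_zero_of_le (hd _ _ (by rw [abs_of_nonneg hs, abs_of_nonneg (by linarith)]; linarith))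
  rw [← setLIntegral_eq_of_support_subset (s := Iio (0 : ℝ))
    (fun s hs => by by_contra hn; exact hs (hzero s hn))]
  have hU : Iio (0 : ℝ) = ⋃ N : ℕ, Ico (-((N : ℝ) + h)) 0 := by
    ext s
    simp only [mem_Iio, mem_iUnion, mem_Ico]
    refine ⟨fun hs => ?_, fun ⟨_, hN⟩ => hN.2⟩
    obtain ⟨N, hN⟩ := exists_nat_ge (-s)
    exact ⟨N, by linarith, hs⟩
  rw [hU, setLIntegral_iUnion_of_directed _ (Monotone.directed_le fun a b hab => by
    refine Ico_subset_Ico_left ?_
    have : (a : ℝ) ≤ b := by exact_mod_cast hab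
    linarith)]
  refine iSup_le fun N => ?_
  set A : ℝ := -((N : ℝ) + h) with hA
  have hN0 : (0 : ℝ) ≤ N := N.cast_nonneg
  have hsplit : Ico A 0 = Ico A (-h) ∪ Ico (-h) 0 :=
    (Ico_union_Ico_eq_Ico (by linarith) (by linarith)).symm
  rw [hsplit, lintegral_union measurableSet_Ico (Ico_disjoint_Ico_same)]
  have hnear : ∫⁻ s in Ico (-h) 0, (φ (s + h) - φ s) ≤ ENNReal.ofReal h * φ 0 :=
    calc ∫⁻ s in Ico (-h) 0, (φ (s + h) - φ s) ≤ ∫⁻ _ in Ico (-h) 0, φ 0 :=
          lintegral_mono fun s => tsub_le_self.trans (hle _)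
      _ = _ := by rw [setLIntegral_const, Real.volume_Ico, zero_sub, neg_neg, mul_comm]
  have hfin : ∫⁻ s in Ico A (-h), φ s ≠ ⊤ := by
    refine ne_top_of_le_ne_top ?_ (lintegral_mono fun s => hle s)
    rw [setLIntegral_const]
    exact ENNReal.mul_ne_top hne (by rw [Real.volume_Ico]; exact ENNReal.ofReal_ne_top)
  have hfar : ∫⁻ s in Ico A (-h), (φ (s + h) - φ s) ≤ ENNReal.ofReal h * φ 0 := by
    rw [lintegral_sub' hm.aemeasurable hfin ((ae_restrict_mem measurableSet_Ico).mono fun s hs =>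
      hd _ _ (by rw [abs_of_nonpos (by linarith [hs.2] : s ≤ 0),
        abs_of_nonpos (by linarith [hs.2] : s + h ≤ 0)]; linarith))]
    rw [tsub_le_iff_left]
    have e := lintegral_shift φ hm h (Ico (A + h) 0) measurableSet_Ico
    rw [preimage_add_const_Ico, add_sub_cancel_right, zero_sub] at e
    rw [e]
    calc ∫⁻ s in Ico (A + h) 0, φ s ≤ ∫⁻ s in Ico A (-h) ∪ Ico (-h) 0, φ s :=
          lintegral_mono_set (by rw [← hsplit]; exact Ico_subset_Ico_left (by linarith))
      _ = (∫⁻ s in Ico A (-h), φ s) + ∫⁻ s in Ico (-h) 0, φ s :=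
          lintegral_union measurableSet_Ico (Ico_disjoint_Ico_same)
      _ ≤ _ := by
          refine add_le_add_right ?_ _
          refine (lintegral_mono fun s => hle s).trans ?_
          rw [setLIntegral_const, Real.volume_Ico, zero_sub, neg_neg, mul_comm]
  calc _ ≤ ENNReal.ofReal h * φ 0 + ENNReal.ofReal h * φ 0 := add_le_add hfar hnear
    _ = _ := by ring

theorem line_upper {φ : ℝ → ℝ≥0∞} (hd : ∀ s t : ℝ, |t| ≤ |s| → φ s ≤ φ t) (h : ℝ) :
    ∫⁻ s, (φ (s + h) - φ s) ≤ 2 * ENNReal.ofReal |h| * φ 0 := by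
  rcases lt_trichotomy h 0 with hh | hh | hh
  · rw [abs_of_neg hh, ← (Measure.measurePreserving_neg (volume : Measure ℝ)).lintegral_comp]
    · refine le_trans (le_of_eq (lintegral_congr fun s => ?_)) (line_upper_pos hd (neg_pos.2 hh))
      have e : ∀ t, φ (-t) = φ t := fun t => le_antisymm (hd _ _ (by simp)) (hd _ _ (by simp))
      rw [show -s + h = -(s + -h) by ring, e, e]
    · exact ((measurable_of_evenDec hd).comp (measurable_id.add_const h)).sub (measurable_of_evenDec hd)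
  · simp [hh]
  · rw [abs_of_pos hh]; exact line_upper_pos hd hh

theorem line_lower {φ : ℝ → ℝ≥0∞} (hd : ∀ s t : ℝ, |t| ≤ |s| → φ s ≤ φ t) {h : ℝ} (hh : 0 < h)
    (hfin : ∫⁻ s, φ s ≠ ⊤) :
    ENNReal.ofReal h * φ h ≤ ∫⁻ s, (φ s - φ (s + h)) := by
  have hm := measurable_of_evenDec hd
  refine le_trans ?_ (setLIntegral_le_lintegral (Ioi 0) _)
  have e := lintegral_shift φ hm h (Ioi h) measurableSet_Ioi
  rw [preimage_add_const_Ioi, sub_self] at e
  have hmg : Measurable fun s => φ (s + h) := hm.comp (measurable_id.add_const h)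
  have hf1 : ∫⁻ s in Ioi h, φ s ≠ ⊤ := ne_top_of_le_ne_top hfin (setLIntegral_le_lintegral _ _)
  rw [lintegral_sub' hmg.aemeasurable (by rw [e]; exact hf1)
    ((ae_restrict_mem measurableSet_Ioi).mono fun s hs =>
      hd _ _ (by rw [abs_of_pos (mem_Ioi.1 hs), abs_of_pos (by linarith [mem_Ioi.1 hs])]; linarith)),
    e, ← Ioc_union_Ioi_eq_Ioi hh.le,
    lintegral_union measurableSet_Ioi (Ioc_disjoint_Ioi le_rfl), ENNReal.add_sub_cancel_right hf1]
  calc ENNReal.ofReal h * φ h = ∫⁻ _ in Ioc (0 : ℝ) h, φ h := by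
        rw [setLIntegral_const, Real.volume_Ioc, sub_zero, mul_comm]
    _ ≤ _ := setLIntegral_mono' measurableSet_Ioc fun s hs =>
        hd _ _ (by rw [abs_of_pos hs.1, abs_of_pos hh]; exact hs.2)

variable {n : ℕ}

theorem measurable_slice (i : Fin (n + 1)) :
    Measurable fun z : ℝ × (Fin n → ℝ) => i.insertNth (α := fun _ => ℝ) z.1 z.2 :=
  (MeasurableEquiv.piFinSuccAbove (fun _ => ℝ) i).symm.measurable

theorem lintegral_slices (i : Fin (n + 1)) {F : (Fin (n + 1) → ℝ) → ℝ≥0∞} (hF : Measurable F) :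
    ∫⁻ x, F x = ∫⁻ x' : Fin n → ℝ, ∫⁻ t : ℝ, F (i.insertNth t x') := by
  rw [← (volume_preserving_piFinSuccAbove (fun _ => ℝ) i).symm.lintegral_comp hF]
  exact lintegral_prod_symm _ (hF.comp (measurable_slice i)).aemeasurable

theorem slice_add_single (i : Fin (n + 1)) (t h : ℝ) (x' : Fin n → ℝ) :
    i.insertNth (α := fun _ => ℝ) t x' + Pi.single i h = i.insertNth (α := fun _ => ℝ) (t + h) x' := by
  funext j
  rcases Fin.eq_self_or_eq_succAbove i j with rfl | ⟨k, rfl⟩ <;>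
    simp [Fin.succAbove_ne]

theorem BlockDec.slice {F : (Fin (n + 1) → ℝ) → ℝ≥0∞} (hF : BlockDec F) (i : Fin (n + 1))
    (x' : Fin n → ℝ) (s t : ℝ) (h : |t| ≤ |s|) :
    F (i.insertNth s x') ≤ F (i.insertNth t x') := by
  refine hF _ _ fun j => ?_
  rcases Fin.eq_self_or_eq_succAbove i j with rfl | ⟨k, rfl⟩ <;> simp [h]

theorem variation_upper {G : (Fin (n + 1) → ℝ) → ℝ≥0∞} (hG : BlockDec G) (hm : Measurable G)
    (i : Fin (n + 1)) (h : ℝ) :
    ∫⁻ x, (G (x + Pi.single i h) - G x)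
      ≤ 2 * ENNReal.ofReal |h| * ∫⁻ x' : Fin n → ℝ, G (i.insertNth 0 x') := by
  have hd : Measurable fun x => G (x + Pi.single i h) - G x := (hm.comp (measurable_id.add_const _)).sub hm
  rw [lintegral_slices i hd, ← lintegral_const_mul' _ _
    (ENNReal.mul_ne_top (by norm_num) ENNReal.ofReal_ne_top)]
  refine lintegral_mono fun x' => ?_
  simp_rw [slice_add_single]
  exact line_upper (hG.slice i x') h

theorem slice_lower {F : (Fin (n + 1) → ℝ) → ℝ≥0∞} (hF : BlockDec F) (hm : Measurable F)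
    (hi : ∫⁻ x, F x ≠ ⊤) (i : Fin (n + 1)) {h : ℝ} (hh : 0 < h) :
    ENNReal.ofReal h * ∫⁻ x' : Fin n → ℝ, F (i.insertNth h x')
      ≤ ∫⁻ x, (F x - F (x + Pi.single i h)) := by
  have hae : ∀ᵐ x' : Fin n → ℝ, ∫⁻ t, F (i.insertNth t x') ≠ ⊤ := by
    have h1 : Measurable fun x' : Fin n → ℝ => ∫⁻ t, F (i.insertNth t x') :=
      (hm.comp (measurable_slice i)).lintegral_prod_left'
    refine (ae_lt_top h1 ?_).mono fun x' h => h.ne
    rw [← lintegral_slices i hm]; exact hi
  have hsl : Measurable fun x' : Fin n → ℝ => F (i.insertNth h x') :=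
    hm.comp ((measurable_slice i).comp (measurable_const.prodMk measurable_id))
  have hd : Measurable fun x => F x - F (x + Pi.single i h) :=
    hm.sub (hm.comp (measurable_id.add_const (Pi.single (M := fun _ => ℝ) i h)))
  rw [← lintegral_const_mul _ hsl, lintegral_slices i hd]
  refine lintegral_mono_ae (hae.mono fun x' hx => ?_)
  refine (line_lower (hF.slice i x') hh hx).trans (le_of_eq (lintegral_congr fun t => ?_))
  rw [slice_add_single]

theorem variation_lower {f : (Fin (n + 1) → ℝ) → ℝ} (hf : BlockDecreasing f) (hm : Measurable f)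
    (hi : ∫⁻ x, ENNReal.ofReal (f x) ≠ ⊤) (i : Fin (n + 1)) :
    ∫⁻ x' : Fin n → ℝ, (⨆ k : ℕ, ENNReal.ofReal (f (i.insertNth (1 / ((k : ℝ) + 1)) x')))
      ≤ coordVariation f := by
  have hFd : BlockDec fun x => ENNReal.ofReal (f x) := fun x y h =>
    ENNReal.ofReal_le_ofReal (hf.2 x y h)
  have hFm : Measurable fun x => ENNReal.ofReal (f x) := hm.ennreal_ofReal
  rw [lintegral_iSup (f := fun (k : ℕ) (x' : Fin n → ℝ) =>
      ENNReal.ofReal (f (i.insertNth (1 / ((k : ℝ) + 1)) x')))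
    (fun k => hFm.comp ((measurable_slice i).comp (measurable_const.prodMk measurable_id)))
    (fun a b hab x' => hFd.slice i x' _ _ (by
      rw [abs_of_pos (by positivity), abs_of_pos (by positivity)]
      gcongr))]
  refine iSup_le fun k => ?_
  have hpos : (0 : ℝ) < 1 / ((k : ℝ) + 1) := by positivity
  generalize 1 / ((k : ℝ) + 1) = h at hpos ⊢
  unfold coordVariation
  refine le_trans ?_ (Finset.single_le_sum (fun _ _ => zero_le) (Finset.mem_univ i))
  refine le_iSup_of_le h ?_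
  rw [ENNReal.le_div_iff_mul_le (Or.inl (by simp [hpos.ne'])) (Or.inl ENNReal.ofReal_ne_top),
    abs_of_pos hpos, mul_comm]
  refine (slice_lower hFd hFm hi i hpos).trans (lintegral_mono fun x => ?_)
  rw [← ENNReal.ofReal_sub _ (hf.1 _)]
  exact ENNReal.ofReal_le_ofReal (by rw [abs_sub_comm]; exact le_abs_self _)

end Vale.Agent.P137
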