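import Vale.Agent.P137.RadialKernel

/-!
# P137: polar coordinates, dilations and rotations
-/

open MeasureTheory Set
open scoped ENNReal

namespace Vale.Agent.P137.Radial

/-- The Euclidean norm on `Fin d → ℝ`. -/
noncomputable def nrm {d : ℕ} (x : Fin d → ℝ) : ℝ := Real.sqrt (sq x)

lemma measurable_nrm {d : ℕ} : Measurable (nrm (d := d)) := measurable_sq.sqrt

lemma continuous_nrm {d : ℕ} : Continuous (nrm (d := d)) := continuous_sq.sqrt

lemma nrm_nonneg {d : ℕ} (x : Fin d → ℝ) : 0 ≤ nrm x := Real.sqrt_nonneg _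

lemma nrm_sq {d : ℕ} (x : Fin d → ℝ) : nrm x ^ 2 = sq x := Real.sq_sqrt (sq_nonneg' x)

lemma nrm_smul {d : ℕ} (c : ℝ) (hc : 0 ≤ c) (x : Fin d → ℝ) : nrm (c • x) = c * nrm x := by
  rw [nrm, nrm, sq_smul, Real.sqrt_mul (by positivity), Real.sqrt_sq hc]

lemma norm_toLp {d : ℕ} (x : Fin d → ℝ) : ‖WithLp.toLp 2 x‖ = nrm x := by
  rw [EuclideanSpace.norm_eq, nrm, sq]
  simp [sq_abs]

lemma nrm_pos {d : ℕ} {x : Fin d → ℝ} (hx : x ≠ 0) : 0 < nrm x := by
  rw [← norm_toLp, norm_pos_iff]
  simpa using hx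

lemma nrm_e0 (n : ℕ) : nrm (e0 n) = 1 := by
  simp [nrm, sq, e0, Fin.sum_univ_succ]

/-- The constant of the polar coordinates. -/
noncomputable def polar (n : ℕ) : ℝ≥0∞ :=
  (volume : Measure (EuclideanSpace ℝ (Fin (n + 2)))).toSphere Set.univ

lemma polar_ne (n : ℕ) : polar n ≠ 0 ∧ polar n ≠ ⊤ := by
  refine ⟨fun h => ?_, measure_ne_top _ _⟩
  exact Measure.toSphere_ne_zero (volume : Measure (EuclideanSpace ℝ (Fin (n + 2))))
    (Measure.measure_univ_eq_zero.1 h)

theorem lintegral_nrm (n : ℕ) {f : ℝ → ℝ≥0∞} (hf : Measurable f) :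
    ∫⁻ x : Fin (n + 2) → ℝ, f (nrm x) =
      polar n * ∫⁻ y in Ioi 0, ENNReal.ofReal (y ^ (n + 1)) * f y := by
  set μ : Measure (EuclideanSpace ℝ (Fin (n + 2))) := volume with hμ
  have e1 : ∫⁻ x : Fin (n + 2) → ℝ, f (nrm x) = ∫⁻ v, f ‖v‖ ∂μ := by
    rw [hμ]
    refine (lintegral_congr fun x => ?_).trans
      ((PiLp.volume_preserving_toLp (Fin (n + 2))).lintegral_comp (f := fun v => f ‖v‖) (hf.comp measurable_norm))
    simp [norm_toLp]
  rw [e1]
  calc ∫⁻ v, f ‖v‖ ∂μ
      = ∫⁻ v : ({(0)}ᶜ : Set (EuclideanSpace ℝ (Fin (n + 2)))), f ‖v.1‖ ∂(μ.comap (↑)) := by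
        rw [lintegral_subtype_comap (measurableSet_singleton _).compl fun v => f ‖v‖,
          restrict_compl_singleton]
    _ = ∫⁻ p, f p.2.1 ∂μ.toSphere.prod (Measure.volumeIoiPow (n + 1)) := by
        have h := μ.measurePreserving_homeomorphUnitSphereProd
        simp only [finrank_euclideanSpace, Fintype.card_fin] at h
        rw [show n + 2 - 1 = n + 1 from rfl] at h
        refine (lintegral_congr fun v => ?_).trans (h.lintegral_comp
          (f := fun p => f p.2.1) (hf.comp (measurable_subtype_coe.comp measurable_snd)))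
        simp
    _ = polar n * ∫⁻ y in Ioi 0, ENNReal.ofReal (y ^ (n + 1)) * f y := by
        rw [lintegral_prod (fun p : Metric.sphere (0 : EuclideanSpace ℝ (Fin (n + 2))) 1 × Ioi (0 : ℝ) =>
            f p.2.1) ((hf.comp (measurable_subtype_coe.comp measurable_snd)).aemeasurable :
            AEMeasurable (fun p : Metric.sphere (0 : EuclideanSpace ℝ (Fin (n + 2))) 1 × Ioi (0 : ℝ) =>
            f p.2.1) _)]
        simp only [lintegral_const]
        rw [mul_comm]
        congr 1
        rw [Measure.volumeIoiPow, lintegral_withDensity_eq_lintegral_mul (g := fun y : Ioi (0 : ℝ) => f y.1)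
          _ ((measurable_subtype_coe.pow_const _).ennreal_ofReal) (hf.comp measurable_subtype_coe)]
        exact lintegral_subtype_comap measurableSet_Ioi fun y => ENNReal.ofReal (y ^ (n + 1)) * f y

theorem lintegral_comp_smul {d : ℕ} {g : (Fin d → ℝ) → ℝ≥0∞} (hg : Measurable g) {c : ℝ} (hc : 0 < c) :
    ∫⁻ z, g (c • z) = ENNReal.ofReal ((c ^ d)⁻¹) * ∫⁻ y, g y := by
  rw [← lintegral_map hg (measurable_const_smul c), Measure.map_addHaar_smul _ hc.ne',
    lintegral_smul_measure, smul_eq_mul, Module.finrank_fin_fun, abs_of_pos (by positivity)]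

theorem lintegral_rotate {d : ℕ} {x e : Fin d → ℝ} (h : nrm e = nrm x) {r : ℝ} {g : ℝ → ℝ≥0∞}
    (hg : Measurable g) :
    ∫⁻ z in euclBall x r, g (nrm z) = ∫⁻ z in euclBall e r, g (nrm z) := by
  set v := WithLp.toLp 2 e with hv
  set w := WithLp.toLp 2 x with hw
  set R := Submodule.reflection (ℝ ∙ (v - w))ᗮ with hR
  have hRv : R v = w := Submodule.reflection_sub (by rw [hv, hw, norm_toLp, norm_toLp, h])
  set T : (Fin d → ℝ) → (Fin d → ℝ) := fun z => WithLp.ofLp (R (WithLp.toLp 2 z)) with hT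
  have hTm : MeasurePreserving T volume volume :=
    (PiLp.volume_preserving_ofLp (Fin d)).comp
      (R.measurePreserving.comp (PiLp.volume_preserving_toLp (Fin d)))
  have hn : ∀ z, nrm (T z) = nrm z := fun z => by
    rw [← norm_toLp, ← norm_toLp]
    simp [hT]
  have hpre : T ⁻¹' euclBall x r = euclBall e r := by
    ext z
    have e1 : sq (T z - x) = sq (z - e) := by
      rw [← nrm_sq, ← nrm_sq, ← norm_toLp, ← norm_toLp, WithLp.toLp_sub, WithLp.toLp_sub, hT]
      simp only [WithLp.toLp_ofLp]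
      rw [← hw, ← hv, ← hRv, ← map_sub, LinearIsometryEquiv.norm_map]
    simp only [sq, Pi.sub_apply] at e1
    simp only [euclBall, Set.mem_preimage, Set.mem_ofPred_eq, e1]
  rw [← hTm.setLIntegral_comp_preimage (f := fun z => g (nrm z)) (measurableSet_euclBall x r)
    (hg.comp measurable_nrm), hpre]
  simp only [hn]

/-- A ball average of a radial function, moved to the unit vector. -/
theorem ball_average_eq (n : ℕ) {x : Fin (n + 2) → ℝ} (hx : x ≠ 0) {r : ℝ}
    {g : ℝ → ℝ≥0∞} (hg : Measurable g) :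
    (∫⁻ y in euclBall x r, g (nrm y)) / volume (euclBall x r) =
      (∫⁻ z in euclBall (e0 n) (r / nrm x), g (nrm x * nrm z)) /
        volume (euclBall (e0 n) (r / nrm x)) := by
  set ρ := nrm x with hρ
  have hρ0 : 0 < ρ := nrm_pos hx
  have key : ∀ g : ℝ → ℝ≥0∞, Measurable g → ∫⁻ y in euclBall x r, g (nrm y) =
      ENNReal.ofReal (ρ ^ (n + 2)) * ∫⁻ z in euclBall (e0 n) (r / ρ), g (ρ * nrm z) := by
    intro g hg
    rw [lintegral_rotate (e := ρ • e0 n) (by rw [nrm_smul _ hρ0.le, nrm_e0, mul_one, hρ]) hg,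
      ← lintegral_indicator (measurableSet_euclBall _ _), ← lintegral_indicator (measurableSet_euclBall _ _)]
    have h1 := lintegral_comp_smul (g := (euclBall (ρ • e0 n) r).indicator fun y => g (nrm y))
      ((hg.comp measurable_nrm).indicator (measurableSet_euclBall _ _)) hρ0
    have e1 : ∀ z, (euclBall (ρ • e0 n) r).indicator (fun y => g (nrm y)) (ρ • z) =
        (euclBall (e0 n) (r / ρ)).indicator (fun z => g (ρ * nrm z)) z := fun z => by
      have : ρ • z ∈ euclBall (ρ • e0 n) r ↔ z ∈ euclBall (e0 n) (r / ρ) := by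
        simp only [euclBall, Set.mem_ofPred_eq, Pi.smul_apply, smul_eq_mul, ← mul_sub, mul_pow,
          ← Finset.mul_sum, div_pow]
        rw [lt_div_iff₀ (by positivity), mul_comm]
      simp only [Set.indicator]
      rw [nrm_smul _ hρ0.le]
      classical
      exact if_congr this rfl rfl
    simp only [e1] at h1
    rw [h1, ← mul_assoc, ← ENNReal.ofReal_mul (by positivity), mul_inv_cancel₀ (by positivity),
      ENNReal.ofReal_one, one_mul]
  have hv := key (fun _ => 1) measurable_const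
  simp only [setLIntegral_const, one_mul] at hv
  rw [key g hg, hv, ENNReal.mul_div_mul_left _ _ (by rw [Ne, ENNReal.ofReal_eq_zero, not_le]; positivity)
    ENNReal.ofReal_ne_top]

end Vale.Agent.P137.Radial
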