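import Mathlib

/-!
# P137: paired level crossings of a sampled function

For a 0-1 sequence `b` consecutive flips are paired; a sum `∑ w db` over a block then has the sign
of the net change up to `∑ |w l - w l'|` over the pairs in the block.
-/

open MeasureTheory Finset

namespace Vale.Agent.P137.Radial

/-- `1` at a flip of a 0-1 sequence. -/
def flip' (b : ℕ → ℝ) (l : ℕ) : ℝ := |b (l + 1) - b l|

/-- `1` if `l < m` are consecutive flips. -/
def pairInd (b : ℕ → ℝ) (l m : ℕ) : ℝ :=
  flip' b l * flip' b m * ∏ i ∈ Ioo l m, (1 - flip' b i)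

/-- Sum over the pairs inside `[p, q)` with weight `v`. -/
def pairSum (b : ℕ → ℝ) (v : ℕ → ℕ → ℝ) (p q : ℕ) : ℝ :=
  ∑ m ∈ Ico p q, ∑ l ∈ Ico p m, pairInd b l m * v l m

lemma flip_mem {b : ℕ → ℝ} (hb : ∀ l, b l = 0 ∨ b l = 1) (l : ℕ) :
    0 ≤ flip' b l ∧ flip' b l ≤ 1 := by
  rcases hb l with h | h <;> rcases hb (l + 1) with h' | h' <;> simp [flip', h, h']

lemma pairInd_nonneg {b : ℕ → ℝ} (hb : ∀ l, b l = 0 ∨ b l = 1) (l m : ℕ) :
    0 ≤ pairInd b l m :=
  mul_nonneg (mul_nonneg (flip_mem hb l).1 (flip_mem hb m).1)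
    (Finset.prod_nonneg fun i _ => sub_nonneg.2 (flip_mem hb i).2)

lemma pairSum_nonneg {b : ℕ → ℝ} (hb : ∀ l, b l = 0 ∨ b l = 1) {v : ℕ → ℕ → ℝ}
    (hv : ∀ l m, 0 ≤ v l m) (p q : ℕ) : 0 ≤ pairSum b v p q :=
  Finset.sum_nonneg fun m _ => Finset.sum_nonneg fun l _ =>
    mul_nonneg (pairInd_nonneg hb l m) (hv l m)

lemma neg_sum_le {b w : ℕ → ℝ} (hb : ∀ l, b l = 0 ∨ b l = 1) (hw : ∀ l, 0 ≤ w l) {p q : ℕ}
    (hpq : p ≤ q) (h : b p ≤ b q) :
    -∑ l ∈ Ico p q, w l * (b (l + 1) - b l) ≤ pairSum b (fun l m => |w l - w m|) p q := by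
  set v : ℕ → ℕ → ℝ := fun l m => |w l - w m| with hv
  suffices H : (b q = b p ∧
        0 ≤ ∑ l ∈ Ico p q, w l * (b (l + 1) - b l) + pairSum b v p q) ∨
      ∃ a, p ≤ a ∧ a < q ∧ flip' b a = 1 ∧ (∀ i ∈ Ioo a q, flip' b i = 0) ∧
        (b q - b p) * w a ≤ ∑ l ∈ Ico p q, w l * (b (l + 1) - b l) + pairSum b v p q by
    rcases H with ⟨-, H⟩ | ⟨a, -, -, -, -, H⟩
    · linarith
    · nlinarith [hw a, mul_nonneg (sub_nonneg.2 h) (hw a)]
  clear h
  induction q, hpq using Nat.le_induction with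
  | base => exact Or.inl ⟨rfl, by simp [pairSum]⟩
  | succ q hpq ih =>
    have hsum : ∑ l ∈ Ico p (q + 1), w l * (b (l + 1) - b l) =
        ∑ l ∈ Ico p q, w l * (b (l + 1) - b l) + w q * (b (q + 1) - b q) :=
      Finset.sum_Ico_succ_top hpq _
    have hQ : pairSum b v p (q + 1) = pairSum b v p q + ∑ l ∈ Ico p q, pairInd b l q * v l q :=
      Finset.sum_Ico_succ_top hpq _
    have hQ0 : ∀ l ∈ Ico p q, 0 ≤ pairInd b l q * v l q := fun l _ =>
      mul_nonneg (pairInd_nonneg hb l q) (abs_nonneg _)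
    rw [hsum, hQ]
    have hd0 := Finset.sum_nonneg hQ0
    rcases eq_or_ne (b (q + 1)) (b q) with he | hne
    · -- no flip
      rw [he, sub_self, mul_zero, add_zero]
      rcases ih with ⟨e, H⟩ | ⟨a, ha1, ha2, ha3, ha4, H⟩
      · exact Or.inl ⟨e, by linarith⟩
      · refine Or.inr ⟨a, ha1, by omega, ha3, fun i hi => ?_, by linarith⟩
        rw [Finset.mem_Ioo] at hi
        rcases Nat.lt_succ_iff_lt_or_eq.1 hi.2 with hiq | rfl
        · exact ha4 i (Finset.mem_Ioo.2 ⟨hi.1, hiq⟩)
        · simp [flip', he]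
    · have hf : flip' b q = 1 := by
        rcases hb q with h' | h' <;> rcases hb (q + 1) with h'' | h'' <;>
          simp [flip', h', h''] at hne ⊢
      refine Or.inr ⟨q, hpq, by omega, hf, fun i hi => ?_, ?_⟩
      · exfalso
        rw [Finset.mem_Ioo] at hi
        omega
      rcases ih with ⟨e, H⟩ | ⟨a, ha1, ha2, ha3, ha4, H⟩
      · rw [← e]
        nlinarith
      · have hpair : pairInd b a q = 1 := by
          rw [pairInd, ha3, hf, Finset.prod_eq_one fun i hi => by rw [ha4 i hi, sub_zero]]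
          ring
        have hge : |w a - w q| ≤ ∑ l ∈ Ico p q, pairInd b l q * v l q := by
          have := Finset.single_le_sum hQ0 (Finset.mem_Ico.2 ⟨ha1, ha2⟩)
          simpa [hpair, hv] using this
        have h1 : -|w a - w q| ≤ (b q - b p) * (w a - w q) := by
          have : |b q - b p| ≤ 1 := by
            rcases hb q with h' | h' <;> rcases hb p with h'' | h'' <;> simp [h', h'']
          have h2 := mul_le_mul_of_nonneg_right this (abs_nonneg (w a - w q))
          rw [← abs_mul, one_mul] at h2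
          exact (abs_le.1 h2).1
        nlinarith

lemma flip_one_sub (b : ℕ → ℝ) (l : ℕ) : flip' (fun i => 1 - b i) l = flip' b l := by
  simp only [flip']
  rw [abs_sub_comm]
  ring_nf

lemma sign_sum_le {b w : ℕ → ℝ} (hb : ∀ l, b l = 0 ∨ b l = 1) (hw : ∀ l, 0 ≤ w l) {p q : ℕ}
    (hpq : p ≤ q) {o : ℝ} (ho : o = 1 ∨ o = -1) (h : 0 ≤ o * (b q - b p)) :
    -(o * ∑ l ∈ Ico p q, w l * (b (l + 1) - b l)) ≤
      pairSum b (fun l m => |w l - w m|) p q := by
  rcases ho with rfl | rfl
  · simpa using neg_sum_le hb hw hpq (by linarith)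
  · have := neg_sum_le (b := fun i => 1 - b i) (fun l => by rcases hb l with h' | h' <;> simp [h'])
      hw hpq (by linarith)
    have e : pairSum (fun i => 1 - b i) (fun l m => |w l - w m|) p q =
        pairSum b (fun l m => |w l - w m|) p q := by
      simp only [pairSum, pairInd, flip_one_sub]
    rw [e] at this
    refine le_trans (le_of_eq ?_) this
    simp only [sub_sub_sub_cancel_left]
    rw [Finset.mul_sum, ← Finset.sum_neg_distrib, ← Finset.sum_neg_distrib]
    exact Finset.sum_congr rfl fun l _ => by ring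

lemma sum_pair_le {b : ℕ → ℝ} (hb : ∀ l, b l = 0 ∨ b l = 1) :
    ∀ m, ∑ l ∈ range m, flip' b l * ∏ i ∈ Ioo l m, (1 - flip' b i) ≤ 1
  | 0 => by simp
  | m + 1 => by
    rw [Finset.sum_range_succ]
    have e : ∀ l ∈ range m, flip' b l * ∏ i ∈ Ioo l (m + 1), (1 - flip' b i) =
        (flip' b l * ∏ i ∈ Ioo l m, (1 - flip' b i)) * (1 - flip' b m) := by
      intro l hl
      rw [Finset.mem_range] at hl
      rw [show Ioo l (m + 1) = insert m (Ioo l m) by
        ext i; simp only [Finset.mem_insert, Finset.mem_Ioo]; omega]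
      rw [Finset.prod_insert (by simp)]
      ring
    rw [Finset.sum_congr rfl e, ← Finset.sum_mul,
      show Ioo m (m + 1) = (∅ : Finset ℕ) from Finset.eq_empty_of_forall_notMem fun i hi => by
        rw [Finset.mem_Ioo] at hi; omega]
    have h1 := mul_le_mul_of_nonneg_right (sum_pair_le hb m) (sub_nonneg.2 (flip_mem hb m).2)
    simp only [Finset.prod_empty, mul_one]
    linarith [(flip_mem hb m).1]

lemma geom_le {d : ℝ} (hd : 0 ≤ d) {M : ℝ} (hM : 0 < M) (K : ℕ) :
    ∑ i ∈ range K, (if d ≤ 8 * (2 ^ i * M) then Real.sqrt (d / (2 ^ i * M)) else 0) ≤ 12 := by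
  set s : ℕ → ℝ := fun i =>
    if d ≤ 8 * (2 ^ i * M) then 4 * Real.sqrt (d / (2 ^ i * M)) else 12 with hs
  suffices H : ∀ K, ∑ i ∈ range K,
      (if d ≤ 8 * (2 ^ i * M) then Real.sqrt (d / (2 ^ i * M)) else 0) + s K ≤ 12 by
    have : 0 ≤ s K := by simp only [hs]; split_ifs <;> positivity
    linarith [H K]
  intro K
  induction K with
  | zero =>
    simp only [Finset.range_zero, Finset.sum_empty, zero_add, hs, pow_zero, one_mul]
    split_ifs with h
    · have : Real.sqrt (d / M) ≤ 3 := by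
        rw [Real.sqrt_le_iff]
        exact ⟨by norm_num, by rw [div_le_iff₀ hM]; linarith⟩
      linarith
    · exact le_rfl
  | succ K ih =>
    rw [Finset.sum_range_succ]
    have hP : (0 : ℝ) < 2 ^ K * M := by positivity
    have e : Real.sqrt (d / (2 ^ (K + 1) * M)) ≤ 3 / 4 * Real.sqrt (d / (2 ^ K * M)) := by
      rw [pow_succ, show d / (2 ^ K * 2 * M) = 1 / 2 * (d / (2 ^ K * M)) by field_simp,
        Real.sqrt_mul (by norm_num)]
      refine mul_le_mul_of_nonneg_right ?_ (Real.sqrt_nonneg _)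
      rw [Real.sqrt_le_iff]
      norm_num
    simp only [hs] at ih ⊢
    split_ifs at ih ⊢ with h1 h2 h2
    · linarith
    · exfalso
      rw [pow_succ] at h2
      nlinarith
    · have : Real.sqrt (d / (2 ^ (K + 1) * M)) ≤ 3 := by
        rw [Real.sqrt_le_iff]
        exact ⟨by norm_num, by rw [div_le_iff₀ (by positivity)]; linarith [mul_pos hP hM]⟩
      linarith
    · linarith

/-- The windows of eight cells at all scales see each pair boundedly often, with geometric weights. -/
lemma count_le {b : ℕ → ℝ} (hb : ∀ l, b l = 0 ∨ b l = 1) {M : ℕ} (hM : 0 < M) (K : ℕ) (n : ℕ → ℕ)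
    (Lm : ℕ) (hn : ∀ i < K, ∀ j < n i, (j + 8) * (2 ^ i * M) ≤ Lm) :
    ∑ i ∈ range K, ∑ j ∈ range (n i),
      pairSum b (fun l m => Real.sqrt (((m : ℝ) - l) / (2 ^ i * M)))
        (j * (2 ^ i * M)) ((j + 8) * (2 ^ i * M)) ≤ 108 * ∑ m ∈ range Lm, flip' b m := by
  have key : ∀ i < K, ∑ j ∈ range (n i),
      pairSum b (fun l m => Real.sqrt (((m : ℝ) - l) / (2 ^ i * M)))
        (j * (2 ^ i * M)) ((j + 8) * (2 ^ i * M)) ≤
      ∑ m ∈ range Lm, ∑ l ∈ range m, pairInd b l m * (9 *
        (if (m : ℝ) - l ≤ 8 * (2 ^ i * M) then Real.sqrt (((m : ℝ) - l) / (2 ^ i * M)) else 0)) := by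
    intro i hi
    set P := 2 ^ i * M with hP
    have hP0 : 0 < P := by positivity
    have e : ∀ j ∈ range (n i),
        pairSum b (fun l m => Real.sqrt (((m : ℝ) - l) / (2 ^ i * M))) (j * P) ((j + 8) * P) =
        ∑ m ∈ range Lm, ∑ l ∈ range m, if j * P ≤ l ∧ m < (j + 8) * P then
          pairInd b l m * Real.sqrt (((m : ℝ) - l) / (2 ^ i * M)) else 0 := by
      intro j hj
      have hj' := hn i hi j (Finset.mem_range.1 hj)
      have hsub : Ico (j * P) ((j + 8) * P) ⊆ range Lm := fun m hm => by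
        rw [Finset.mem_Ico] at hm
        rw [Finset.mem_range, hP] at *
        omega
      rw [pairSum, ← Finset.sum_subset hsub ?_]
      · refine Finset.sum_congr rfl fun m hm => ?_
        rw [Finset.mem_Ico] at hm
        rw [← Finset.sum_filter]
        refine Finset.sum_congr ?_ fun _ _ => rfl
        ext l
        simp only [Finset.mem_Ico, Finset.mem_filter, Finset.mem_range]
        omega
      · intro m _ hm
        rw [Finset.mem_Ico] at hm
        refine Finset.sum_eq_zero fun l hl => if_neg ?_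
        rw [Finset.mem_range] at hl
        omega
    rw [Finset.sum_congr rfl e, Finset.sum_comm]
    refine Finset.sum_le_sum fun m _ => ?_
    rw [Finset.sum_comm]
    refine Finset.sum_le_sum fun l hl => ?_
    rw [← Finset.sum_filter, Finset.sum_const, nsmul_eq_mul]
    by_cases hd : (m : ℝ) - l ≤ 8 * (2 ^ i * M)
    · rw [if_pos hd]
      have hcard : ((range (n i)).filter fun j => j * P ≤ l ∧ m < (j + 8) * P).card ≤ 9 := by
        refine le_trans (Finset.card_le_card (t := Icc (l / P - 8) (l / P)) fun j hj => ?_)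
          (by rw [Nat.card_Icc]; omega)
        simp only [Finset.mem_filter, Finset.mem_range] at hj hl
        rw [Finset.mem_Icc]
        have h1 : j ≤ l / P := (Nat.le_div_iff_mul_le hP0).2 hj.2.1
        have h2 : l / P < j + 8 := (Nat.div_lt_iff_lt_mul hP0).2 (by omega)
        omega
      calc _ ≤ (9 : ℝ) * (pairInd b l m * Real.sqrt (((m : ℝ) - l) / (2 ^ i * M))) :=
            mul_le_mul_of_nonneg_right (by exact_mod_cast hcard)
              (mul_nonneg (pairInd_nonneg hb l m) (Real.sqrt_nonneg _))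
        _ = _ := by ring
    · rw [if_neg hd, Finset.filter_false_of_mem]
      · simp
      · intro j _ hj
        apply hd
        have : m < l + 8 * P := by rw [Nat.add_mul] at hj; omega
        have : (m : ℝ) < l + 8 * (2 ^ i * M) := by exact_mod_cast this
        linarith
  refine (Finset.sum_le_sum fun i hi => key i (Finset.mem_range.1 hi)).trans ?_
  rw [Finset.sum_comm, Finset.mul_sum]
  refine Finset.sum_le_sum fun m _ => ?_
  rw [Finset.sum_comm]
  calc ∑ l ∈ range m, ∑ i ∈ range K, pairInd b l m * (9 *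
        (if (m : ℝ) - l ≤ 8 * (2 ^ i * M) then Real.sqrt (((m : ℝ) - l) / (2 ^ i * M)) else 0))
      ≤ ∑ l ∈ range m, pairInd b l m * 108 := by
        refine Finset.sum_le_sum fun l hl => ?_
        rw [← Finset.mul_sum, ← Finset.mul_sum]
        refine mul_le_mul_of_nonneg_left ?_ (pairInd_nonneg hb l m)
        have hd : (0 : ℝ) ≤ (m : ℝ) - l := by
          rw [Finset.mem_range] at hl
          rw [sub_nonneg]; exact_mod_cast hl.le
        have := geom_le hd (M := (M : ℝ)) (by exact_mod_cast hM) K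
        linarith
    _ = 108 * (flip' b m * ∑ l ∈ range m, flip' b l * ∏ i ∈ Ioo l m, (1 - flip' b i)) := by
        rw [Finset.mul_sum, Finset.mul_sum]
        exact Finset.sum_congr rfl fun l _ => by rw [pairInd]; ring
    _ ≤ 108 * (flip' b m * 1) := by
        gcongr
        · exact (flip_mem hb m).1
        · exact sum_pair_le hb m
    _ = 108 * flip' b m := by ring

end Vale.Agent.P137.Radial
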