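import Vale.Agent.P137.RadialMain

/-!
# P137: the weak gradient of the centred maximal function of a radial function
-/

open MeasureTheory Set Filter
open scoped ENNReal

namespace Vale.Agent.P137.Radial

lemma lintegral_nrm_log (n : ℕ) {f : ℝ → ℝ≥0∞} (hf : Measurable f) :
    ∫⁻ x : Fin (n + 2) → ℝ, f (nrm x) =
      polar n * ∫⁻ v, ENNReal.ofReal (Real.exp (((n : ℝ) + 2) * v)) * f (Real.exp v) := by
  rw [lintegral_nrm n hf]
  congr 1
  conv_lhs => rw [← Real.range_exp, ← Set.image_univ,
    lintegral_image_eq_lintegral_abs_deriv_mul MeasurableSet.univ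
      (fun x _ => (Real.hasDerivAt_exp x).hasDerivWithinAt) Real.exp_injective.injOn,
    Measure.restrict_univ]
  refine lintegral_congr fun v => ?_
  rw [abs_of_pos (Real.exp_pos v), ← mul_assoc, ← ENNReal.ofReal_mul (Real.exp_nonneg v),
    ← Real.exp_nat_mul, ← Real.exp_add]
  congr 3
  push_cast
  ring

lemma nrm_preimage_null (n : ℕ) {S : Set ℝ} (hS : MeasurableSet S) (h : volume (S ∩ Ioi 0) = 0) :
    volume ((nrm : (Fin (n + 2) → ℝ) → ℝ) ⁻¹' S) = 0 := by
  rw [← lintegral_indicator_one (measurable_nrm hS)]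
  have e : ∀ x : Fin (n + 2) → ℝ,
      ((nrm : (Fin (n + 2) → ℝ) → ℝ) ⁻¹' S).indicator (1 : (Fin (n + 2) → ℝ) → ℝ≥0∞) x =
        S.indicator 1 (nrm x) := fun x => rfl
  simp only [e]
  rw [lintegral_nrm n (measurable_one.indicator hS)]
  refine mul_eq_zero_of_right _ ?_
  refine (setLIntegral_congr_fun_ae measurableSet_Ioi (g := fun _ => (0 : ℝ≥0∞)) ?_).trans lintegral_zero
  have h' : ∀ᵐ y : ℝ, y ∉ S ∩ Ioi 0 := measure_eq_zero_iff_ae_notMem.1 h
  filter_upwards [h'] with y hy hy0
  have : y ∉ S := fun hm => hy ⟨hm, hy0⟩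
  simp [this]

lemma exists_profile {n : ℕ} {F F' : ℝ → ℝ}
    (hftc : ∀ a b : ℝ, 0 < a → a ≤ b → IntervalIntegrable F' volume a b ∧ F b - F a = ∫ s in a..b, F' s)
    (hF : Integrable fun x : Fin (n + 2) → ℝ => F (nrm x))
    (hF' : Integrable fun x : Fin (n + 2) → ℝ => F' (nrm x)) :
    ∃ P : Profile n, (fun x : Fin (n + 2) → ℝ => P.F (nrm x)) =ᵐ[volume] (fun x => F (nrm x)) ∧
      (fun x : Fin (n + 2) → ℝ => P.F' (nrm x)) =ᵐ[volume] (fun x => F' (nrm x)) := by
  have hcont : ContinuousOn F (Ioi (0 : ℝ)) := by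
    intro x hx
    have hx0 : (0 : ℝ) < x / 2 := half_pos hx
    obtain ⟨hi, -⟩ := hftc (x / 2) (2 * x) hx0 (by linarith)
    have hc : ContinuousOn (fun y => (∫ s in (x / 2)..y, F' s) + F (x / 2)) (uIcc (x / 2) (2 * x)) :=
      (hi.absolutelyContinuousOnInterval_intervalIntegral left_mem_uIcc).continuousOn.add continuousOn_const
    rw [uIcc_of_le (by linarith)] at hc
    refine ((hc.continuousAt (Icc_mem_nhds (by linarith [hx0]) (by linarith [hx0]))).congr ?_).continuousWithinAt
    filter_upwards [Ioi_mem_nhds (show x / 2 < x by linarith)] with y hy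
    linarith [(hftc (x / 2) y hx0 (le_of_lt hy)).2]
  have hm' : AEStronglyMeasurable F' (volume.restrict (Ioi (0 : ℝ))) := by
    have hU : Ioi (0 : ℝ) = ⋃ N : ℕ, Ioc (1 / ((N : ℝ) + 1)) ((N : ℝ) + 1) := by
      ext y
      simp only [mem_Ioi, mem_iUnion, mem_Ioc]
      constructor
      · intro hy
        obtain ⟨N, hN⟩ := exists_nat_gt (max y (1 / y))
        refine ⟨N, ?_, by linarith [le_max_left y (1 / y)]⟩
        have h1 : 1 / y < (N : ℝ) + 1 := by linarith [le_max_right y (1 / y)]
        rw [div_lt_iff₀ hy] at h1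
        rw [div_lt_iff₀ (by positivity)]
        linarith
      · rintro ⟨N, h1, -⟩
        exact lt_trans (by positivity) h1
    rw [hU, aestronglyMeasurable_iUnion_iff]
    intro N
    have h1 : (1 : ℝ) / ((N : ℝ) + 1) ≤ (N : ℝ) + 1 := by
      rw [div_le_iff₀ (by positivity)]; nlinarith
    exact (hftc _ _ (by positivity) h1).1.1.aestronglyMeasurable
  classical
  set F1 : ℝ → ℝ := (Ioi (0 : ℝ)).piecewise F 0 with hF1
  set F1' : ℝ → ℝ := hm'.mk F' with hF1'
  have mF1 : Measurable F1 := hcont.measurable_piecewise continuousOn_const measurableSet_Ioi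
  have mF1' : Measurable F1' := hm'.stronglyMeasurable_mk.measurable
  have eF1' : ∀ᵐ y : ℝ, y ∈ Ioi (0 : ℝ) → F1' y = F' y := by
    rw [← ae_restrict_iff' measurableSet_Ioi]
    exact hm'.ae_eq_mk.symm
  have hz : ∀ᵐ x : Fin (n + 2) → ℝ, x ≠ 0 :=
    (measure_eq_zero_iff_ae_notMem.1 (measure_singleton (0 : Fin (n + 2) → ℝ))).mono
      fun w h => by simpa using h
  have eF : (fun x : Fin (n + 2) → ℝ => F1 (nrm x)) =ᵐ[volume] (fun x => F (nrm x)) := by
    filter_upwards [hz] with x hx
    exact Set.piecewise_eq_of_mem _ _ _ (nrm_pos hx)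
  have eF' : (fun x : Fin (n + 2) → ℝ => F1' (nrm x)) =ᵐ[volume] (fun x => F' (nrm x)) := by
    obtain ⟨S, hsub, hS, hnull⟩ := exists_measurable_superset_of_null (ae_iff.1 eF1')
    have h0 : volume ((nrm : (Fin (n + 2) → ℝ) → ℝ) ⁻¹' S) = 0 :=
      nrm_preimage_null n hS (measure_mono_null Set.inter_subset_left hnull)
    filter_upwards [hz, measure_eq_zero_iff_ae_notMem.1 h0] with x hx hxS
    by_contra hne
    exact hxS (hsub fun h => hne (h (nrm_pos hx)))
  refine ⟨⟨F1, F1', mF1, mF1', fun a b ha hab => ?_, hF.congr eF.symm, hF'.congr eF'.symm⟩, eF, eF'⟩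
  obtain ⟨hi, he⟩ := hftc a b ha hab
  have hsub : ∀ᵐ y : ℝ, y ∈ uIoc a b → F' y = F1' y := by
    filter_upwards [eF1'] with y hy hyI
    rw [uIoc_of_le hab] at hyI
    exact (hy (lt_trans ha hyI.1)).symm
  refine ⟨hi.congr_ae ?_, ?_⟩
  · rwa [Filter.EventuallyEq, ae_restrict_iff' measurableSet_uIoc]
  · rw [← intervalIntegral.integral_congr_ae hsub, ← he, hF1,
      Set.piecewise_eq_of_mem _ _ _ (show b ∈ Ioi (0 : ℝ) from lt_of_lt_of_le ha hab),
      Set.piecewise_eq_of_mem _ _ _ (show a ∈ Ioi (0 : ℝ) from ha)]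

namespace Profile

variable {n : ℕ} (P : Profile n)

/-- The partial derivatives of the maximal function. -/
noncomputable def grad (i : Fin (n + 2)) (x : Fin (n + 2) → ℝ) : ℝ :=
  deriv P.gmax (Real.log (nrm x)) * x i / sq x

/-- The gradient bound. -/
noncomputable def gradConst (n : ℕ) : ℝ≥0∞ :=
  ENNReal.ofReal (smallConst n * Real.exp (2 * ((n : ℝ) + 1))) * 3 +
    polar n * bigConst n / ENNReal.ofReal (sqVol (n + 2) 1)

lemma gradConst_ne_top (n : ℕ) : gradConst n ≠ ⊤ := by
  refine ENNReal.add_ne_top.2 ⟨ENNReal.mul_ne_top ENNReal.ofReal_ne_top (by norm_num),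
    ENNReal.div_ne_top (ENNReal.mul_ne_top (polar_ne n).2 (lintegral_bigWeight n)) ?_⟩
  rw [Ne, ENNReal.ofReal_eq_zero, not_le]
  exact sqVol_one_pos _

lemma weighted_gmax :
    polar n * ∫⁻ v, ENNReal.ofReal (Real.exp (((n : ℝ) + 1) * v) * |deriv P.gmax v|) ≤
      gradConst n * P.total := by
  have hV := sqVol_one_pos (n + 2)
  calc polar n * ∫⁻ v, ENNReal.ofReal (Real.exp (((n : ℝ) + 1) * v) * |deriv P.gmax v|)
      ≤ polar n * ∫⁻ v, (ENNReal.ofReal (Real.exp (((n : ℝ) + 1) * v) *
            |(ballKer n).smallDeriv P.lF (deriv P.lF) v|) +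
          (ENNReal.ofReal (sqVol (n + 2) 1))⁻¹ *
            (ENNReal.ofReal (Real.exp (((n : ℝ) + 1) * v)) * P.bigDer v)) := by
        refine mul_le_mul' le_rfl (lintegral_mono_ae ?_)
        filter_upwards [P.deriv_gmax_le] with v hv
        calc ENNReal.ofReal (Real.exp (((n : ℝ) + 1) * v) * |deriv P.gmax v|)
            ≤ ENNReal.ofReal (Real.exp (((n : ℝ) + 1) * v) *
                |(ballKer n).smallDeriv P.lF (deriv P.lF) v| +
                Real.exp (((n : ℝ) + 1) * v) * P.bigBound v) := by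
              refine ENNReal.ofReal_le_ofReal ?_
              rw [← mul_add]
              exact mul_le_mul_of_nonneg_left hv (Real.exp_nonneg _)
          _ ≤ _ := by
              refine ENNReal.ofReal_add_le.trans (add_le_add le_rfl ?_)
              rw [bigBound, ← mul_div_assoc, ENNReal.ofReal_div_of_pos hV,
                ENNReal.ofReal_mul (Real.exp_nonneg _), div_eq_mul_inv, mul_comm _ (ENNReal.ofReal _)⁻¹]
              exact mul_le_mul' le_rfl (mul_le_mul' le_rfl ENNReal.ofReal_toReal_le)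
    _ ≤ gradConst n * P.total := by
        have hmB : Measurable fun v => (ENNReal.ofReal (sqVol (n + 2) 1))⁻¹ *
            (ENNReal.ofReal (Real.exp (((n : ℝ) + 1) * v)) * P.bigDer v) :=
          (((Real.measurable_exp.comp (measurable_id.const_mul _)).ennreal_ofReal.mul
              P.measurable_bigDer).const_mul _)
        rw [lintegral_add_right _ hmB,
          lintegral_const_mul' _ _ (ENNReal.inv_ne_top.2 (by rw [Ne, ENNReal.ofReal_eq_zero, not_le]; exact hV)),
          mul_add, gradConst, add_mul]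
        refine add_le_add ?_ ?_
        · refine (mul_le_mul' le_rfl P.weighted_small).trans (le_of_eq ?_)
          calc polar n * (ENNReal.ofReal (smallConst n * Real.exp (2 * ((n : ℝ) + 1))) * (3 * (P.total / polar n)))
              = ENNReal.ofReal (smallConst n * Real.exp (2 * ((n : ℝ) + 1))) * 3 *
                  (polar n * (P.total / polar n)) := by ring
            _ = _ := by rw [ENNReal.mul_div_cancel (polar_ne n).1 (polar_ne n).2]
        · refine (mul_le_mul' le_rfl (mul_le_mul' le_rfl P.weighted_bigDer)).trans (le_of_eq ?_)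
          rw [div_eq_mul_inv]
          ring

lemma measurable_grad (i : Fin (n + 2)) : Measurable (P.grad i) :=
  (((measurable_deriv P.gmax).comp (Real.measurable_log.comp measurable_nrm)).mul
    (measurable_pi_apply i)).div measurable_sq

lemma norm_grad (x : Fin (n + 2) → ℝ) :
    Real.sqrt (∑ i, P.grad i x ^ 2) = |deriv P.gmax (Real.log (nrm x))| / nrm x := by
  simp only [grad, div_pow, mul_pow]
  rw [← Finset.sum_div, ← Finset.mul_sum, show ∑ i, x i ^ 2 = sq x from rfl, Real.sqrt_div' _ (by positivity),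
    Real.sqrt_sq (sq_nonneg' x), Real.sqrt_mul (by positivity), Real.sqrt_sq_eq_abs, ← nrm_sq,
    Real.sqrt_sq (nrm_nonneg x)]
  rcases eq_or_ne (nrm x) 0 with h | h
  · simp [h]
  · field_simp

lemma lintegral_norm_grad :
    ∫⁻ x, ENNReal.ofReal (Real.sqrt (∑ i, P.grad i x ^ 2)) ≤ gradConst n * P.total := by
  simp only [P.norm_grad]
  rw [lintegral_nrm_log n (f := fun r => ENNReal.ofReal (|deriv P.gmax (Real.log r)| / r))
    ((((measurable_deriv P.gmax).comp Real.measurable_log).abs.div measurable_id).ennreal_ofReal)]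
  refine le_trans (le_of_eq ?_) P.weighted_gmax
  congr 1
  refine lintegral_congr fun v => ?_
  rw [Real.log_exp, ← ENNReal.ofReal_mul (Real.exp_nonneg _)]
  congr 1
  rw [show ((n : ℝ) + 2) * v = ((n : ℝ) + 1) * v + v by ring, Real.exp_add]
  field_simp

lemma integrable_norm_grad : Integrable fun x => Real.sqrt (∑ i, P.grad i x ^ 2) := by
  refine ⟨(Measurable.sqrt (Finset.measurable_sum _ fun i _ =>
    (P.measurable_grad i).pow_const 2)).aestronglyMeasurable, ?_⟩
  rw [hasFiniteIntegral_iff_ofReal (Filter.Eventually.of_forall fun x => Real.sqrt_nonneg _)]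
  exact lt_of_le_of_lt P.lintegral_norm_grad
    (lt_top_iff_ne_top.2 (ENNReal.mul_ne_top (gradConst_ne_top n) P.total_ne_top))

lemma integrable_grad (i : Fin (n + 2)) : Integrable (P.grad i) := by
  refine P.integrable_norm_grad.mono (P.measurable_grad i).aestronglyMeasurable
    (Filter.Eventually.of_forall fun x => ?_)
  rw [Real.norm_eq_abs, Real.norm_eq_abs, abs_of_nonneg (Real.sqrt_nonneg _)]
  exact Real.abs_le_sqrt (Finset.single_le_sum (f := fun j => P.grad j x ^ 2)
    (fun j _ => sq_nonneg _) (Finset.mem_univ i))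

lemma gmax_nonneg (τ : ℝ) : 0 ≤ P.gmax τ := le_max_of_le_right ENNReal.toReal_nonneg

lemma continuous_gmax : Continuous P.gmax := continuous_iff_continuousAt.2 fun x =>
  (P.gmax_ac (x - 1) (x + 1)).continuousOn.continuousAt
    (by rw [uIcc_of_le (by linarith)]; exact Icc_mem_nhds (by linarith) (by linarith))

lemma weighted_gmax_ne_top :
    ∫⁻ v, ENNReal.ofReal (Real.exp (((n : ℝ) + 1) * v) * |deriv P.gmax v|) ≠ ⊤ := by
  intro h
  have := P.weighted_gmax
  rw [h, ENNReal.mul_top (polar_ne n).1] at this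
  exact ENNReal.mul_ne_top (gradConst_ne_top n) P.total_ne_top (top_le_iff.1 this)

lemma locallyIntegrable_gmax :
    LocallyIntegrable fun x : Fin (n + 2) → ℝ => P.gmax (Real.log (nrm x)) := by
  rw [locallyIntegrable_iff]
  intro K hK
  obtain ⟨R, hR⟩ := hK.bddAbove_image continuous_nrm.continuousOn
  set T := Real.log (max R 0 + 1) with hT
  have hexpT : Real.exp T = max R 0 + 1 := Real.exp_log (by positivity)
  set A := (n : ℝ) + 1 with hA
  set W := (∫⁻ v, ENNReal.ofReal (Real.exp (A * v) * |deriv P.gmax v|)).toReal with hW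
  have hsub : K ⊆ {x | nrm x < Real.exp T} := fun x hx => by
    have := hR ⟨x, hx, rfl⟩
    simp only [mem_ofPred_eq, hexpT]
    linarith [le_max_left R 0]
  have hmeas : Measurable fun x : Fin (n + 2) → ℝ => P.gmax (Real.log (nrm x)) :=
    P.continuous_gmax.measurable.comp (Real.measurable_log.comp measurable_nrm)
  refine IntegrableOn.mono_set ⟨hmeas.aestronglyMeasurable, ?_⟩ hsub
  rw [hasFiniteIntegral_iff_ofReal (Filter.Eventually.of_forall fun x => P.gmax_nonneg _)]
  have hpt : ∀ v < T, Real.exp (((n : ℝ) + 2) * v) * P.gmax v ≤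
      (Real.exp (A * T) * P.gmax T + W) * Real.exp v := by
    intro v hv
    have hvA : Real.exp (A * v) ≤ Real.exp (A * T) :=
      Real.exp_le_exp.2 (mul_le_mul_of_nonneg_left hv.le (by positivity))
    obtain ⟨hi, he⟩ := P.prim_gmax v T
    have h1 : P.gmax v ≤ P.gmax T + ∫ s in v..T, |deriv P.gmax s| := by
      have := intervalIntegral.abs_integral_le_integral_abs (f := deriv P.gmax) (μ := volume) hv.le
      rw [← he, abs_le] at this
      linarith
    have h2 : Real.exp (A * v) * ∫ s in v..T, |deriv P.gmax s| ≤ W := by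
      rw [intervalIntegral.integral_of_le hv.le, ← integral_const_mul, hW,
        integral_eq_lintegral_of_nonneg_ae (Filter.Eventually.of_forall fun s => by positivity)
          (hi.abs.1.const_mul _).aestronglyMeasurable]
      refine ENNReal.toReal_mono P.weighted_gmax_ne_top ?_
      refine le_trans (setLIntegral_mono' measurableSet_Ioc fun s hs => ENNReal.ofReal_le_ofReal ?_)
        (setLIntegral_le_lintegral _ _)
      exact mul_le_mul_of_nonneg_right
        (Real.exp_le_exp.2 (mul_le_mul_of_nonneg_left hs.1.le (by positivity))) (abs_nonneg _)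
    rw [show ((n : ℝ) + 2) * v = A * v + v by rw [hA]; ring, Real.exp_add]
    have h3 := mul_le_mul_of_nonneg_right hvA (P.gmax_nonneg T)
    have h4 := mul_le_mul_of_nonneg_left h1 (Real.exp_nonneg (A * v))
    calc Real.exp (A * v) * Real.exp v * P.gmax v = Real.exp (A * v) * P.gmax v * Real.exp v := by ring
      _ ≤ _ := mul_le_mul_of_nonneg_right (by linarith) (Real.exp_nonneg _)
  have e : ∫⁻ x in {x : Fin (n + 2) → ℝ | nrm x < Real.exp T}, ENNReal.ofReal (P.gmax (Real.log (nrm x))) =
      ∫⁻ x : Fin (n + 2) → ℝ, (Iio (Real.exp T)).indicator (fun r => ENNReal.ofReal (P.gmax (Real.log r))) (nrm x) := by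
    rw [← lintegral_indicator (measurableSet_lt measurable_nrm measurable_const)]
    exact lintegral_congr fun x => rfl
  have hmI : Measurable ((Iio (Real.exp T)).indicator fun r => ENNReal.ofReal (P.gmax (Real.log r))) :=
    (P.continuous_gmax.measurable.comp Real.measurable_log).ennreal_ofReal.indicator measurableSet_Iio
  rw [e, lintegral_nrm_log n hmI]
  refine ENNReal.mul_lt_top (lt_top_iff_ne_top.2 (polar_ne n).2) (lt_of_le_of_lt
    (b := ∫⁻ v in Iio T, ENNReal.ofReal (Real.exp (A * T) * P.gmax T + W) * ENNReal.ofReal |Real.exp v|) ?_ ?_)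
  · rw [← lintegral_indicator measurableSet_Iio]
    refine lintegral_mono fun v => ?_
    simp only [Set.indicator, mem_Iio, Real.exp_lt_exp, Real.log_exp]
    split_ifs with h
    · rw [← ENNReal.ofReal_mul (Real.exp_nonneg _), abs_of_pos (Real.exp_pos v),
        ← ENNReal.ofReal_mul' (Real.exp_nonneg v)]
      exact ENNReal.ofReal_le_ofReal (hpt v h)
    · simp
  · rw [lintegral_const_mul' _ _ ENNReal.ofReal_ne_top]
    refine ENNReal.mul_lt_top ENNReal.ofReal_lt_top ?_
    have := lintegral_image_eq_lintegral_abs_deriv_mul (measurableSet_Iio (a := T))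
      (fun x _ => (Real.hasDerivAt_exp x).hasDerivWithinAt) Real.exp_injective.injOn (fun _ => (1 : ℝ≥0∞))
    simp only [mul_one, setLIntegral_const, one_mul] at this
    rw [← this, Real.image_exp_Iio, Real.volume_Ioo]
    exact ENNReal.ofReal_lt_top

lemma line_prim {q : ℝ} (hq : 0 < q) :
    Prim (fun s => P.gmax (Real.log (s ^ 2 + q) / 2))
      (fun s => s / (s ^ 2 + q) * deriv P.gmax (Real.log (s ^ 2 + q) / 2)) := by
  set k := fun s => P.gmax (Real.log (s ^ 2 + q) / 2) with hk
  set k' := fun s => s / (s ^ 2 + q) * deriv P.gmax (Real.log (s ^ 2 + q) / 2) with hk'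
  have hpos : ∀ b, 0 ≤ b → IntervalIntegrable k' volume 0 b ∧ k b - k 0 = ∫ s in (0 : ℝ)..b, k' s := by
    intro b hb
    have hmono : StrictMonoOn (fun s => Real.log (s ^ 2 + q) / 2) (Icc 0 b) := fun x hx y _ hxy =>
      div_lt_div_of_pos_right (Real.log_lt_log (by positivity)
        (by have := pow_lt_pow_left₀ hxy hx.1 (two_ne_zero); linarith)) two_pos
    have hd : ∀ x ∈ Icc (0 : ℝ) b, HasDerivAt (fun s => Real.log (s ^ 2 + q) / 2) (x / (x ^ 2 + q)) x := by
      intro x _
      have := (((hasDerivAt_pow 2 x).add_const q).log (by positivity)).div_const 2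
      refine this.congr_deriv ?_
      simp only [Nat.cast_ofNat, Nat.add_one_sub_one, pow_one]
      field_simp
    obtain ⟨hi, he⟩ := P.prim_gmax (Real.log (0 ^ 2 + q) / 2) (Real.log (b ^ 2 + q) / 2)
    obtain ⟨h1, h2⟩ := prim_comp hb hmono hd (fun x hx => div_nonneg hx.1 (by positivity)) hi
    exact ⟨h1, he.trans h2.symm⟩
  have hall : ∀ b, IntervalIntegrable k' volume 0 b ∧ k b - k 0 = ∫ s in (0 : ℝ)..b, k' s := by
    intro b
    rcases le_total 0 b with hb | hb
    · exact hpos b hb
    · obtain ⟨h1, h2⟩ := hpos (-b) (by linarith)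
      have hodd : ∀ s, k' (-s) = -k' s := fun s => by simp only [hk', neg_sq, neg_div, neg_mul]
      have hev : k (-b) = k b := by simp only [hk, neg_sq]
      have h1' : IntervalIntegrable k' volume 0 b := by
        have := (((IntervalIntegrable.iff_comp_neg (by simp)).1 h1).neg)
        simpa [hodd, Pi.neg_def] using this
      refine ⟨h1', ?_⟩
      rw [hev] at h2
      rw [h2]
      have h3 := intervalIntegral.integral_comp_neg (a := b) (b := (0 : ℝ)) k'
      simp only [hodd, intervalIntegral.integral_neg, neg_zero] at h3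
      rw [intervalIntegral.integral_symm b 0]
      linarith
  intro a b
  refine ⟨(hall a).1.symm.trans (hall b).1, ?_⟩
  rw [← intervalIntegral.integral_interval_sub_left (hall b).1 (hall a).1, ← (hall b).2, ← (hall a).2]
  ring

theorem weak_grad (i : Fin (n + 2)) (φ : (Fin (n + 2) → ℝ) → ℝ) (hφ : ContDiff ℝ 1 φ)
    (hc : HasCompactSupport φ) :
    ∫ x, P.gmax (Real.log (nrm x)) * fderiv ℝ φ x (Pi.single i 1) = -∫ x, P.grad i x * φ x := by
  have hdc : Continuous fun x => fderiv ℝ φ x (Pi.single i 1) :=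
    (hφ.continuous_fderiv one_ne_zero).clm_apply continuous_const
  have hds : HasCompactSupport fun x => fderiv ℝ φ x (Pi.single i 1) := hc.fderiv_apply ℝ _
  have hI1 : Integrable fun x => P.gmax (Real.log (nrm x)) * fderiv ℝ φ x (Pi.single i 1) := by
    simpa only [smul_eq_mul] using
      P.locallyIntegrable_gmax.integrable_smul_right_of_hasCompactSupport hdc hds
  obtain ⟨Cφ, hCφ⟩ := hc.exists_bound_of_continuous hφ.continuous
  have hI2 : Integrable fun x => P.grad i x * φ x :=
    (P.integrable_grad i).mul_bdd hφ.continuous.aestronglyMeasurable (Filter.Eventually.of_forall hCφ)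
  set e := MeasurableEquiv.piFinSuccAbove (fun _ : Fin (n + 2) => ℝ) i with he
  have hmp : MeasurePreserving e.symm volume volume :=
    (volume_preserving_piFinSuccAbove (fun _ : Fin (n + 2) => ℝ) i).symm e
  have J1 : Integrable (fun z => P.gmax (Real.log (nrm (e.symm z))) *
      fderiv ℝ φ (e.symm z) (Pi.single i 1)) (Measure.prod volume volume) :=
    (hmp.integrable_comp_emb e.symm.measurableEmbedding).2 hI1
  have J2 : Integrable (fun z => P.grad i (e.symm z) * φ (e.symm z)) (Measure.prod volume volume) :=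
    (hmp.integrable_comp_emb e.symm.measurableEmbedding).2 hI2
  rw [← hmp.integral_comp' (fun x => P.gmax (Real.log (nrm x)) * fderiv ℝ φ x (Pi.single i 1)),
    ← hmp.integral_comp' (fun x => P.grad i x * φ x), Measure.volume_eq_prod,
    integral_prod_symm _ J1, integral_prod_symm _ J2, ← integral_neg]
  refine integral_congr_ae ?_
  have hy : ∀ᵐ y : Fin (n + 1) → ℝ, y ≠ 0 :=
    (measure_eq_zero_iff_ae_notMem.1 (measure_singleton (0 : Fin (n + 1) → ℝ))).mono
      fun w h => by simpa using h
  filter_upwards [hy] with y hy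
  set q := sq y with hq
  have hq0 : 0 < q := by rw [hq, ← nrm_sq]; exact pow_pos (nrm_pos hy) 2
  have esymm : ∀ s, e.symm (s, y) = Fin.insertNth i s y := fun s => rfl
  have esq : ∀ s, sq (Fin.insertNth i s y) = s ^ 2 + q := fun s => by
    rw [sq, Fin.sum_univ_succAbove _ i]; simp [hq, sq]
  have elog : ∀ s, Real.log (nrm (Fin.insertNth i s y)) = Real.log (s ^ 2 + q) / 2 := fun s => by
    rw [nrm, esq, Real.log_sqrt (by positivity)]
  simp only [esymm, elog, grad, esq, Fin.insertNth_apply_same]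
  have eins : ∀ s : ℝ, (Fin.insertNth i s y : Fin (n + 2) → ℝ) = (Fin.insertNth i (0 : ℝ) y : Fin (n + 2) → ℝ) + s • (Pi.single i 1 : Fin (n + 2) → ℝ) :=
    fun s => by
      funext j
      rcases Fin.eq_self_or_eq_succAbove i j with rfl | ⟨j', rfl⟩
      · simp
      · simp [Fin.succAbove_ne i j']
  have hline : ∀ s : ℝ, HasDerivAt (fun s => φ ((Fin.insertNth i s y : Fin (n + 2) → ℝ)))
      (fderiv ℝ φ ((Fin.insertNth i s y : Fin (n + 2) → ℝ)) (Pi.single i 1)) s := fun s => by
    have h1 : HasDerivAt (fun s : ℝ => (Fin.insertNth i (0 : ℝ) y : Fin (n + 2) → ℝ) + s • (Pi.single i 1 : Fin (n + 2) → ℝ))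
        (Pi.single i 1) s := by
      simpa using! ((hasDerivAt_id s).smul_const (Pi.single i (1 : ℝ) : Fin (n + 2) → ℝ)).const_add
        ((Fin.insertNth i (0 : ℝ) y : Fin (n + 2) → ℝ))
    have h2 := ((hφ.differentiable one_ne_zero) ((Fin.insertNth i s y : Fin (n + 2) → ℝ))).hasFDerivAt
    rw [eins s] at h2
    have h3 := h2.comp_hasDerivAt s h1
    rw [← eins s] at h3
    refine h3.congr_of_eventuallyEq (Filter.Eventually.of_forall fun u => ?_)
    show φ ((Fin.insertNth i u y : Fin (n + 2) → ℝ)) = φ _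
    rw [eins u]
  obtain ⟨R, hR⟩ := hc.isBounded.subset_closedBall (0 : Fin (n + 2) → ℝ)
  set S := max R 0 + 1 with hS
  have hout : ∀ s : ℝ, R < |s| → (Fin.insertNth i s y : Fin (n + 2) → ℝ) ∉ tsupport φ := fun s hs hmem => by
    have h1 : ‖(Fin.insertNth i s y : Fin (n + 2) → ℝ)‖ ≤ R := by simpa using hR hmem
    have h2 := (norm_le_pi_norm ((Fin.insertNth i s y : Fin (n + 2) → ℝ)) i).trans h1
    rw [Fin.insertNth_apply_same, Real.norm_eq_abs] at h2
    linarith
  have hS0 : (0 : ℝ) < S := by positivity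
  have hSR : R < S := lt_of_le_of_lt (le_max_left R 0) (lt_add_one _)
  set ψ := fun s => φ ((Fin.insertNth i s y : Fin (n + 2) → ℝ)) with hψ
  have acψ : AbsolutelyContinuousOnInterval ψ (-S) S := by
    have : ContDiff ℝ 1 ψ := by
      have e3 : ψ = fun s => φ ((Fin.insertNth i (0 : ℝ) y : Fin (n + 2) → ℝ) +
          s • (Pi.single i 1 : Fin (n + 2) → ℝ)) := funext fun s => congrArg φ (eins s)
      rw [e3]
      exact hφ.comp (contDiff_const.add (contDiff_id.smul contDiff_const))
    exact this.contDiffOn.absolutelyContinuousOnInterval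
  have hp := P.line_prim hq0
  have parts := (hp.ac (-S) S).integral_mul_deriv_eq_deriv_mul acψ
  have hz : ∀ s : ℝ, R < |s| → ψ s = 0 := fun s hs => by
    show φ _ = 0
    exact image_eq_zero_of_notMem_tsupport (hout s hs)
  rw [hz S (by rwa [abs_of_pos hS0]), hz (-S) (by rwa [abs_neg, abs_of_pos hS0])] at parts
  simp only [mul_zero, sub_self, zero_sub] at parts
  have e1 : ∫ s in (-S)..S, deriv (fun s => P.gmax (Real.log (s ^ 2 + q) / 2)) s * ψ s =
      ∫ s in (-S)..S, s / (s ^ 2 + q) * deriv P.gmax (Real.log (s ^ 2 + q) / 2) * ψ s := by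
    refine intervalIntegral.integral_congr_ae ?_
    filter_upwards [hp.ae_hasDerivAt (-S) S] with s hs hsI
    rw [(hs (uIoc_subset_uIcc hsI)).deriv]
  have hder : deriv ψ = fun s => fderiv ℝ φ (Fin.insertNth i s y : Fin (n + 2) → ℝ) (Pi.single i 1) :=
    funext fun s => (hline s).deriv
  simp only [hψ] at e1 hder
  rw [hder, e1] at parts
  have inS : ∀ s : ℝ, s ∉ Ioc (-S) S → R < |s| := fun s hs => by
    rw [mem_Ioc, not_and_or, not_lt, not_le] at hs
    rcases hs with h | h
    · exact lt_of_lt_of_le hSR (le_trans (by linarith) (neg_le_abs s))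
    · exact lt_of_lt_of_le hSR (le_trans (by linarith) (le_abs_self s))
  have s1 : ∫ s in (-S)..S, P.gmax (Real.log (s ^ 2 + q) / 2) *
        fderiv ℝ φ ((Fin.insertNth i s y : Fin (n + 2) → ℝ)) (Pi.single i 1) =
      ∫ s, P.gmax (Real.log (s ^ 2 + q) / 2) * fderiv ℝ φ ((Fin.insertNth i s y : Fin (n + 2) → ℝ)) (Pi.single i 1) := by
    refine intervalIntegral.integral_eq_integral_of_support_subset fun s hs => ?_
    by_contra h
    apply hs
    simp only
    rw [fderiv_of_notMem_tsupport ℝ (hout s (inS s h))]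
    simp
  have s2 : ∫ s in (-S)..S, s / (s ^ 2 + q) * deriv P.gmax (Real.log (s ^ 2 + q) / 2) *
        φ ((Fin.insertNth i s y : Fin (n + 2) → ℝ)) =
      ∫ s, deriv P.gmax (Real.log (s ^ 2 + q) / 2) * s / (s ^ 2 + q) * φ ((Fin.insertNth i s y : Fin (n + 2) → ℝ)) := by
    rw [intervalIntegral.integral_eq_integral_of_support_subset fun s hs => ?_]
    · refine integral_congr_ae (Filter.Eventually.of_forall fun s => ?_)
      simp only
      ring
    · by_contra h
      exact hs (by simp only; rw [image_eq_zero_of_notMem_tsupport (hout s (inS s h)), mul_zero])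
  rw [s1, s2] at parts
  exact parts

end Profile

end Vale.Agent.P137.Radial
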