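import Vale.Agent.P137.RadialWindow

/-!
# P137: averages against a family of kernels with Holder densities
-/

open MeasureTheory

namespace Vale.Agent.P137.Radial

/-- Probability densities `ν t` at scale `t ≤ T`, Holder `1/2`, whose distribution functions `N t`
move by at most `C t ν t` within an octave. -/
structure Ker where
  ν : ℝ → ℝ → ℝ
  N : ℝ → ℝ → ℝ
  T : ℝ
  C : ℝ
  T_pos : 0 < T
  one_le_C : 1 ≤ C
  hasDeriv : ∀ t u, 0 < t → t ≤ T → HasDerivAt (N t) (ν t u) u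
  nonneg : ∀ t u, 0 < t → t ≤ T → 0 ≤ ν t u
  hol : ∀ t a b, 0 < t → t ≤ T → |ν t a - ν t b| ≤ C / t * Real.sqrt (|a - b| / t)
  supp : ∀ t u, 0 < t → t ≤ T → 2 * t ≤ |u| → ν t u = 0
  left : ∀ t u, 0 < t → t ≤ T → u ≤ -(2 * t) → N t u = 0
  right : ∀ t u, 0 < t → t ≤ T → 2 * t ≤ u → N t u = 1
  cdf : ∀ t t0 u, 0 < t → t ≤ T → t / 2 ≤ t0 → t0 ≤ t → |N t u - N t0 u| ≤ C * t * ν t u

namespace Ker

variable (k : Ker)

lemma C_pos : 0 < k.C := lt_of_lt_of_le one_pos k.one_le_C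

variable {t : ℝ}

lemma continuous_N (h0 : 0 < t) (hT : t ≤ k.T) : Continuous (k.N t) :=
  continuous_iff_continuousAt.2 fun u => (k.hasDeriv t u h0 hT).continuousAt

lemma continuous_nu (h0 : 0 < t) (hT : t ≤ k.T) : Continuous (k.ν t) := by
  refine continuous_iff_continuousAt.2 fun a => ?_
  have : Filter.Tendsto (fun b => k.C / t * Real.sqrt (|b - a| / t)) (nhds a) (nhds 0) := by
    have h : Continuous fun b => k.C / t * Real.sqrt (|b - a| / t) := by fun_prop
    simpa using h.tendsto a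
  rw [ContinuousAt, tendsto_iff_dist_tendsto_zero]
  exact squeeze_zero (fun b => dist_nonneg) (fun b => k.hol t b a h0 hT) this

lemma nu_le (h0 : 0 < t) (hT : t ≤ k.T) (u : ℝ) : |k.ν t u| ≤ 2 * k.C / t := by
  rcases le_or_gt (2 * t) |u| with h | h
  · rw [k.supp t u h0 hT h, abs_zero]
    have := k.C_pos
    positivity
  · have e := k.hol t u (2 * t) h0 hT
    rw [k.supp t (2 * t) h0 hT (le_abs_self _), sub_zero] at e
    refine e.trans ?_
    rw [show 2 * k.C / t = k.C / t * 2 by ring]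
    refine mul_le_mul_of_nonneg_left ?_ (by have := k.C_pos; positivity)
    rw [Real.sqrt_le_iff]
    refine ⟨by norm_num, ?_⟩
    rw [div_le_iff₀ h0]
    obtain ⟨h1, h2⟩ := abs_lt.1 h
    rw [abs_of_nonpos (by linarith)]
    linarith

lemma N_lip (h0 : 0 < t) (hT : t ≤ k.T) (a b : ℝ) :
    |k.N t a - k.N t b| ≤ 2 * k.C / t * |a - b| := by
  have := Convex.norm_image_sub_le_of_norm_hasDerivWithin_le
    (fun x _ => (k.hasDeriv t x h0 hT).hasDerivWithinAt) (fun x _ => k.nu_le h0 hT x)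
    convex_univ (Set.mem_univ b) (Set.mem_univ a)
  simpa only [Real.norm_eq_abs] using this

lemma N_mem (h0 : 0 < t) (hT : t ≤ k.T) (u : ℝ) : 0 ≤ k.N t u ∧ k.N t u ≤ 1 := by
  have hm : Monotone (k.N t) := monotone_of_deriv_nonneg
    (fun x => (k.hasDeriv t x h0 hT).differentiableAt)
    fun x => by rw [(k.hasDeriv t x h0 hT).deriv]; exact k.nonneg t x h0 hT
  constructor
  · calc (0 : ℝ) = k.N t (min u (-(2 * t))) := (k.left t _ h0 hT (min_le_right _ _)).symm
      _ ≤ k.N t u := hm (min_le_left _ _)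
  · calc k.N t u ≤ k.N t (max u (2 * t)) := hm (le_max_left _ _)
      _ = 1 := k.right t _ h0 hT (le_max_right _ _)

lemma N_approx (h0 : 0 < t) (hT : t ≤ k.T) (u h : ℝ) :
    |k.N t u - k.N t (u - h) - h * k.ν t u| ≤ k.C / t * Real.sqrt (|h| / t) * |h| := by
  have hd : ∀ x ∈ Set.uIcc (u - h) u, HasDerivWithinAt (fun v => k.N t v - v * k.ν t u)
      (k.ν t x - k.ν t u) (Set.uIcc (u - h) u) x := fun x _ => by
    refine HasDerivAt.hasDerivWithinAt ?_
    simpa using! (k.hasDeriv t x h0 hT).sub ((hasDerivAt_id x).mul_const (k.ν t u))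
  have hb : ∀ x ∈ Set.uIcc (u - h) u,
      ‖k.ν t x - k.ν t u‖ ≤ k.C / t * Real.sqrt (|h| / t) := fun x hx => by
    refine (k.hol t x u h0 hT).trans (mul_le_mul_of_nonneg_left (Real.sqrt_le_sqrt ?_)
      (by have := k.C_pos; positivity))
    refine div_le_div_of_nonneg_right ?_ h0.le
    simpa [abs_sub_comm] using Set.abs_sub_right_of_mem_uIcc hx
  have := Convex.norm_image_sub_le_of_norm_hasDerivWithin_le hd hb (convex_uIcc _ _)
    Set.left_mem_uIcc Set.right_mem_uIcc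
  simp only [Real.norm_eq_abs, sub_sub_cancel] at this
  refine le_trans (le_of_eq ?_) this
  congr 1
  ring

/-- The average at scale `t` of `x ↦ c + ∫ s in Iic x, φ s`, centred at `τ`. -/
noncomputable def avg (φ : ℝ → ℝ) (c t τ : ℝ) : ℝ := c + ∫ s, (1 - k.N t (s - τ)) * φ s

/-- Its derivative in `τ`. -/
noncomputable def slope (φ : ℝ → ℝ) (t τ : ℝ) : ℝ := ∫ s, k.ν t (s - τ) * φ s

variable {φ : ℝ → ℝ} (hφ : Integrable φ) (c : ℝ)

include hφ

lemma integrable_avg (h0 : 0 < t) (hT : t ≤ k.T) (τ : ℝ) :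
    Integrable fun s => (1 - k.N t (s - τ)) * φ s := by
  have := k.continuous_N h0 hT
  refine hφ.bdd_mul (c := 1) (by fun_prop : Continuous fun s => 1 - k.N t (s - τ)).aestronglyMeasurable
    (Filter.Eventually.of_forall fun s => ?_)
  obtain ⟨h1, h2⟩ := k.N_mem h0 hT (s - τ)
  rw [Real.norm_eq_abs, abs_le]
  constructor <;> linarith

lemma integrable_slope (h0 : 0 < t) (hT : t ≤ k.T) (τ : ℝ) :
    Integrable fun s => k.ν t (s - τ) * φ s := by
  have := k.continuous_nu h0 hT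
  exact hφ.bdd_mul (c := 2 * k.C / t)
    (by fun_prop : Continuous fun s => k.ν t (s - τ)).aestronglyMeasurable
    (Filter.Eventually.of_forall fun s => k.nu_le h0 hT (s - τ))

lemma abs_avg_le (h0 : 0 < t) (hT : t ≤ k.T) (τ : ℝ) :
    |k.avg φ c t τ| ≤ |c| + ∫ s, |φ s| := by
  refine (abs_add_le _ _).trans (add_le_add le_rfl (abs_integral_le_integral_abs.trans ?_))
  refine integral_mono (k.integrable_avg hφ h0 hT τ).abs hφ.abs fun s => ?_
  rw [abs_mul]
  obtain ⟨h1, h2⟩ := k.N_mem h0 hT (s - τ)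
  exact mul_le_of_le_one_left (abs_nonneg _) (abs_le.2 ⟨by linarith, by linarith⟩)

lemma avg_lip (h0 : 0 < t) (hT : t ≤ k.T) (a b : ℝ) :
    |k.avg φ c t a - k.avg φ c t b| ≤ 2 * k.C / t * (∫ s, |φ s|) * |a - b| := by
  rw [avg, avg, add_sub_add_left_eq_sub,
    ← integral_sub (k.integrable_avg hφ h0 hT a) (k.integrable_avg hφ h0 hT b)]
  refine abs_integral_le_integral_abs.trans ?_
  rw [mul_right_comm, ← integral_const_mul]
  refine integral_mono ((k.integrable_avg hφ h0 hT a).sub (k.integrable_avg hφ h0 hT b)).abs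
    (hφ.abs.const_mul _) fun s => ?_
  rw [← sub_mul, abs_mul]
  refine mul_le_mul_of_nonneg_right ?_ (abs_nonneg _)
  refine le_trans (le_of_eq ?_) ((k.N_lip h0 hT (s - b) (s - a)).trans (le_of_eq ?_))
  · congr 1; ring
  · congr 2; ring

lemma avg_approx (h0 : 0 < t) (hT : t ≤ k.T) (τ h : ℝ) :
    |k.avg φ c t (τ + h) - k.avg φ c t τ - h * k.slope φ t τ| ≤
      k.C / t * Real.sqrt (|h| / t) * |h| * ∫ s, |φ s| := by
  have e : k.avg φ c t (τ + h) - k.avg φ c t τ - h * k.slope φ t τ =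
      ∫ s, (k.N t (s - τ) - k.N t (s - τ - h) - h * k.ν t (s - τ)) * φ s := by
    rw [avg, avg, slope, add_sub_add_left_eq_sub,
      ← integral_sub (k.integrable_avg hφ h0 hT _) (k.integrable_avg hφ h0 hT _),
      ← integral_const_mul,
      ← integral_sub ((k.integrable_avg hφ h0 hT _).sub' (k.integrable_avg hφ h0 hT _))
        ((k.integrable_slope hφ h0 hT τ).const_mul h)]
    refine integral_congr_ae (Filter.Eventually.of_forall fun s => ?_)
    simp only
    rw [show s - (τ + h) = s - τ - h by ring]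
    ring
  rw [e, ← integral_const_mul]
  refine abs_integral_le_integral_abs.trans (integral_mono_of_nonneg
    (Filter.Eventually.of_forall fun s => abs_nonneg _) (hφ.abs.const_mul _)
    (Filter.Eventually.of_forall fun s => ?_))
  simp only
  rw [abs_mul]
  exact mul_le_mul_of_nonneg_right (k.N_approx h0 hT _ _) (abs_nonneg _)

omit hφ in
lemma avg_left {a : ℝ} (hs : ∀ s < a, φ s = 0) (h0 : 0 < t) (hT : t ≤ k.T) {τ : ℝ}
    (hτ : τ + 2 * t ≤ a) : k.avg φ c t τ = c := by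
  rw [avg, integral_eq_zero_of_ae (Filter.Eventually.of_forall fun s => ?_), add_zero]
  rcases lt_or_ge s a with h | h
  · simp [hs s h]
  · simp [k.right t (s - τ) h0 hT (by linarith)]

omit hφ in
lemma avg_right {b : ℝ} (hs : ∀ s, b < s → φ s = 0) (h0 : 0 < t) (hT : t ≤ k.T) {τ : ℝ}
    (hτ : b ≤ τ - 2 * t) : k.avg φ c t τ = c + ∫ s, φ s := by
  rw [avg]
  congr 1
  refine integral_congr_ae (Filter.Eventually.of_forall fun s => ?_)
  simp only
  rcases lt_or_ge b s with h | h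
  · simp [hs s h]
  · simp [k.left t (s - τ) h0 hT (by linarith)]

/-- The supremum of the averages over the octave `[t/2, t]`. -/
noncomputable def octave (φ : ℝ → ℝ) (c t τ : ℝ) : ℝ :=
  sSup ((fun r => k.avg φ c r τ) '' Set.Icc (t / 2) t)

lemma octave_bdd (h0 : 0 < t) (hT : t ≤ k.T) (τ : ℝ) :
    BddAbove ((fun r => k.avg φ c r τ) '' Set.Icc (t / 2) t) := by
  refine ⟨|c| + ∫ s, |φ s|, ?_⟩
  rintro _ ⟨r, ⟨hr1, hr2⟩, rfl⟩
  exact (le_abs_self _).trans (k.abs_avg_le hφ c (by linarith) (hr2.trans hT) τ)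

lemma avg_le_octave (h0 : 0 < t) (hT : t ≤ k.T) {r : ℝ} (h1 : t / 2 ≤ r) (h2 : r ≤ t) (τ : ℝ) :
    k.avg φ c r τ ≤ k.octave φ c t τ :=
  le_csSup (k.octave_bdd hφ c h0 hT τ) ⟨r, ⟨h1, h2⟩, rfl⟩

lemma octave_lip (h0 : 0 < t) (hT : t ≤ k.T) (a b : ℝ) :
    |k.octave φ c t a - k.octave φ c t b| ≤ 4 * k.C / t * (∫ s, |φ s|) * |a - b| := by
  have key : ∀ a b, k.octave φ c t a ≤
      k.octave φ c t b + 4 * k.C / t * (∫ s, |φ s|) * |a - b| := by
    intro a b
    refine csSup_le (Set.Nonempty.image _ ⟨t, by linarith, le_rfl⟩) ?_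
    rintro _ ⟨r, ⟨hr1, hr2⟩, rfl⟩
    have h := k.avg_lip hφ c (t := r) (by linarith) (hr2.trans hT) a b
    have h' := k.avg_le_octave hφ c h0 hT hr1 hr2 b
    have hC := k.C_pos
    have h2 : 2 * k.C / r ≤ 4 * k.C / t := by
      rw [div_le_div_iff₀ (by linarith) h0]; nlinarith
    have h3 := mul_le_mul_of_nonneg_right (mul_le_mul_of_nonneg_right h2
      (integral_nonneg (μ := volume) fun s => abs_nonneg (φ s))) (abs_nonneg (a - b))
    linarith [(abs_le.1 h).2]
  rw [abs_le]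
  refine ⟨?_, by linarith [key a b]⟩
  have := key b a
  rw [abs_sub_comm] at this
  linarith

/-- At a point of differentiability the value and derivative of the octave supremum are limits of
values and slopes of single averages. -/
lemma octave_deriv (h0 : 0 < t) (hT : t ≤ k.T) {τ d : ℝ} (hd : HasDerivAt (k.octave φ c t) d τ)
    {ε : ℝ} (hε : 0 < ε) : ∃ r ∈ Set.Icc (t / 2) t,
      k.octave φ c t τ - k.avg φ c r τ ≤ ε ∧ |d - k.slope φ r τ| ≤ ε := by
  have h1 := (hasDerivAt_iff_isLittleO_nhds_zero.1 hd).bound (show (0 : ℝ) < ε / 4 by positivity)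
  obtain ⟨δ, hδ, hδ'⟩ := Metric.eventually_nhds_iff.1 h1
  set L := k.C / (t / 2) * ∫ s, |φ s| with hL
  have hL0 : 0 ≤ L := mul_nonneg (by have := k.C_pos; positivity)
    (integral_nonneg fun s => abs_nonneg _)
  set q := ε / (4 * (L + 1)) with hq
  have hq0 : 0 < q := by positivity
  set h := min (min (δ / 2) 1) (q ^ 2 * (t / 2)) with hh
  have hh0 : 0 < h := lt_min (lt_min (by linarith) one_pos) (by positivity)
  have hh1 : h ≤ 1 := (min_le_left _ _).trans (min_le_right _ _)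
  have hhδ : h < δ := ((min_le_left _ _).trans (min_le_left _ _)).trans_lt (by linarith)
  obtain ⟨_, ⟨r, hr, rfl⟩, hrv⟩ := exists_lt_of_lt_csSup
    (Set.Nonempty.image _ ⟨t, by linarith, le_rfl⟩ :
      ((fun r => k.avg φ c r τ) '' Set.Icc (t / 2) t).Nonempty)
    (show k.octave φ c t τ - h * (ε / 4) < k.octave φ c t τ by nlinarith)
  have hr0 : 0 < r := by linarith [hr.1]
  have hrT : r ≤ k.T := hr.2.trans hT
  simp only at hrv
  refine ⟨r, hr, by nlinarith, ?_⟩
  have herr : k.C / r * Real.sqrt (h / r) * h * (∫ s, |φ s|) ≤ ε / 4 * h := by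
    have hs : Real.sqrt (h / r) ≤ q := by
      rw [Real.sqrt_le_iff]
      refine ⟨hq0.le, ?_⟩
      rw [div_le_iff₀ hr0]
      exact (min_le_right _ _).trans (mul_le_mul_of_nonneg_left hr.1 (sq_nonneg _))
    have hs' : k.C / r * ∫ s, |φ s| ≤ L :=
      mul_le_mul_of_nonneg_right (div_le_div_of_nonneg_left k.C_pos.le (by linarith) hr.1)
        (integral_nonneg fun s => abs_nonneg _)
    calc k.C / r * Real.sqrt (h / r) * h * (∫ s, |φ s|)
        = (k.C / r * ∫ s, |φ s|) * Real.sqrt (h / r) * h := by ring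
      _ ≤ L * q * h := by gcongr
      _ ≤ ε / 4 * h := by
          refine mul_le_mul_of_nonneg_right ?_ hh0.le
          rw [hq, ← mul_div_assoc, div_le_div_iff₀ (by positivity) (by norm_num)]
          nlinarith
  have a1 := hδ' (y := h) (by simpa [Real.dist_eq, abs_of_pos hh0] using hhδ)
  have a2 := hδ' (y := -h) (by simpa [Real.dist_eq, abs_of_pos hh0] using hhδ)
  simp only [Real.norm_eq_abs, abs_of_pos hh0, abs_neg, smul_eq_mul] at a1 a2
  have b1 := k.avg_approx hφ c hr0 hrT τ h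
  have b2 := k.avg_approx hφ c hr0 hrT τ (-h)
  rw [abs_of_pos hh0] at b1
  rw [abs_neg, abs_of_pos hh0] at b2
  have c1 := k.avg_le_octave hφ c h0 hT hr.1 hr.2 (τ + h)
  have c2 := k.avg_le_octave hφ c h0 hT hr.1 hr.2 (τ + -h)
  obtain ⟨a11, a12⟩ := abs_le.1 a1
  obtain ⟨a21, a22⟩ := abs_le.1 a2
  obtain ⟨b11, b12⟩ := abs_le.1 b1
  obtain ⟨b21, b22⟩ := abs_le.1 b2
  have u1 : h * (k.slope φ r τ) ≤ h * (d + 3 * (ε / 4)) := by linarith
  have u2 : h * (d - 3 * (ε / 4)) ≤ h * (k.slope φ r τ) := by linarith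
  have v1 := le_of_mul_le_mul_left u1 hh0
  have v2 := le_of_mul_le_mul_left u2 hh0
  rw [abs_le]
  constructor <;> linarith

end Ker

end Vale.Agent.P137.Radial
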