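import Vale.Agent.P137.RadialSum

/-!
# P137: absolute continuity of the supremum over all small scales
-/

open MeasureTheory Filter Topology

namespace Vale.Agent.P137.Radial

lemma ac_pos_part {f : ℝ → ℝ} {a b : ℝ} (hf : AbsolutelyContinuousOnInterval f a b) :
    AbsolutelyContinuousOnInterval (fun x => max (f x) 0) a b := by
  rw [absolutelyContinuousOnInterval_iff] at hf ⊢
  intro ε hε
  obtain ⟨δ, hδ, h⟩ := hf ε hε
  refine ⟨δ, hδ, fun E hE hsum => lt_of_le_of_lt (Finset.sum_le_sum fun i _ => ?_) (h E hE hsum)⟩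
  simp only [Real.dist_eq]
  exact abs_max_sub_max_le_abs _ _ _

lemma ac_max {f g : ℝ → ℝ} {a b : ℝ} (hf : AbsolutelyContinuousOnInterval f a b)
    (hg : AbsolutelyContinuousOnInterval g a b) :
    AbsolutelyContinuousOnInterval (fun x => max (f x) (g x)) a b := by
  have e : (fun x => max (f x) (g x)) = (fun x => g x + max (f x - g x) 0) := by
    funext x
    rw [← max_add_add_left]
    simp
  rw [e]
  exact hg.fun_add (ac_pos_part (hf.fun_sub hg))

/-- `Φ` is a primitive of `φ`. -/
def Prim (Φ φ : ℝ → ℝ) : Prop :=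
  ∀ a b, IntervalIntegrable φ volume a b ∧ Φ b - Φ a = ∫ s in a..b, φ s

lemma Prim.ac {Φ φ : ℝ → ℝ} (h : Prim Φ φ) (a b : ℝ) : AbsolutelyContinuousOnInterval Φ a b := by
  have e : Φ = fun x => (∫ v in a..x, φ v) + Φ a := by
    funext x; linarith [(h a x).2]
  rw [e]
  exact ((h a b).1.absolutelyContinuousOnInterval_intervalIntegral Set.left_mem_uIcc).fun_add
    (LipschitzWith.const (Φ a)).lipschitzOnWith.absolutelyContinuousOnInterval

lemma Prim.ae_hasDerivAt {Φ φ : ℝ → ℝ} (h : Prim Φ φ) (a b : ℝ) :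
    ∀ᵐ x, x ∈ Set.uIcc a b → HasDerivAt Φ (φ x) x := by
  have e : Φ = fun x => (∫ v in a..x, φ v) + Φ a := by
    funext x; linarith [(h a x).2]
  filter_upwards [(h a b).1.ae_hasDerivAt_integral] with x hx hxI
  have := (hx hxI a Set.left_mem_uIcc).add_const (Φ a)
  rwa [← e] at this

namespace Ker

variable (k : Ker) {Φ φ : ℝ → ℝ}

/-- The average of `Φ` at scale `t` centred at `τ`. -/
noncomputable def mean (Φ : ℝ → ℝ) (t τ : ℝ) : ℝ :=
  ∫ u in (-(3 * k.T))..(3 * k.T), k.ν t u * Φ (τ + u)

/-- The supremum of the averages over all scales in `(0, T]`. -/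
noncomputable def smallMax (Φ : ℝ → ℝ) (τ : ℝ) : ℝ :=
  sSup ((fun t => k.mean Φ t τ) '' Set.Ioc 0 k.T)

/-- The derivative of `smallMax`. -/
noncomputable def smallDeriv (Φ φ : ℝ → ℝ) (τ : ℝ) : ℝ :=
  if Φ τ < k.smallMax Φ τ then deriv (k.smallMax Φ) τ else φ τ

lemma integral_nu {t : ℝ} (h0 : 0 < t) (hT : t ≤ k.T) :
    ∫ u in (-(3 * k.T))..(3 * k.T), k.ν t u = 1 := by
  rw [intervalIntegral.integral_eq_sub_of_hasDerivAt (fun u _ => k.hasDeriv t u h0 hT)
    ((k.continuous_nu h0 hT).intervalIntegrable _ _),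
    k.right t _ h0 hT (by linarith [k.T_pos]), k.left t _ h0 hT (by linarith [k.T_pos]), sub_zero]

lemma mean_eq_avg (hp : Prim Φ φ) {α β τ t : ℝ} (h0 : 0 < t) (hT : t ≤ k.T)
    (h1 : α ≤ τ - 3 * k.T) (h2 : τ + 3 * k.T ≤ β) :
    k.mean Φ t τ = k.avg ((Set.Ioc α β).indicator φ) (Φ α) t τ := by
  have hTp := k.T_pos
  set R := 3 * k.T with hR
  have acN : AbsolutelyContinuousOnInterval (k.N t) (τ - R - τ) (τ + R - τ) :=
    (LipschitzWith.of_dist_le' fun a b => k.N_lip h0 hT a b).lipschitzOnWith.absolutelyContinuousOnInterval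
  have hΦc : ∀ a b, ContinuousOn Φ (Set.uIcc a b) := fun a b => (hp.ac a b).continuousOn
  have acN' : AbsolutelyContinuousOnInterval (fun s => 1 - k.N t (s - τ)) (τ - R) (τ + R) := by
    refine LipschitzOnWith.absolutelyContinuousOnInterval
      (K := Real.toNNReal (2 * k.C / t)) (LipschitzWith.lipschitzOnWith (LipschitzWith.of_dist_le' fun a b => ?_))
    simp only [Real.dist_eq]
    have := k.N_lip h0 hT (b - τ) (a - τ)
    rw [sub_sub_sub_cancel_right, abs_sub_comm b a] at this
    refine le_trans (le_of_eq ?_) this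
    congr 1; ring
  have parts := acN'.integral_mul_deriv_eq_deriv_mul (hp.ac (τ - R) (τ + R))
  rw [k.right t (τ + R - τ) h0 hT (by linarith), k.left t (τ - R - τ) h0 hT (by linarith)] at parts
  have e1 : ∫ s in (τ - R)..(τ + R), (1 - k.N t (s - τ)) * deriv Φ s =
      ∫ s in (τ - R)..(τ + R), (1 - k.N t (s - τ)) * φ s := by
    refine intervalIntegral.integral_congr_ae ?_
    filter_upwards [hp.ae_hasDerivAt (τ - R) (τ + R)] with s hs hsI
    rw [(hs (Set.uIoc_subset_uIcc hsI)).deriv]
  have e2 : ∀ s, deriv (fun s => 1 - k.N t (s - τ)) s = -k.ν t (s - τ) := fun s => by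
    have := ((k.hasDeriv t (s - τ) h0 hT).comp_sub_const s τ).const_sub 1
    exact this.deriv
  simp only [e2, e1, neg_mul, intervalIntegral.integral_neg] at parts
  have e3 : k.mean Φ t τ = ∫ s in (τ - R)..(τ + R), k.ν t (s - τ) * Φ s := by
    rw [mean, ← hR]
    have h := intervalIntegral.integral_comp_add_left (fun s => k.ν t (s - τ) * Φ s) τ (a := -R) (b := R)
    refine (intervalIntegral.integral_congr fun u _ => ?_).trans (h.trans (by rw [← sub_eq_add_neg]))
    simp only [add_sub_cancel_left]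
  rw [e3, avg]
  have hint : ∀ a b, IntervalIntegrable (fun s => (1 - k.N t (s - τ)) * φ s) volume a b := fun a b =>
    (hp a b).1.continuousOn_mul (by
      have := k.continuous_N h0 hT
      exact (by fun_prop : Continuous fun s => 1 - k.N t (s - τ)).continuousOn)
  have e4 : ∫ s, (1 - k.N t (s - τ)) * (Set.Ioc α β).indicator φ s =
      ∫ s in α..β, (1 - k.N t (s - τ)) * φ s := by
    rw [intervalIntegral.integral_of_le (by linarith), ← integral_indicator measurableSet_Ioc]
    congr 1
    funext s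
    simp only [Set.indicator]
    split_ifs <;> simp
  have e5 : ∫ s in α..(τ - R), (1 - k.N t (s - τ)) * φ s = ∫ s in α..(τ - R), φ s := by
    refine intervalIntegral.integral_congr fun s hs => ?_
    rw [Set.uIcc_of_le h1] at hs
    rw [k.left t _ h0 hT (by linarith [hs.2]), sub_zero, one_mul]
  have e6 : ∫ s in (τ + R)..β, (1 - k.N t (s - τ)) * φ s = 0 := by
    rw [intervalIntegral.integral_congr (g := fun _ => (0 : ℝ)) fun s hs => ?_]
    · simp
    · rw [Set.uIcc_of_le h2] at hs
      simp only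
      rw [k.right t _ h0 hT (by linarith [hs.1]), sub_self, zero_mul]
  rw [e4, ← intervalIntegral.integral_add_adjacent_intervals (hint α (τ - R)) (hint (τ - R) β),
    ← intervalIntegral.integral_add_adjacent_intervals (hint (τ - R) (τ + R)) (hint (τ + R) β),
    e5, e6, ← (hp α (τ - R)).2]
  linarith

lemma exists_run (hp : Prim Φ φ) {a b : ℝ} (hab : a ≤ b) (K : ℕ) :
    ∃ f : ℝ → ℝ, (∃ L, LipschitzWith L f) ∧
      (∫ x in a..b, |deriv f x|) ≤ 20000 * k.C ^ 3 * (∫ s in (a - 3 * k.T)..(b + 3 * k.T), |φ s|) ∧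
      (∀ x ∈ Set.Icc a b, ∀ t ∈ Set.Icc (k.T / 2 ^ K / 2) k.T, k.mean Φ t x ≤ f x) ∧
      (∀ x ∈ Set.Icc a b, f x ≤ k.smallMax Φ x) := by
  have hTp := k.T_pos
  set α := a - 3 * k.T with hα
  set β := b + 3 * k.T with hβ
  set φ' := (Set.Ioc α β).indicator φ with hφ'
  have hφi : Integrable φ' := (integrable_indicator_iff measurableSet_Ioc).2 (hp α β).1.1
  set δ := α - 8 * k.T with hδ
  set ψ : ℝ → ℝ := fun s => φ' (s + δ) with hψ
  have hψi : Integrable ψ := hφi.comp_add_right δ
  obtain ⟨N, hN⟩ := exists_nat_gt ((β - δ) / k.T)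
  rw [div_lt_iff₀ hTp] at hN
  have hsL : ∀ s < 8 * k.T, ψ s = 0 := fun s hs =>
    Set.indicator_of_notMem (fun h => by linarith [h.1]) _
  have hsR : ∀ s, (N : ℝ) * k.T < s → ψ s = 0 := fun s hs =>
    Set.indicator_of_notMem (fun h => by linarith [h.2]) _
  set τ₀ := k.T / 2 ^ K with hτ₀
  have hτ0 : 0 < τ₀ := by positivity
  have hle : ∀ l ≤ K, τ₀ * 2 ^ l ≤ k.T := fun l hl => by
    rw [hτ₀, div_mul_eq_mul_div, div_le_iff₀ (by positivity)]
    exact mul_le_mul_of_nonneg_left (pow_le_pow_right₀ one_le_two hl) hTp.le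
  have hshift : ∀ t τ, k.avg ψ (Φ α) t (τ - δ) = k.avg φ' (Φ α) t τ := by
    intro t τ
    simp only [avg, hψ]
    congr 1
    rw [← integral_add_right_eq_self (fun s => (1 - k.N t (s - τ)) * φ' s) δ]
    refine integral_congr_ae (Filter.Eventually.of_forall fun s => ?_)
    simp only
    congr 3
    ring
  set F := k.run ψ (Φ α) τ₀ K with hF
  obtain ⟨⟨L, hL⟩, hl, hr⟩ := k.tame_run (c := Φ α) hψi hsL hsR hτ0 K (hle K le_rfl)
  refine ⟨fun x => F (x - δ), ⟨L, LipschitzWith.of_dist_le_mul fun x y => ?_⟩, ?_, ?_, ?_⟩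
  · simpa [Real.dist_eq] using hL.dist_le_mul (x - δ) (y - δ)
  · have h1 : ∀ x, deriv (fun x => F (x - δ)) x = deriv F (x - δ) := fun x => deriv_comp_sub_const F δ x
    simp only [h1]
    have hi : Integrable fun x => |deriv F x| := by
      refine IntegrableOn.integrable_of_forall_notMem_eq_zero
        (s := Set.Ioc (5 * k.T) (((N : ℝ) + 3) * k.T + 5 * k.T)) ?_ fun x hx => ?_
      · exact ((hL.lipschitzOnWith (s := Set.uIcc (5 * k.T) (((N : ℝ) + 3) * k.T + 5 * k.T))
          ).absolutelyContinuousOnInterval.intervalIntegrable_deriv).abs.1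
      · rw [abs_eq_zero]
        rw [Set.mem_Ioc, not_and_or, not_lt, not_le] at hx
        rcases hx with h | h
        · rw [Filter.EventuallyEq.deriv_eq (f := fun _ => Φ α) (Filter.eventuallyEq_of_mem
            (isOpen_Iio.mem_nhds (show x < 6 * k.T by linarith)) fun y hy => hl y hy), deriv_const]
        · rw [Filter.EventuallyEq.deriv_eq (f := fun _ => Φ α + ∫ s, ψ s) (Filter.eventuallyEq_of_mem
            (isOpen_Ioi.mem_nhds (show ((N : ℝ) + 2) * k.T < x by linarith)) fun y hy => hr y hy),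
            deriv_const]
    rw [intervalIntegral.integral_comp_sub_right (fun x => |deriv F x|) δ,
      intervalIntegral.integral_of_le (by linarith)]
    refine (setIntegral_le_integral hi (Filter.Eventually.of_forall fun x => abs_nonneg _)).trans
      ((k.run_le hψi hsL hsR K).trans (le_of_eq ?_))
    congr 1
    simp only [hψ]
    rw [integral_add_right_eq_self (fun s => |φ' s|) δ, intervalIntegral.integral_of_le (by linarith),
      ← integral_indicator measurableSet_Ioc]
    congr 1
    funext s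
    simp only [hφ', Set.indicator]
    split_ifs <;> simp
  · intro x hx t ht
    have ht0 : 0 < t := lt_of_lt_of_le (by positivity) ht.1
    rw [k.mean_eq_avg hp ht0 ht.2 (α := α) (β := β) (by linarith [hx.1]) (by linarith [hx.2]),
      ← hshift]
    have key : ∀ i ≤ K, ∀ t, τ₀ / 2 ≤ t → t ≤ τ₀ * 2 ^ i → ∀ y,
        k.avg ψ (Φ α) t y ≤ k.run ψ (Φ α) τ₀ i y := by
      intro i
      induction i with
      | zero =>
        intro hi t h1 h2 y
        rw [pow_zero, mul_one] at h2
        exact k.avg_le_octave hψi _ hτ0 (by simpa using hle 0 hi) h1 h2 y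
      | succ i ih =>
        intro hi t h1 h2 y
        rcases le_or_gt t (τ₀ * 2 ^ i) with h | h
        · exact (ih (by omega) t h1 h y).trans (le_max_left _ _)
        · refine (k.avg_le_octave hψi _ (by positivity) (hle _ hi) ?_ h2 y).trans (le_max_right _ _)
          rw [pow_succ]; linarith
    refine key K le_rfl t ht.1 (le_trans ht.2 (le_of_eq ?_)) _
    rw [hτ₀]; field_simp
  · intro x hx
    have bd : BddAbove ((fun t => k.mean Φ t x) '' Set.Ioc 0 k.T) := by
      refine ⟨|Φ α| + ∫ s, |φ' s|, ?_⟩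
      rintro _ ⟨t, ⟨ht0, htT⟩, rfl⟩
      show k.mean Φ t x ≤ _
      rw [k.mean_eq_avg hp ht0 htT (α := α) (β := β) (by linarith [hx.1]) (by linarith [hx.2])]
      exact (le_abs_self _).trans (k.abs_avg_le hφi _ ht0 htT x)
    have key : ∀ i ≤ K, ∀ t, 0 < t → t ≤ τ₀ * 2 ^ i → k.octave ψ (Φ α) (τ₀ * 2 ^ i) (x - δ) ≤
        k.smallMax Φ x := by
      intro i hi t _ _
      refine csSup_le (Set.Nonempty.image _ ⟨_, half_le_self (by positivity), le_rfl⟩) ?_
      rintro _ ⟨r, ⟨hr1, hr2⟩, rfl⟩
      have hr0 : 0 < r := lt_of_lt_of_le (by positivity) hr1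
      have hrT : r ≤ k.T := hr2.trans (hle i hi)
      show k.avg ψ (Φ α) r (x - δ) ≤ _
      rw [hshift, ← k.mean_eq_avg hp hr0 hrT (by linarith [hx.1]) (by linarith [hx.2])]
      exact le_csSup bd ⟨r, ⟨hr0, hrT⟩, rfl⟩
    have key2 : ∀ i ≤ K, k.run ψ (Φ α) τ₀ i (x - δ) ≤ k.smallMax Φ x := by
      intro i
      induction i with
      | zero =>
        intro hi
        have := key 0 hi τ₀ hτ0 (by simp)
        simpa [run] using this
      | succ i ih =>
        intro hi
        exact max_le (ih (by omega)) (key (i + 1) hi (τ₀ * 2 ^ (i + 1)) (by positivity) le_rfl)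
    exact key2 K le_rfl

lemma mean_near (hp : Prim Φ φ) (a b : ℝ) {ε : ℝ} (hε : 0 < ε) :
    ∃ t₀ > 0, ∀ x ∈ Set.Icc a b, ∀ t, 0 < t → t ≤ k.T → t ≤ t₀ → |k.mean Φ t x - Φ x| ≤ ε := by
  have hTp := k.T_pos
  have huc := isCompact_Icc.uniformContinuousOn_of_continuous
    ((hp.ac (a - 3 * k.T) (b + 3 * k.T)).continuousOn.mono Set.Icc_subset_uIcc)
  obtain ⟨d, hd, hd'⟩ := Metric.uniformContinuousOn_iff.1 huc ε hε
  refine ⟨d / 3, by positivity, fun x hx t ht0 htT htd => ?_⟩
  have hab : -(3 * k.T) ≤ 3 * k.T := by linarith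
  have hi : IntervalIntegrable (fun u => k.ν t u * Φ (x + u)) volume (-(3 * k.T)) (3 * k.T) := by
    refine ContinuousOn.intervalIntegrable ((k.continuous_nu ht0 htT).continuousOn.mul ?_)
    refine ((hp.ac (x - 3 * k.T) (x + 3 * k.T)).continuousOn).comp (by fun_prop) fun u hu => ?_
    rw [Set.uIcc_of_le hab] at hu
    rw [Set.uIcc_of_le (by linarith)]
    constructor <;> linarith [hu.1, hu.2]
  have hni : IntervalIntegrable (k.ν t) volume (-(3 * k.T)) (3 * k.T) :=
    (k.continuous_nu ht0 htT).intervalIntegrable _ _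
  have e : k.mean Φ t x - Φ x = ∫ u in (-(3 * k.T))..(3 * k.T), k.ν t u * (Φ (x + u) - Φ x) := by
    simp only [mul_sub]
    rw [intervalIntegral.integral_sub hi (hni.mul_const _), intervalIntegral.integral_mul_const,
      k.integral_nu ht0 htT, one_mul]
    rfl
  rw [e]
  calc |∫ u in (-(3 * k.T))..(3 * k.T), k.ν t u * (Φ (x + u) - Φ x)|
      ≤ ∫ u in (-(3 * k.T))..(3 * k.T), k.ν t u * ε := by
        rw [← Real.norm_eq_abs]
        refine intervalIntegral.norm_integral_le_of_norm_le hab
          (Filter.Eventually.of_forall fun u hu => ?_) (hni.mul_const _)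
        rw [Real.norm_eq_abs, abs_mul, abs_of_nonneg (k.nonneg t u ht0 htT)]
        rcases le_or_gt (2 * t) |u| with h | h
        · rw [k.supp t u ht0 htT h]; simp
        · refine mul_le_mul_of_nonneg_left ?_ (k.nonneg t u ht0 htT)
          have := hd' (x + u) ⟨by linarith [hu.1, hx.1], by linarith [hu.2, hx.2]⟩ x
            ⟨by linarith [hx.1], by linarith [hx.2]⟩ (by rw [Real.dist_eq, add_sub_cancel_left]; linarith)
          rw [Real.dist_eq] at this
          exact this.le
    _ = ε := by rw [intervalIntegral.integral_mul_const, k.integral_nu ht0 htT, one_mul]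

/-- The supremum over the small scales is absolutely continuous, with a linear derivative bound. -/
theorem smallMax_ftc (hp : Prim Φ φ) {a b : ℝ} (hab : a ≤ b) :
    IntervalIntegrable (k.smallDeriv Φ φ) volume a b ∧
      k.smallMax Φ b - k.smallMax Φ a = ∫ x in a..b, k.smallDeriv Φ φ x ∧
      ∫ x in a..b, |k.smallDeriv Φ φ x| ≤
        30000 * k.C ^ 3 * ∫ s in (a - 3 * k.T)..(b + 3 * k.T), |φ s| := by
  have hTp := k.T_pos
  set m := k.smallMax Φ with hm
  set J := ∫ s in (a - 3 * k.T)..(b + 3 * k.T), |φ s| with hJ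
  -- basic facts on `[a, b]`
  have hbdd : ∀ x ∈ Set.Icc a b, BddAbove ((fun t => k.mean Φ t x) '' Set.Ioc 0 k.T) := by
    intro x hx
    refine ⟨|Φ (a - 3 * k.T)| + ∫ s, |(Set.Ioc (a - 3 * k.T) (b + 3 * k.T)).indicator φ s|, ?_⟩
    rintro _ ⟨t, ⟨ht0, htT⟩, rfl⟩
    show k.mean Φ t x ≤ _
    rw [k.mean_eq_avg hp ht0 htT (α := a - 3 * k.T) (β := b + 3 * k.T) (by linarith [hx.1])
      (by linarith [hx.2])]
    exact (le_abs_self _).trans (k.abs_avg_le
      ((integrable_indicator_iff measurableSet_Ioc).2 (hp _ _).1.1) _ ht0 htT x)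
  have hge : ∀ x ∈ Set.Icc a b, Φ x ≤ m x := by
    intro x hx
    refine le_of_forall_pos_le_add fun ε hε => ?_
    obtain ⟨t₀, ht₀, h⟩ := k.mean_near hp a b hε
    have h1 := (abs_le.1 (h x hx (min t₀ k.T) (lt_min ht₀ hTp) (min_le_right _ _) (min_le_left _ _))).1
    have h2 : k.mean Φ (min t₀ k.T) x ≤ m x :=
      le_csSup (hbdd x hx) ⟨_, ⟨lt_min ht₀ hTp, min_le_right _ _⟩, rfl⟩
    linarith
  -- the cut-off functions
  set δ : ℕ → ℝ := fun n => 1 / ((n : ℝ) + 1) with hδ
  set g : ℕ → ℝ → ℝ := fun n x => if Φ x + δ n < m x then deriv m x else φ x with hg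
  have hδ0 : ∀ n, 0 < δ n := fun n => Nat.one_div_pos_of_nat
  have step : ∀ n, IntervalIntegrable (g n) volume a b ∧
      (∫ x in a..b, g n x) = max (m b) (Φ b + δ n) - max (m a) (Φ a + δ n) ∧
      ∫ x in a..b, |g n x| ≤ 20000 * k.C ^ 3 * J + J := by
    intro n
    obtain ⟨t₀, ht₀, hnear⟩ := k.mean_near hp a b (hδ0 n)
    obtain ⟨K, hK⟩ := exists_nat_gt (k.T / t₀)
    have hK' : k.T / 2 ^ K / 2 ≤ t₀ := by
      have h2 : (K : ℝ) ≤ 2 ^ K := by exact_mod_cast Nat.lt_two_pow_self.le
      rw [div_lt_iff₀ ht₀] at hK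
      rw [div_div, div_le_iff₀ (by positivity)]
      nlinarith
    obtain ⟨f, ⟨L, hL⟩, hfv, hfge, hfle⟩ := k.exists_run hp hab K
    have eq : ∀ x ∈ Set.Icc a b, max (m x) (Φ x + δ n) = max (f x) (Φ x + δ n) := by
      intro x hx
      refine le_antisymm (max_le ?_ (le_max_right _ _)) (max_le_max (hfle x hx) le_rfl)
      refine csSup_le ⟨_, k.T, ⟨hTp, le_rfl⟩, rfl⟩ ?_
      rintro _ ⟨t, ⟨ht0, htT⟩, rfl⟩
      rcases le_or_gt t t₀ with h | h
      · refine le_trans ?_ (le_max_right _ _)
        show k.mean Φ t x ≤ _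
        linarith [(abs_le.1 (hnear x hx t ht0 htT h)).2]
      · exact (hfge x hx t ⟨by linarith, htT⟩).trans (le_max_left _ _)
    set P : ℝ → ℝ := fun x => max (f x) (Φ x + δ n) with hP
    have acP : AbsolutelyContinuousOnInterval P a b :=
      ac_max hL.lipschitzOnWith.absolutelyContinuousOnInterval
        ((hp.ac a b).fun_add (LipschitzWith.const (δ n)).lipschitzOnWith.absolutelyContinuousOnInterval)
    have hder : ∀ᵐ x ∂volume, x ∈ Set.uIoc a b →
        deriv P x = g n x ∧ |g n x| ≤ |deriv f x| + |φ x| := by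
      have hne : ∀ᵐ x : ℝ, x ≠ b :=
        (measure_eq_zero_iff_ae_notMem.1 Real.volume_singleton).mono fun x h => by simpa using h
      filter_upwards [hp.ae_hasDerivAt a b, acP.ae_differentiableAt, hne] with x h1 h2 hxb hxI
      have hI := Set.uIoc_subset_uIcc hxI
      rw [Set.uIoc_of_le hab] at hxI
      have hxo : x ∈ Set.Ioo a b := ⟨hxI.1, lt_of_le_of_ne hxI.2 hxb⟩
      have hev : ∀ᶠ y in 𝓝 x, y ∈ Set.Ioo a b := isOpen_Ioo.mem_nhds hxo
      have e := eq x (Set.Ioo_subset_Icc_self hxo)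
      simp only [hg]
      split_ifs with hgt
      · have hfgt : Φ x + δ n < f x := by
          rw [max_eq_left hgt.le] at e
          rcases le_or_gt (f x) (Φ x + δ n) with h | h
          · rw [max_eq_right h] at e; linarith
          · exact h
        have hΦc : ContinuousAt Φ x := (h1 hI).continuousAt
        have hlt : ∀ᶠ y in 𝓝 x, Φ y + δ n < f y :=
          (hΦc.add continuousAt_const).eventually_lt hL.continuous.continuousAt hfgt
        have ef : deriv P x = deriv f x :=
          Filter.EventuallyEq.deriv_eq (hlt.mono fun y hy => max_eq_left hy.le)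
        have em : deriv m x = deriv f x := by
          refine Filter.EventuallyEq.deriv_eq ((hlt.and hev).mono fun y hy => ?_)
          have e' := eq y (Set.Ioo_subset_Icc_self hy.2)
          rw [max_eq_left hy.1.le] at e'
          have := hfle y (Set.Ioo_subset_Icc_self hy.2)
          rcases le_or_gt (m y) (Φ y + δ n) with h | h
          · rw [max_eq_right h] at e'; linarith [hy.1]
          · rwa [max_eq_left h.le] at e'
        rw [em]
        exact ⟨ef, le_add_of_nonneg_right (abs_nonneg _)⟩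
      · refine ⟨?_, le_add_of_nonneg_left (abs_nonneg _)⟩
        have hd := ((h2 hI).hasDerivAt.sub ((h1 hI).add_const (δ n)))
        have hmin : IsLocalMin (fun y => P y - (Φ y + δ n)) x :=
          Filter.Eventually.of_forall fun y => by
            have : P x = Φ x + δ n := by
              simp only [hP]; rw [← e, max_eq_right (not_lt.1 hgt)]
            show P x - (Φ x + δ n) ≤ P y - (Φ y + δ n)
            rw [this, sub_self]
            exact sub_nonneg.2 (le_max_right _ _)
        have := hmin.hasDerivAt_eq_zero hd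
        linarith
    have hgi : IntervalIntegrable (g n) volume a b := by
      refine acP.intervalIntegrable_deriv.congr_ae ?_
      rw [Filter.EventuallyEq, ae_restrict_iff' measurableSet_uIoc]
      exact hder.mono fun x hx hxI => (hx hxI).1
    refine ⟨hgi, ?_, ?_⟩
    · rw [← intervalIntegral.integral_congr_ae (hder.mono fun x hx hxI => (hx hxI).1),
        acP.integral_deriv_eq_sub, eq b ⟨hab, le_rfl⟩, eq a ⟨le_rfl, hab⟩]
    · have i1 : IntervalIntegrable (fun x => |deriv f x|) volume a b :=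
        hL.lipschitzOnWith.absolutelyContinuousOnInterval.intervalIntegrable_deriv.abs
      refine (intervalIntegral.integral_mono_ae_restrict hab hgi.abs (i1.add (hp a b).1.abs) ?_).trans ?_
      · rw [Filter.EventuallyLE, ae_restrict_iff' measurableSet_Icc]
        have hne : ∀ᵐ x : ℝ, x ≠ a :=
          (measure_eq_zero_iff_ae_notMem.1 Real.volume_singleton).mono fun x h => by simpa using h
        filter_upwards [hder, hne] with x hx hxa hxI
        exact (hx (by rw [Set.uIoc_of_le hab]; exact ⟨lt_of_le_of_ne hxI.1 (Ne.symm hxa), hxI.2⟩)).2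
      · rw [intervalIntegral.integral_add i1 (hp a b).1.abs]
        refine add_le_add hfv ?_
        exact intervalIntegral.integral_mono_interval (by linarith) hab (by linarith)
          (Filter.Eventually.of_forall fun s => abs_nonneg _) (hp _ _).1.abs
  -- the limit
  have hlim : ∀ x ∈ Set.Icc a b, Tendsto (fun n => g n x) atTop (𝓝 (k.smallDeriv Φ φ x)) := by
    intro x hx
    refine tendsto_const_nhds.congr' ?_
    simp only [hg, smallDeriv, ← hm]
    by_cases h : Φ x < m x
    · obtain ⟨n₀, hn₀⟩ := exists_nat_one_div_lt (show 0 < m x - Φ x by linarith)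
      filter_upwards [Filter.eventually_ge_atTop n₀] with n hn
      have : δ n ≤ 1 / ((n₀ : ℝ) + 1) := Nat.one_div_le_one_div hn
      rw [if_pos h, if_pos (by linarith)]
    · refine Filter.Eventually.of_forall fun n => ?_
      have h' : ¬ Φ x + δ n < m x := fun h' => h (by linarith [hδ0 n])
      simp only [if_neg h, if_neg h']
  have hlim' : ∀ᵐ x ∂volume.restrict (Set.Ioc a b),
      Tendsto (fun n => g n x) atTop (𝓝 (k.smallDeriv Φ φ x)) := by
    rw [ae_restrict_iff' measurableSet_Ioc]
    exact Filter.Eventually.of_forall fun x hx => hlim x (Set.Ioc_subset_Icc_self hx)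
  set B := 20000 * k.C ^ 3 * J + J with hB
  have hB0 : 0 ≤ B := (intervalIntegral.integral_nonneg hab fun x _ => abs_nonneg _).trans (step 0).2.2
  have hle : ∀ n, ∫⁻ x in Set.Ioc a b, ‖g n x‖ₑ ≤ ENNReal.ofReal B := by
    intro n
    rw [← ofReal_integral_norm_eq_lintegral_enorm (step n).1.1]
    refine ENNReal.ofReal_le_ofReal (le_trans (le_of_eq ?_) (step n).2.2)
    rw [intervalIntegral.integral_of_le hab]
    rfl
  have hlimi : liminf (fun n => ∫⁻ x in Set.Ioc a b, ‖g n x‖ₑ) atTop ≤ ENNReal.ofReal B :=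
    Filter.liminf_le_of_frequently_le' (Filter.Frequently.of_forall hle)
  have hint : IntegrableOn (k.smallDeriv Φ φ) (Set.Ioc a b) := MeasureTheory.integrable_of_tendsto hlim'
    (fun n => (step n).1.1.aestronglyMeasurable) (ne_top_of_le_ne_top ENNReal.ofReal_ne_top hlimi)
  have hint' : IntervalIntegrable (k.smallDeriv Φ φ) volume a b :=
    (intervalIntegrable_iff_integrableOn_Ioc_of_le hab).2 hint
  refine ⟨hint', ?_, ?_⟩
  · have h1 : Tendsto (fun n => ∫ x in a..b, g n x) atTop (𝓝 (∫ x in a..b, k.smallDeriv Φ φ x)) := by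
      refine intervalIntegral.tendsto_integral_filter_of_dominated_convergence
        (fun x => |k.smallDeriv Φ φ x| + |φ x|)
        (Filter.Eventually.of_forall fun n => (step n).1.aestronglyMeasurable_restrict_uIoc)
        (Filter.Eventually.of_forall fun n => Filter.Eventually.of_forall fun x _ => ?_)
        (hint'.abs.add (hp a b).1.abs)
        (Filter.Eventually.of_forall fun x hx => hlim x (by
          rw [Set.uIoc_of_le hab] at hx; exact Set.Ioc_subset_Icc_self hx))
      rw [Real.norm_eq_abs]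
      simp only [hg, smallDeriv, ← hm]
      split_ifs with h h'
      · exact le_add_of_nonneg_right (abs_nonneg _)
      · exact absurd (show Φ x < m x by linarith [hδ0 n]) h'
      · exact le_add_of_nonneg_left (abs_nonneg _)
      · exact le_add_of_nonneg_left (abs_nonneg _)
    have h0 : Tendsto δ atTop (𝓝 0) := tendsto_one_div_add_atTop_nhds_zero_nat
    have h2 : Tendsto (fun n => max (m b) (Φ b + δ n) - max (m a) (Φ a + δ n)) atTop
        (𝓝 (m b - m a)) := by
      have := ((tendsto_const_nhds (x := m b)).max ((tendsto_const_nhds (x := Φ b)).add h0)).sub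
        ((tendsto_const_nhds (x := m a)).max ((tendsto_const_nhds (x := Φ a)).add h0))
      simpa [max_eq_left (hge a ⟨le_rfl, hab⟩), max_eq_left (hge b ⟨hab, le_rfl⟩)] using this
    exact tendsto_nhds_unique (h2.congr fun n => ((step n).2.1).symm) h1
  · have h1 := (lintegral_enorm_le_liminf_of_tendsto hlim'
      (fun n => (step n).1.1.aestronglyMeasurable.aemeasurable.enorm)).trans hlimi
    rw [← ofReal_integral_norm_eq_lintegral_enorm hint, ENNReal.ofReal_le_ofReal_iff hB0] at h1
    rw [intervalIntegral.integral_of_le hab]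
    refine le_trans (le_of_eq rfl) (h1.trans ?_)
    have hJ0 : 0 ≤ J := intervalIntegral.integral_nonneg (by linarith) fun x _ => abs_nonneg _
    have h3 : 1 ≤ k.C ^ 3 := one_le_pow₀ k.one_le_C
    have := mul_le_mul_of_nonneg_right h3 hJ0
    rw [hB]
    nlinarith

end Ker

end Vale.Agent.P137.Radial
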