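import Vale.Agent.P137.RadialSlice
import Vale.Agent.P137.RadialMax

/-!
# P137: the log-radial kernels of Euclidean balls in dimension at least two
-/

open MeasureTheory Set
open scoped ENNReal

namespace Vale.Agent.P137.Radial

variable (n : ℕ)

/-- The density of `log |z|` on `B(e, t)`. -/
noncomputable def ballNu (t u : ℝ) : ℝ :=
  dens n t (Real.exp u) * Real.exp u / (t ^ (n + 2) * sqVol (n + 2) 1)

/-- Its distribution function. -/
noncomputable def ballCdf (t u : ℝ) : ℝ := ∫ v in (-1)..u, ballNu n t v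

lemma lensA_le (t s : ℝ) : lensA t s ≤ t ^ 2 := by
  unfold lensA; nlinarith [sq_nonneg ((1 + s ^ 2 - t ^ 2) / 2 - 1)]

lemma dens_bounds {t s : ℝ} (ht0 : 0 ≤ t) (ht : t ≤ 1 / 32) (hs : 3 / 4 ≤ s) (hs' : s ≤ 5 / 4) :
    Real.sqrt (lensA t s) ^ (n + 1) * sqVol (n + 1) 1 ≤ dens n t s ∧
    dens n t s ≤ 2 * (Real.sqrt (lensA t s) ^ (n + 1) * sqVol (n + 1) 1) := by
  set D := {y : Fin (n + 1) → ℝ | sq y < lensA t s} with hD
  have hm : MeasurableSet D := measurableSet_lt measurable_sq measurable_const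
  have hf : volume D < ⊤ := lt_top_iff_ne_top.2 (sq_lt_ne_top _ _)
  have hi := integrableOn_dens n ht0 (show t < 1 by linarith) (show 0 ≤ s by linarith)
  have hb : ∀ y ∈ D, 1 ≤ s / Real.sqrt (s ^ 2 - sq y) ∧ s / Real.sqrt (s ^ 2 - sq y) ≤ 2 := by
    intro y hy
    obtain ⟨h1, h2⟩ := sub_pos_of_lt (show t < 1 by linarith) ht0 hy
    have h3 := sq_nonneg' y
    have h4 : 0 < Real.sqrt (s ^ 2 - sq y) := Real.sqrt_pos.2 (by nlinarith)
    refine ⟨?_, ?_⟩
    · rw [le_div_iff₀ h4, one_mul, Real.sqrt_le_left (by linarith)]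
      linarith
    · rw [div_le_iff₀ h4]
      have : s / 2 ≤ Real.sqrt (s ^ 2 - sq y) := Real.le_sqrt_of_sq_le (by
        have : s / 2 ≤ (1 + s ^ 2 - t ^ 2) / 2 := by nlinarith
        nlinarith)
      linarith
  have hc : IntegrableOn (fun _ => (1 : ℝ)) D := integrableOn_const hf.ne
  rw [← sqVol_eq, dens, sqVol, ← hD]
  constructor
  · have := setIntegral_mono_on hc hi hm fun y hy => (hb y hy).1
    simpa using this
  · have := setIntegral_mono_on hi (hc.const_mul 2) hm fun y hy => (hb y hy).2.trans (by norm_num)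
    simpa [mul_comm] using this

lemma quot_lip {a b q : ℝ} (ha : 3 / 4 ≤ a) (hb : 3 / 4 ≤ b) (ha' : a ≤ 5 / 4) (hb' : b ≤ 5 / 4)
    (hq0 : 0 ≤ q) (hq : q ≤ 1 / 100) :
    |a / Real.sqrt (a ^ 2 - q) - b / Real.sqrt (b ^ 2 - q)| ≤ |a - b| := by
  set A := Real.sqrt (a ^ 2 - q) with hA
  set B := Real.sqrt (b ^ 2 - q) with hB
  have hA' : 7 / 10 ≤ A := Real.le_sqrt_of_sq_le (by nlinarith)
  have hB' : 7 / 10 ≤ B := Real.le_sqrt_of_sq_le (by nlinarith)
  have eA : A ^ 2 = a ^ 2 - q := Real.sq_sqrt (by nlinarith)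
  have eB : B ^ 2 = b ^ 2 - q := Real.sq_sqrt (by nlinarith)
  have hAB : 49 / 100 ≤ A * B := by nlinarith
  have e : (a * B - b * A) * (a * B + b * A) = q * (b + a) * (b - a) := by
    linear_combination (a ^ 2) * eB - (b ^ 2) * eA
  have hS : 1 ≤ a * B + b * A := by nlinarith
  have h1 : |a * B - b * A| ≤ 1 / 40 * |a - b| := by
    have := congrArg abs e
    rw [abs_mul, abs_mul, abs_of_pos (show 0 < a * B + b * A by linarith),
      abs_of_nonneg (show 0 ≤ q * (b + a) by positivity), abs_sub_comm b a] at this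
    have h2 : q * (b + a) ≤ 1 / 40 := by nlinarith
    have h3 := mul_le_mul_of_nonneg_right h2 (abs_nonneg (a - b))
    nlinarith [abs_nonneg (a * B - b * A)]
  rw [div_sub_div _ _ (by positivity) (by positivity), abs_div, abs_of_pos (show 0 < A * B by linarith),
    div_le_iff₀ (by linarith)]
  calc |a * B - A * b| = |a * B - b * A| := by ring_nf
    _ ≤ 1 / 40 * |a - b| := h1
    _ ≤ |a - b| * (A * B) := by nlinarith [abs_nonneg (a - b)]

lemma dens_diff {t a b : ℝ} (ht0 : 0 < t) (ht : t ≤ 1 / 32) (ha : |a - 1| ≤ 4 * t)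
    (hb : |b - 1| ≤ 4 * t) :
    |dens n t a - dens n t b| ≤ sqVol (n + 1) 1 *
      (2 * ((n + 1) * t ^ n * Real.sqrt (12 * t * |a - b|)) + t ^ (n + 1) * |a - b|) := by
  wlog hab : lensA t a ≤ lensA t b generalizing a b
  · have := this hb ha (le_of_lt (not_le.1 hab))
    rwa [abs_sub_comm, abs_sub_comm b a] at this
  obtain ⟨a1, a2⟩ := abs_le.1 ha
  obtain ⟨b1, b2⟩ := abs_le.1 hb
  set Da := {y : Fin (n + 1) → ℝ | sq y < lensA t a} with hDa
  set Db := {y : Fin (n + 1) → ℝ | sq y < lensA t b} with hDb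
  set c := sqVol (n + 1) 1 with hc
  have hc0 : 0 ≤ c := (sqVol_one_pos _).le
  have hsub : Da ⊆ Db := fun y hy => lt_of_lt_of_le (show sq y < lensA t a from hy) hab
  have hma : MeasurableSet Da := measurableSet_lt measurable_sq measurable_const
  have hmb : MeasurableSet Db := measurableSet_lt measurable_sq measurable_const
  have ib := integrableOn_dens n ht0.le (show t < 1 by linarith) (show 0 ≤ b by linarith)
  have ia := integrableOn_dens n ht0.le (show t < 1 by linarith) (show 0 ≤ a by linarith)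
  have e : dens n t b - dens n t a =
      (∫ y in Db \ Da, b / Real.sqrt (b ^ 2 - sq y)) +
      ∫ y in Da, (b / Real.sqrt (b ^ 2 - sq y) - a / Real.sqrt (a ^ 2 - sq y)) := by
    rw [dens, dens, ← hDa, ← hDb, setIntegral_sdiff hma ib hsub,
      integral_sub (ib.mono_set hsub) ia]
    ring
  have hfa : volume Da < ⊤ := lt_top_iff_ne_top.2 (sq_lt_ne_top _ _)
  have hfb : volume (Db \ Da) < ⊤ :=
    lt_of_le_of_lt (measure_mono Set.sdiff_subset) (lt_top_iff_ne_top.2 (sq_lt_ne_top _ _))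
  have t1 : |∫ y in Da, (b / Real.sqrt (b ^ 2 - sq y) - a / Real.sqrt (a ^ 2 - sq y))| ≤
      |a - b| * volume.real Da := by
    rw [← Real.norm_eq_abs]
    refine norm_setIntegral_le_of_norm_le_const (C := |a - b|) hfa fun y hy => ?_
    rw [Real.norm_eq_abs, abs_sub_comm]
    have h5 : sq y ≤ t ^ 2 := (le_of_lt hy).trans (lensA_le t a)
    exact quot_lip (by linarith) (by linarith) (by linarith) (by linarith) (sq_nonneg' y) (by nlinarith)
  have t2 : |∫ y in Db \ Da, b / Real.sqrt (b ^ 2 - sq y)| ≤ 2 * volume.real (Db \ Da) := by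
    rw [← Real.norm_eq_abs]
    refine norm_setIntegral_le_of_norm_le_const (C := 2) hfb fun y hy => ?_
    have h5 : sq y < lensA t b := hy.1
    obtain ⟨h1, h2⟩ := sub_pos_of_lt (show t < 1 by linarith) ht0.le h5
    have hs : b / 2 ≤ Real.sqrt (b ^ 2 - sq y) := Real.le_sqrt_of_sq_le (by
      have : b / 2 ≤ (1 + b ^ 2 - t ^ 2) / 2 := by nlinarith
      nlinarith)
    have h6 : 0 < Real.sqrt (b ^ 2 - sq y) := by linarith
    rw [Real.norm_eq_abs, abs_of_nonneg (div_nonneg (by linarith) h6.le), div_le_iff₀ h6]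
    linarith
  rw [measureReal_sdiff hsub hma (sq_lt_ne_top _ _)] at t2
  have vb : volume.real Db = Real.sqrt (lensA t b) ^ (n + 1) * c := sqVol_eq n _
  have va : volume.real Da = Real.sqrt (lensA t a) ^ (n + 1) * c := sqVol_eq n _
  rw [vb, va] at t2
  rw [va] at t1
  have hR : ∀ s, Real.sqrt (lensA t s) ≤ t := fun s => by
    rw [Real.sqrt_le_left ht0.le]; exact lensA_le t s
  have dA : |lensA t b - lensA t a| ≤ 12 * t * |a - b| := by
    have e2 : lensA t b - lensA t a = (b - a) * ((b + a) *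
        (1 - ((1 + a ^ 2 - t ^ 2) / 2 + (1 + b ^ 2 - t ^ 2) / 2) / 2)) := by
      simp only [lensA_eq]; ring
    rw [e2, abs_mul, abs_sub_comm b a, mul_comm (12 * t)]
    refine mul_le_mul_of_nonneg_left ?_ (abs_nonneg _)
    rw [abs_mul, abs_of_nonneg (show 0 ≤ b + a by linarith)]
    have h7 : |1 - ((1 + a ^ 2 - t ^ 2) / 2 + (1 + b ^ 2 - t ^ 2) / 2) / 2| ≤ 5 * t := by
      have qa : |a ^ 2 - 1| ≤ 9 * t := by
        rw [abs_le]; constructor <;> nlinarith
      have qb : |b ^ 2 - 1| ≤ 9 * t := by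
        rw [abs_le]; constructor <;> nlinarith
      obtain ⟨qa1, qa2⟩ := abs_le.1 qa
      obtain ⟨qb1, qb2⟩ := abs_le.1 qb
      rw [abs_le]
      constructor <;> nlinarith
    calc (b + a) * |1 - ((1 + a ^ 2 - t ^ 2) / 2 + (1 + b ^ 2 - t ^ 2) / 2) / 2|
        ≤ (9 / 4) * (5 * t) := mul_le_mul (by linarith) h7 (abs_nonneg _) (by norm_num)
      _ ≤ 12 * t := by linarith
  have hroot : Real.sqrt (lensA t b) - Real.sqrt (lensA t a) ≤ Real.sqrt (12 * t * |a - b|) := by
    rcases le_or_gt (lensA t b) 0 with h | h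
    · rw [Real.sqrt_eq_zero_of_nonpos h]
      linarith [Real.sqrt_nonneg (lensA t a), Real.sqrt_nonneg (12 * t * |a - b|)]
    · rcases le_or_gt (lensA t a) 0 with h' | h'
      · rw [Real.sqrt_eq_zero_of_nonpos h', sub_zero]
        exact Real.sqrt_le_sqrt (by linarith [(abs_le.1 dA).2])
      · rw [sub_le_iff_le_add, Real.sqrt_le_left (by positivity)]
        nlinarith [Real.sq_sqrt h'.le, Real.sq_sqrt (show 0 ≤ 12 * t * |a - b| by positivity),
          mul_nonneg (Real.sqrt_nonneg (lensA t a)) (Real.sqrt_nonneg (12 * t * |a - b|)),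
          (abs_le.1 dA).2]
  have hmono : Real.sqrt (lensA t a) ≤ Real.sqrt (lensA t b) := Real.sqrt_le_sqrt hab
  have hpow : Real.sqrt (lensA t b) ^ (n + 1) - Real.sqrt (lensA t a) ^ (n + 1) ≤
      (n + 1) * t ^ n * Real.sqrt (12 * t * |a - b|) := by
    have h := abs_pow_sub_pow_le (Real.sqrt (lensA t b)) (Real.sqrt (lensA t a)) (n + 1)
    simp only [Nat.add_sub_cancel, Nat.cast_add, Nat.cast_one] at h
    rw [abs_of_nonneg (Real.sqrt_nonneg _), abs_of_nonneg (Real.sqrt_nonneg _), max_eq_left hmono,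
      abs_of_nonneg (sub_nonneg.2 hmono)] at h
    refine (le_abs_self _).trans (h.trans ?_)
    rw [show (Real.sqrt (lensA t b) - Real.sqrt (lensA t a)) * (↑n + 1) * Real.sqrt (lensA t b) ^ n =
      (↑n + 1) * Real.sqrt (lensA t b) ^ n *
        (Real.sqrt (lensA t b) - Real.sqrt (lensA t a)) by ring]
    gcongr
    · exact hR b
  have hpa : Real.sqrt (lensA t a) ^ (n + 1) ≤ t ^ (n + 1) := by gcongr; exact hR a
  rw [abs_sub_comm, e]
  refine (abs_add_le _ _).trans ((add_le_add t2 t1).trans ?_)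
  have p1 := mul_le_mul_of_nonneg_left hpow hc0
  have p2 := mul_le_mul_of_nonneg_left hpa (mul_nonneg hc0 (abs_nonneg (a - b)))
  linarith

lemma exp_window {t u : ℝ} (ht : t ≤ 1 / 32) (hu : |u| ≤ 2 * t) :
    |Real.exp u - 1| ≤ 4 * t ∧ 3 / 4 ≤ Real.exp u ∧ Real.exp u ≤ 5 / 4 := by
  have h := Real.abs_exp_sub_one_le (show |u| ≤ 1 by linarith)
  obtain ⟨h1, h2⟩ := abs_le.1 h
  exact ⟨by linarith, by linarith, by linarith⟩

lemma exp_sub_le {t a b : ℝ} (ht : t ≤ 1 / 32) (ha : |a| ≤ 2 * t) (hb : |b| ≤ 2 * t) :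
    |Real.exp a - Real.exp b| ≤ 2 * |a - b| := by
  wlog hab : b ≤ a generalizing a b
  · rw [abs_sub_comm, abs_sub_comm a b]
    exact this hb ha (le_of_lt (not_le.1 hab))
  rw [abs_of_nonneg (sub_nonneg.2 (Real.exp_le_exp.2 hab)), abs_of_nonneg (sub_nonneg.2 hab)]
  have h := Real.add_one_le_exp (b - a)
  have e : Real.exp b = Real.exp a * Real.exp (b - a) := by rw [← Real.exp_add]; ring_nf
  have := mul_le_mul_of_nonneg_left h (Real.exp_nonneg a)
  have h5 := mul_le_mul_of_nonneg_right (exp_window ht ha).2.2 (sub_nonneg.2 hab)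
  nlinarith

lemma ballNu_nonneg {t : ℝ} (ht0 : 0 < t) (u : ℝ) : 0 ≤ ballNu n t u := by
  refine div_nonneg (mul_nonneg (setIntegral_nonneg (measurableSet_lt measurable_sq measurable_const)
    fun y _ => by positivity) (Real.exp_nonneg u)) ?_
  have := sqVol_one_pos (n + 2)
  positivity

lemma ballNu_supp {t : ℝ} (ht0 : 0 < t) (ht : t ≤ 1 / 32) {u : ℝ} (hu : 2 * t ≤ |u|) :
    ballNu n t u = 0 := by
  have hs : t ≤ |Real.exp u - 1| := by
    rcases le_or_gt 0 u with h | h
    · rw [abs_of_nonneg h] at hu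
      have := Real.add_one_le_exp u
      exact le_trans (by linarith) (le_abs_self _)
    · rw [abs_of_neg h] at hu
      have h1 : Real.exp u * Real.exp (-u) = 1 := by rw [← Real.exp_add]; simp
      have h2 := mul_le_mul_of_nonneg_left (Real.add_one_le_exp (-u)) (Real.exp_nonneg u)
      have h3 := Real.exp_pos u
      refine le_trans ?_ (neg_le_abs _)
      nlinarith
  have hA : lensA t (Real.exp u) ≤ 0 := by
    have e : lensA t (Real.exp u) =
        -(((Real.exp u - 1) ^ 2 - t ^ 2) * ((Real.exp u + 1) ^ 2 - t ^ 2) / 4) := by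
      rw [lensA_eq]; ring
    have h1 : 0 ≤ (Real.exp u - 1) ^ 2 - t ^ 2 := by
      rw [sub_nonneg, ← sq_abs (Real.exp u - 1)]; exact pow_le_pow_left₀ ht0.le hs 2
    have h2 : 0 ≤ (Real.exp u + 1) ^ 2 - t ^ 2 := by nlinarith [Real.exp_pos u]
    have := mul_nonneg h1 h2
    rw [e]; linarith
  have : {y : Fin (n + 1) → ℝ | sq y < lensA t (Real.exp u)} = ∅ :=
    Set.eq_empty_of_forall_notMem fun y hy => by
      have := sq_nonneg' y; simp only [Set.mem_ofPred_eq] at hy; linarith
  rw [ballNu, dens, this]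
  simp

/-- The Holder constant. -/
noncomputable def holConst : ℝ := sqVol (n + 1) 1 * (30 * (n + 1)) / sqVol (n + 2) 1

lemma ballNu_hol {t : ℝ} (ht0 : 0 < t) (ht : t ≤ 1 / 32) (a b : ℝ) :
    |ballNu n t a - ballNu n t b| ≤ holConst n / t * Real.sqrt (|a - b| / t) := by
  have hc0 := sqVol_one_pos (n + 1)
  have hV := sqVol_one_pos (n + 2)
  have hC : 0 ≤ holConst n := by unfold holConst; positivity
  have clip : ∀ u, ballNu n t u = ballNu n t (max (-(2 * t)) (min u (2 * t))) := by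
    intro u
    rcases le_or_gt |u| (2 * t) with h | h
    · obtain ⟨h1, h2⟩ := abs_le.1 h
      rw [min_eq_left h2, max_eq_right h1]
    · rw [ballNu_supp n ht0 ht h.le, ballNu_supp n ht0 ht]
      rcases le_or_gt 0 u with h1 | h1
      · rw [abs_of_nonneg h1] at h
        rw [min_eq_right h.le, max_eq_right (by linarith), abs_of_nonneg (by linarith)]
      · rw [abs_of_neg h1] at h
        rw [min_eq_left (by linarith), max_eq_left (by linarith), abs_neg, abs_of_nonneg (by linarith)]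
  rw [clip a, clip b]
  set a' := max (-(2 * t)) (min a (2 * t)) with ha'
  set b' := max (-(2 * t)) (min b (2 * t)) with hb'
  have hd : |a' - b'| ≤ |a - b| := by
    refine le_trans ?_ (abs_inf_sub_inf_le_abs a b (2 * t))
    rw [ha', hb', max_comm _ (min a (2 * t)), max_comm _ (min b (2 * t))]
    exact abs_max_sub_max_le_abs _ _ _
  refine le_trans ?_ (mul_le_mul_of_nonneg_left (Real.sqrt_le_sqrt
    (div_le_div_of_nonneg_right hd ht0.le)) (by positivity))
  have hab : |a'| ≤ 2 * t ∧ |b'| ≤ 2 * t := by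
    exact ⟨abs_le.2 ⟨le_max_left _ _, max_le (by linarith) (min_le_right _ _)⟩,
      abs_le.2 ⟨le_max_left _ _, max_le (by linarith) (min_le_right _ _)⟩⟩
  obtain ⟨ha2, hb2⟩ := hab
  obtain ⟨ea, ea1, ea2⟩ := exp_window ht ha2
  obtain ⟨eb, eb1, eb2⟩ := exp_window ht hb2
  set δ := |a' - b'| with hδ
  have hδ4 : δ ≤ 4 * t := (abs_sub _ _).trans (by linarith)
  have hδ0 : 0 ≤ δ := abs_nonneg _
  have hexp : |Real.exp a' - Real.exp b'| ≤ 2 * δ := exp_sub_le ht ha2 hb2
  set c := sqVol (n + 1) 1 with hc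
  set r := Real.sqrt (t * δ) with hr
  have hr0 : 0 ≤ r := Real.sqrt_nonneg _
  have hδr : δ ≤ 2 * r := by
    have : δ / 2 ≤ r := Real.le_sqrt_of_sq_le (by nlinarith)
    linarith
  have hD : |dens n t (Real.exp a') - dens n t (Real.exp b')| ≤ c * t ^ n * r * (11 * (n + 1)) := by
    refine (dens_diff n ht0 ht ea eb).trans ?_
    have h1 : Real.sqrt (12 * t * |Real.exp a' - Real.exp b'|) ≤ 5 * r := by
      rw [Real.sqrt_le_left (by positivity), mul_pow, hr, Real.sq_sqrt (by positivity)]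
      have := mul_le_mul_of_nonneg_left hexp ht0.le
      nlinarith
    have h2 : t ^ (n + 1) * |Real.exp a' - Real.exp b'| ≤ t ^ n * r := by
      rw [pow_succ, mul_assoc]
      refine mul_le_mul_of_nonneg_left ?_ (by positivity)
      calc t * |Real.exp a' - Real.exp b'| ≤ (1 / 32) * (4 * r) :=
            mul_le_mul ht (by linarith) (abs_nonneg _) (by norm_num)
        _ ≤ r := by linarith
    have h3 := mul_le_mul_of_nonneg_left h1 (show 0 ≤ ((n : ℝ) + 1) * t ^ n by positivity)
    calc c * (2 * ((↑n + 1) * t ^ n * Real.sqrt (12 * t * |Real.exp a' - Real.exp b'|)) +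
          t ^ (n + 1) * |Real.exp a' - Real.exp b'|)
        ≤ c * (2 * ((↑n + 1) * t ^ n * (5 * r)) + t ^ n * r) := by
          refine mul_le_mul_of_nonneg_left ?_ hc0.le; linarith
      _ ≤ c * t ^ n * r * (11 * (n + 1)) := by
          nlinarith [mul_nonneg (mul_nonneg (mul_nonneg hc0.le (pow_nonneg ht0.le n)) hr0)
            (Nat.cast_nonneg (α := ℝ) n)]
  have hdb : |dens n t (Real.exp b')| ≤ 2 * (t ^ (n + 1) * c) := by
    obtain ⟨h1, h2⟩ := dens_bounds n ht0.le ht eb1 eb2
    have h3 : Real.sqrt (lensA t (Real.exp b')) ≤ t := by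
      rw [Real.sqrt_le_left ht0.le]; exact lensA_le t _
    rw [abs_of_nonneg (le_trans (by positivity) h1)]
    exact h2.trans (by gcongr)
  have hnum : |dens n t (Real.exp a') * Real.exp a' - dens n t (Real.exp b') * Real.exp b'| ≤
      c * t ^ n * r * (30 * (n + 1)) := by
    rw [show dens n t (Real.exp a') * Real.exp a' - dens n t (Real.exp b') * Real.exp b' =
      (dens n t (Real.exp a') - dens n t (Real.exp b')) * Real.exp a' +
      dens n t (Real.exp b') * (Real.exp a' - Real.exp b') by ring]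
    refine (abs_add_le _ _).trans ?_
    rw [abs_mul, abs_mul, abs_of_pos (Real.exp_pos a')]
    have h1 := mul_le_mul hD ea2 (Real.exp_nonneg _) (le_trans (abs_nonneg _) hD)
    have h2 := mul_le_mul hdb hexp (abs_nonneg _) (le_trans (abs_nonneg _) hdb)
    have h3 : 2 * (t ^ (n + 1) * c) * (2 * δ) ≤ c * t ^ n * r := by
      rw [pow_succ]
      have : t * δ ≤ 1 / 32 * (2 * r) := mul_le_mul ht hδr hδ0 (by norm_num)
      have := mul_le_mul_of_nonneg_left this (mul_nonneg (mul_nonneg hc0.le (pow_nonneg ht0.le n)) (show (0 : ℝ) ≤ 4 by norm_num))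
      nlinarith [mul_nonneg (mul_nonneg hc0.le (pow_nonneg ht0.le n)) hr0]
    nlinarith [mul_nonneg (mul_nonneg (mul_nonneg hc0.le (pow_nonneg ht0.le n)) hr0)
      (Nat.cast_nonneg (α := ℝ) n), mul_nonneg (mul_nonneg hc0.le (pow_nonneg ht0.le n)) hr0]
  rw [ballNu, ballNu, div_sub_div_same, abs_div, abs_of_pos (show 0 < t ^ (n + 2) * sqVol (n + 2) 1 by positivity)]
  refine (div_le_div_of_nonneg_right hnum (by positivity)).trans (le_of_eq ?_)
  have e : Real.sqrt (δ / t) = r / t := by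
    rw [hr, show δ / t = t * δ / t ^ 2 by field_simp, Real.sqrt_div' _ (by positivity), Real.sqrt_sq ht0.le]
  rw [e, holConst, hc, pow_add]
  field_simp

lemma continuous_ballNu {t : ℝ} (ht0 : 0 < t) (ht : t ≤ 1 / 32) : Continuous (ballNu n t) := by
  refine continuous_iff_continuousAt.2 fun a => ?_
  have : Filter.Tendsto (fun b => holConst n / t * Real.sqrt (|b - a| / t)) (nhds a) (nhds 0) := by
    have h : Continuous fun b => holConst n / t * Real.sqrt (|b - a| / t) := by fun_prop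
    simpa using h.tendsto a
  rw [ContinuousAt, tendsto_iff_dist_tendsto_zero]
  exact squeeze_zero (fun b => dist_nonneg) (fun b => ballNu_hol n ht0 ht b a) this

/-- A ball average of a radial function is an average against `ballNu`. -/
theorem lintegral_ball_log {t : ℝ} (ht0 : 0 < t) (ht : t ≤ 1 / 32) {h : ℝ → ℝ≥0∞} (hh : Measurable h) :
    ∫⁻ z in euclBall (e0 n) t, h (Real.sqrt (sq z)) =
      ENNReal.ofReal (t ^ (n + 2) * sqVol (n + 2) 1) *
        ∫⁻ u, ENNReal.ofReal (ballNu n t u) * h (Real.exp u) := by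
  have hV := sqVol_one_pos (n + 2)
  rw [lintegral_ball_radial n ht0 (by linarith) hh, ← Real.range_exp, ← Set.image_univ,
    lintegral_image_eq_lintegral_abs_deriv_mul MeasurableSet.univ
      (fun x _ => (Real.hasDerivAt_exp x).hasDerivWithinAt) Real.exp_injective.injOn,
    Measure.restrict_univ, ← lintegral_const_mul' _ _ ENNReal.ofReal_ne_top]
  refine lintegral_congr fun u => ?_
  rw [← mul_assoc, ← mul_assoc, ← ENNReal.ofReal_mul (abs_nonneg _), ← ENNReal.ofReal_mul (by positivity)]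
  congr 2
  rw [abs_of_pos (Real.exp_pos u), ballNu]
  field_simp

lemma volume_euclBall_e0 {t : ℝ} (ht0 : 0 < t) :
    volume (euclBall (e0 n) t) = ENNReal.ofReal (t ^ (n + 2) * sqVol (n + 2) 1) := by
  rw [volume_euclBall_eq (e0 n) 0]
  have e : euclBall (0 : Fin (n + 2) → ℝ) t = {y | sq y < t ^ 2} := by
    ext y; simp [euclBall, sq]
  rw [e, ← ofReal_measureReal (sq_lt_ne_top _ _)]
  congr 1
  have := sqVol_eq (n + 1) (t ^ 2)
  rwa [Real.sqrt_sq ht0.le] at this

lemma integral_ballNu {t : ℝ} (ht0 : 0 < t) (ht : t ≤ 1 / 32) : ∫ u, ballNu n t u = 1 := by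
  have hV := sqVol_one_pos (n + 2)
  have h := lintegral_ball_log n ht0 ht (h := fun _ => 1) measurable_const
  simp only [setLIntegral_const, one_mul, mul_one, volume_euclBall_e0 n ht0] at h
  have hne : ENNReal.ofReal (t ^ (n + 2) * sqVol (n + 2) 1) ≠ 0 := by
    rw [Ne, ENNReal.ofReal_eq_zero, not_le]; positivity
  have h1 : ∫⁻ u, ENNReal.ofReal (ballNu n t u) = 1 :=
    ((ENNReal.mul_right_inj hne ENNReal.ofReal_ne_top).1 (by rw [mul_one]; exact h)).symm
  rw [integral_eq_lintegral_of_nonneg_ae (Filter.Eventually.of_forall (ballNu_nonneg n ht0))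
    (continuous_ballNu n ht0 ht).aestronglyMeasurable, h1, ENNReal.toReal_one]

lemma ballCdf_left {t : ℝ} (ht0 : 0 < t) (ht : t ≤ 1 / 32) {u : ℝ} (hu : u ≤ -(2 * t)) :
    ballCdf n t u = 0 := by
  rw [ballCdf, intervalIntegral.integral_congr (g := fun _ => (0 : ℝ)) fun v hv => ?_]
  · simp
  · have : v ≤ -(2 * t) := by
      rcases Set.mem_uIcc.1 hv with h | h <;> linarith [h.1, h.2]
    exact ballNu_supp n ht0 ht (le_trans (by linarith) (neg_le_abs v))

lemma ballCdf_right {t : ℝ} (ht0 : 0 < t) (ht : t ≤ 1 / 32) {u : ℝ} (hu : 2 * t ≤ u) :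
    ballCdf n t u = 1 := by
  rw [ballCdf, intervalIntegral.integral_eq_integral_of_support_subset, integral_ballNu n ht0 ht]
  intro v hv
  rw [Function.mem_support] at hv
  by_contra h
  rw [Set.mem_Ioc, not_and_or, not_lt, not_le] at h
  refine hv (ballNu_supp n ht0 ht ?_)
  rcases h with h | h
  · exact le_trans (by linarith) (neg_le_abs v)
  · exact le_trans (by linarith) (le_abs_self v)

lemma ballNu_le_near {t u v : ℝ} (ht0 : 0 < t) (ht : t ≤ 1 / 32) (hu : |u| ≤ 2 * t) (hv : |v| ≤ 2 * t)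
    (hA : lensA t (Real.exp v) ≤ lensA t (Real.exp u)) :
    ballNu n t v ≤ 4 * ballNu n t u := by
  obtain ⟨-, u1, u2⟩ := exp_window ht hu
  obtain ⟨-, v1, v2⟩ := exp_window ht hv
  have hc0 := (sqVol_one_pos (n + 1)).le
  have hV := sqVol_one_pos (n + 2)
  rw [ballNu, ballNu, ← mul_div_assoc]
  refine div_le_div_of_nonneg_right ?_ (by positivity)
  obtain ⟨l1, -⟩ := dens_bounds n ht0.le ht u1 u2
  obtain ⟨l3, l4⟩ := dens_bounds n ht0.le ht v1 v2
  have l5 : dens n t (Real.exp v) ≤ 2 * dens n t (Real.exp u) := by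
    refine l4.trans (mul_le_mul_of_nonneg_left (le_trans ?_ l1) two_pos.le)
    exact mul_le_mul_of_nonneg_right (pow_le_pow_left₀ (Real.sqrt_nonneg _) (Real.sqrt_le_sqrt hA) _) hc0
  have l6 : 0 ≤ dens n t (Real.exp u) := le_trans (by positivity) l1
  calc dens n t (Real.exp v) * Real.exp v ≤ 2 * dens n t (Real.exp u) * (2 * Real.exp u) :=
        mul_le_mul l5 (by linarith) (Real.exp_nonneg _) (by positivity)
    _ = _ := by ring

lemma ballNu_le_scale {t t0 u : ℝ} (ht0 : 0 < t) (ht : t ≤ 1 / 32) (h1 : t / 2 ≤ t0) (h2 : t0 ≤ t) :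
    ballNu n t0 u ≤ 2 ^ (n + 2) * ballNu n t u := by
  have h0 : 0 < t0 := by linarith
  have hV := sqVol_one_pos (n + 2)
  rcases le_or_gt (2 * t0) |u| with h | h
  · rw [ballNu_supp n h0 (by linarith) h]
    exact mul_nonneg (by positivity) (ballNu_nonneg n ht0 u)
  · obtain ⟨-, u1, u2⟩ := exp_window ht (show |u| ≤ 2 * t by linarith)
    have hA : lensA t0 (Real.exp u) ≤ lensA t (Real.exp u) := by
      simp only [lensA_eq]
      have h3 : 0 ≤ (1 + Real.exp u ^ 2 - t ^ 2) / 2 := by nlinarith [sq_nonneg (Real.exp u)]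
      have h4 : t0 ^ 2 ≤ t ^ 2 := pow_le_pow_left₀ h0.le h2 2
      have h5 := pow_le_pow_left₀ h3
        (show (1 + Real.exp u ^ 2 - t ^ 2) / 2 ≤ (1 + Real.exp u ^ 2 - t0 ^ 2) / 2 by linarith) 2
      linarith
    have hd : dens n t0 (Real.exp u) ≤ dens n t (Real.exp u) :=
      setIntegral_mono_set (integrableOn_dens n ht0.le (by linarith) (Real.exp_nonneg u))
        (Filter.Eventually.of_forall fun y => by positivity)
        (Filter.Eventually.of_forall fun y hy => lt_of_lt_of_le (show sq y < _ from hy) hA)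
    have hd0 : 0 ≤ dens n t (Real.exp u) :=
      le_trans (setIntegral_nonneg (measurableSet_lt measurable_sq measurable_const) fun y _ => by positivity) hd
    rw [ballNu, ballNu, ← mul_div_assoc, div_le_div_iff₀ (by positivity) (by positivity)]
    have hp : t ^ (n + 2) ≤ 2 ^ (n + 2) * t0 ^ (n + 2) := by
      rw [← mul_pow]; exact pow_le_pow_left₀ ht0.le (by linarith) _
    calc dens n t0 (Real.exp u) * Real.exp u * (t ^ (n + 2) * sqVol (n + 2) 1)
        ≤ dens n t (Real.exp u) * Real.exp u * (2 ^ (n + 2) * t0 ^ (n + 2) * sqVol (n + 2) 1) := by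
          gcongr
      _ = _ := by ring

lemma ballCdf_near {t t0 u : ℝ} (ht0 : 0 < t) (ht : t ≤ 1 / 32) (h1 : t / 2 ≤ t0) (h2 : t0 ≤ t) :
    |ballCdf n t u - ballCdf n t0 u| ≤ 2 ^ (n + 6) * t * ballNu n t u := by
  have h0 : 0 < t0 := by linarith
  have ht' : t0 ≤ 1 / 32 := by linarith
  have hν := ballNu_nonneg n ht0
  have hν0 := ballNu_nonneg n h0
  rcases le_or_gt (2 * t) |u| with h | h
  · rcases le_or_gt 0 u with h3 | h3
    · rw [abs_of_nonneg h3] at h
      rw [ballCdf_right n ht0 ht h, ballCdf_right n h0 ht' (by linarith)]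
      simp only [sub_self, abs_zero]
      exact mul_nonneg (by positivity) (hν u)
    · rw [abs_of_neg h3] at h
      rw [ballCdf_left n ht0 ht (by linarith), ballCdf_left n h0 ht' (by linarith)]
      simp only [sub_self, abs_zero]
      exact mul_nonneg (by positivity) (hν u)
  obtain ⟨hu1, hu2⟩ := abs_lt.1 h
  have hi := (continuous_ballNu n ht0 ht).intervalIntegrable (μ := volume)
  have hi0 := (continuous_ballNu n h0 ht').intervalIntegrable (μ := volume)
  have p2 : (1 : ℝ) ≤ 2 ^ (n + 2) := one_le_pow₀ one_le_two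
  rcases le_or_gt (Real.exp u ^ 2) (1 + t ^ 2) with hc | hc
  · have e : ∀ s ≤ t, 0 < s → ballCdf n s u = ∫ v in (-(2 * t))..u, ballNu n s v := by
      intro s hs hs0
      have hs' : s ≤ 1 / 32 := by linarith
      have hc := (continuous_ballNu n hs0 hs').intervalIntegrable (μ := volume)
      have hL := ballCdf_left n hs0 hs' (u := -(2 * t)) (by linarith)
      rw [ballCdf] at hL ⊢
      rw [← intervalIntegral.integral_add_adjacent_intervals (hc (-1) (-(2 * t))) (hc (-(2 * t)) u), hL,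
        zero_add]
    have b : ∀ v ∈ Set.Icc (-(2 * t)) u, ballNu n t v ≤ 4 * ballNu n t u := fun v hv => by
      refine ballNu_le_near n ht0 ht h.le (abs_le.2 ⟨hv.1, by linarith [hv.2]⟩) ?_
      have hle := Real.exp_le_exp.2 hv.2
      have h5 : Real.exp v ^ 2 ≤ Real.exp u ^ 2 := pow_le_pow_left₀ (Real.exp_nonneg _) hle 2
      have e2 : lensA t (Real.exp u) - lensA t (Real.exp v) = (Real.exp u ^ 2 - Real.exp v ^ 2) *
          (1 - ((1 + Real.exp u ^ 2 - t ^ 2) / 2 + (1 + Real.exp v ^ 2 - t ^ 2) / 2) / 2) := by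
        simp only [lensA_eq]; ring
      have h6 := mul_nonneg (sub_nonneg.2 h5) (show 0 ≤ 1 - ((1 + Real.exp u ^ 2 - t ^ 2) / 2 +
          (1 + Real.exp v ^ 2 - t ^ 2) / 2) / 2 by linarith)
      linarith
    have n1 : ∫ v in (-(2 * t))..u, ballNu n t v ≤ 16 * t * ballNu n t u := by
      refine (intervalIntegral.integral_mono_on hu1.le (hi _ _) intervalIntegrable_const b).trans ?_
      rw [intervalIntegral.integral_const, smul_eq_mul]
      have h7 := mul_le_mul_of_nonneg_right (show u - -(2 * t) ≤ 4 * t by linarith)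
        (mul_nonneg (show (0 : ℝ) ≤ 4 by norm_num) (hν u))
      linarith
    have n2 : ∫ v in (-(2 * t))..u, ballNu n t0 v ≤
        2 ^ (n + 2) * ∫ v in (-(2 * t))..u, ballNu n t v := by
      rw [← intervalIntegral.integral_const_mul]
      exact intervalIntegral.integral_mono_on hu1.le (hi0 _ _) ((hi _ _).const_mul _)
        fun v _ => ballNu_le_scale n ht0 ht h1 h2
    have n3 : 0 ≤ ∫ v in (-(2 * t))..u, ballNu n t0 v :=
      intervalIntegral.integral_nonneg hu1.le fun v _ => hν0 v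
    have n4 : 0 ≤ ∫ v in (-(2 * t))..u, ballNu n t v :=
      intervalIntegral.integral_nonneg hu1.le fun v _ => hν v
    rw [e t le_rfl ht0, e t0 h2 h0, show (2 : ℝ) ^ (n + 6) = 2 ^ (n + 2) * 16 by ring]
    have n5 := mul_le_mul_of_nonneg_left n1 (show (0 : ℝ) ≤ 2 ^ (n + 2) by positivity)
    rw [abs_le]
    constructor <;> nlinarith
  · have e : ∀ s ≤ t, 0 < s → ballCdf n s u = 1 - ∫ v in u..(2 * t), ballNu n s v := by
      intro s hs hs0
      have hs' : s ≤ 1 / 32 := by linarith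
      have hc := (continuous_ballNu n hs0 hs').intervalIntegrable (μ := volume)
      have hR := ballCdf_right n hs0 hs' (u := 2 * t) (by linarith)
      rw [ballCdf] at hR ⊢
      rw [← intervalIntegral.integral_add_adjacent_intervals (hc (-1) u) (hc u (2 * t))] at hR
      linarith
    have b : ∀ v ∈ Set.Icc u (2 * t), ballNu n t v ≤ 4 * ballNu n t u := fun v hv => by
      refine ballNu_le_near n ht0 ht h.le (abs_le.2 ⟨by linarith [hv.1], hv.2⟩) ?_
      have hle := Real.exp_le_exp.2 hv.1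
      have h5 : Real.exp u ^ 2 ≤ Real.exp v ^ 2 := pow_le_pow_left₀ (Real.exp_nonneg _) hle 2
      have e2 : lensA t (Real.exp v) - lensA t (Real.exp u) = (Real.exp v ^ 2 - Real.exp u ^ 2) *
          (1 - ((1 + Real.exp u ^ 2 - t ^ 2) / 2 + (1 + Real.exp v ^ 2 - t ^ 2) / 2) / 2) := by
        simp only [lensA_eq]; ring
      have h6 := mul_nonneg (sub_nonneg.2 h5) (show 0 ≤ ((1 + Real.exp u ^ 2 - t ^ 2) / 2 +
          (1 + Real.exp v ^ 2 - t ^ 2) / 2) / 2 - 1 by linarith)
      linarith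
    have n1 : ∫ v in u..(2 * t), ballNu n t v ≤ 16 * t * ballNu n t u := by
      refine (intervalIntegral.integral_mono_on hu2.le (hi _ _) intervalIntegrable_const b).trans ?_
      rw [intervalIntegral.integral_const, smul_eq_mul]
      have h7 := mul_le_mul_of_nonneg_right (show 2 * t - u ≤ 4 * t by linarith)
        (mul_nonneg (show (0 : ℝ) ≤ 4 by norm_num) (hν u))
      linarith
    have n2 : ∫ v in u..(2 * t), ballNu n t0 v ≤ 2 ^ (n + 2) * ∫ v in u..(2 * t), ballNu n t v := by
      rw [← intervalIntegral.integral_const_mul]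
      exact intervalIntegral.integral_mono_on hu2.le (hi0 _ _) ((hi _ _).const_mul _)
        fun v _ => ballNu_le_scale n ht0 ht h1 h2
    have n3 : 0 ≤ ∫ v in u..(2 * t), ballNu n t0 v :=
      intervalIntegral.integral_nonneg hu2.le fun v _ => hν0 v
    have n4 : 0 ≤ ∫ v in u..(2 * t), ballNu n t v :=
      intervalIntegral.integral_nonneg hu2.le fun v _ => hν v
    rw [e t le_rfl ht0, e t0 h2 h0, show (2 : ℝ) ^ (n + 6) = 2 ^ (n + 2) * 16 by ring]
    have n5 := mul_le_mul_of_nonneg_left n1 (show (0 : ℝ) ≤ 2 ^ (n + 2) by positivity)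
    rw [abs_le]
    constructor <;> nlinarith

/-- The kernels of Euclidean balls in `n + 2` dimensions. -/
noncomputable def ballKer : Ker where
  ν := ballNu n
  N := ballCdf n
  T := 1 / 32
  C := holConst n + 2 ^ (n + 6)
  T_pos := by norm_num
  one_le_C := by
    have h1 : 0 ≤ holConst n := by
      have := sqVol_one_pos (n + 1); have := sqVol_one_pos (n + 2)
      unfold holConst; positivity
    have h2 : (1 : ℝ) ≤ 2 ^ (n + 6) := one_le_pow₀ one_le_two
    linarith
  hasDeriv t u h0 hT :=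
    intervalIntegral.integral_hasDerivAt_right ((continuous_ballNu n h0 hT).intervalIntegrable _ _)
      ((continuous_ballNu n h0 hT).stronglyMeasurableAtFilter _ _) (continuous_ballNu n h0 hT).continuousAt
  nonneg t u h0 _ := ballNu_nonneg n h0 u
  hol t a b h0 hT := by
    refine (ballNu_hol n h0 hT a b).trans ?_
    gcongr
    exact le_add_of_nonneg_right (by positivity)
  supp t u h0 hT := ballNu_supp n h0 hT
  left t u h0 hT := ballCdf_left n h0 hT
  right t u h0 hT := ballCdf_right n h0 hT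
  cdf t t0 u h0 hT h1 h2 := by
    refine (ballCdf_near n h0 hT h1 h2).trans ?_
    have hh : 0 ≤ holConst n := by
      have := sqVol_one_pos (n + 1); have := sqVol_one_pos (n + 2)
      unfold holConst; positivity
    refine mul_le_mul_of_nonneg_right (mul_le_mul_of_nonneg_right ?_ h0.le) (ballNu_nonneg n h0 u)
    linarith

end Vale.Agent.P137.Radial
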