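import Vale.Agent.P137.RadialChange

/-!
# P137: the maximal function of a radial function in the variable `log |x|`
-/

open MeasureTheory Set
open scoped ENNReal

namespace Vale.Agent.P137.Radial

lemma prim_comp {f σ σ' : ℝ → ℝ} {a b : ℝ} (hab : a ≤ b) (hσ : StrictMonoOn σ (Icc a b))
    (hd : ∀ x ∈ Icc a b, HasDerivAt σ (σ' x) x) (hσ' : ∀ x ∈ Icc a b, 0 ≤ σ' x)
    (hf : IntervalIntegrable f volume (σ a) (σ b)) :
    IntervalIntegrable (fun x => σ' x * f (σ x)) volume a b ∧
      ∫ x in a..b, σ' x * f (σ x) = ∫ y in (σ a)..(σ b), f y := by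
  have himg : σ '' Ioc a b = Ioc (σ a) (σ b) := by
    apply subset_antisymm
    · rintro _ ⟨x, hx, rfl⟩
      exact ⟨hσ ⟨le_rfl, hab⟩ (Ioc_subset_Icc_self hx) hx.1,
        hσ.monotoneOn (Ioc_subset_Icc_self hx) ⟨hab, le_rfl⟩ hx.2⟩
    · rintro y ⟨hy1, hy2⟩
      obtain ⟨x, hx, rfl⟩ := intermediate_value_Icc hab
        (fun x hx => (hd x hx).continuousAt.continuousWithinAt) ⟨hy1.le, hy2⟩
      exact ⟨x, ⟨lt_of_le_of_ne hx.1 fun e => by rw [← e] at hy1; exact lt_irrefl _ hy1, hx.2⟩, rfl⟩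
  have hle : σ a ≤ σ b := hσ.monotoneOn ⟨le_rfl, hab⟩ ⟨hab, le_rfl⟩ hab
  have hd' : ∀ x ∈ Ioc a b, HasDerivWithinAt σ (σ' x) (Ioc a b) x :=
    fun x hx => (hd x (Ioc_subset_Icc_self hx)).hasDerivWithinAt
  have hinj : InjOn σ (Ioc a b) := hσ.injOn.mono Ioc_subset_Icc_self
  have e : EqOn (fun x => |σ' x| • f (σ x)) (fun x => σ' x * f (σ x)) (Ioc a b) := fun x hx => by
    simp only [smul_eq_mul, abs_of_nonneg (hσ' x (Ioc_subset_Icc_self hx))]
  constructor
  · rw [intervalIntegrable_iff_integrableOn_Ioc_of_le hab]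
    refine IntegrableOn.congr_fun ?_ e measurableSet_Ioc
    rw [← integrableOn_image_iff_integrableOn_abs_deriv_smul measurableSet_Ioc hd' hinj, himg]
    exact (intervalIntegrable_iff_integrableOn_Ioc_of_le hle).1 hf
  · rw [intervalIntegral.integral_of_le hab, intervalIntegral.integral_of_le hle,
      ← setIntegral_congr_fun measurableSet_Ioc e,
      ← integral_image_eq_integral_abs_deriv_smul measurableSet_Ioc hd' hinj, himg]

/-- A measurable radial profile with a measurable derivative, both integrable in `n + 2` dimensions. -/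
structure Profile (n : ℕ) where
  F : ℝ → ℝ
  F' : ℝ → ℝ
  mF : Measurable F
  mF' : Measurable F'
  ftc : ∀ a b, 0 < a → a ≤ b → IntervalIntegrable F' volume a b ∧ F b - F a = ∫ s in a..b, F' s
  intF : Integrable fun x : Fin (n + 2) → ℝ => F (nrm x)
  intF' : Integrable fun x : Fin (n + 2) → ℝ => F' (nrm x)

namespace Profile

variable {n : ℕ} (P : Profile n)

/-- `|F|` in the logarithmic variable. -/
noncomputable def lF (τ : ℝ) : ℝ := |P.F (Real.exp τ)|

/-- The derivative of `F ∘ exp`. -/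
noncomputable def psi (τ : ℝ) : ℝ := Real.exp τ * P.F' (Real.exp τ)

lemma measurable_psi : Measurable P.psi :=
  Real.measurable_exp.mul (P.mF'.comp Real.measurable_exp)

lemma prim_psi : Prim (fun τ => P.F (Real.exp τ)) P.psi := by
  intro a b
  wlog hab : a ≤ b generalizing a b
  · obtain ⟨h1, h2⟩ := this b a (le_of_lt (not_le.1 hab))
    refine ⟨h1.symm, ?_⟩
    rw [intervalIntegral.integral_symm]
    linarith
  obtain ⟨h1, h2⟩ := P.ftc (Real.exp a) (Real.exp b) (Real.exp_pos a) (Real.exp_le_exp.2 hab)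
  obtain ⟨h3, h4⟩ := prim_comp hab (Real.exp_strictMono.strictMonoOn _)
    (fun x _ => Real.hasDerivAt_exp x) (fun x _ => (Real.exp_pos x).le) h1
  exact ⟨h3, h2.trans h4.symm⟩

lemma lF_ac (a b : ℝ) : AbsolutelyContinuousOnInterval P.lF a b := by
  have e : P.lF = fun τ => max (P.F (Real.exp τ)) (-P.F (Real.exp τ)) := rfl
  rw [e]
  exact ac_max (P.prim_psi.ac a b) (P.prim_psi.ac a b).fun_neg

lemma prim_lF : Prim P.lF (deriv P.lF) := fun a b =>
  ⟨(P.lF_ac a b).intervalIntegrable_deriv, (P.lF_ac a b).integral_deriv_eq_sub.symm⟩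

lemma abs_lF_sub_le {a b : ℝ} (hab : a ≤ b) :
    |P.lF b - P.lF a| ≤ ∫ v in a..b, |P.psi v| := by
  refine (abs_abs_sub_abs_le_abs_sub _ _).trans ?_
  rw [(P.prim_psi a b).2]
  exact intervalIntegral.abs_integral_le_integral_abs hab

lemma deriv_lF_le : ∀ᵐ v, |deriv P.lF v| ≤ |P.psi v| := by
  have h : ∀ᵐ v, ∀ N : ℕ, v ∈ uIcc (-(N : ℝ)) N → HasDerivAt (fun τ => P.F (Real.exp τ)) (P.psi v) v :=
    ae_all_iff.2 fun N => P.prim_psi.ae_hasDerivAt _ _
  filter_upwards [h] with v hv
  obtain ⟨N, hN⟩ := exists_nat_ge |v|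
  have hd := hv N (by rw [uIcc_of_le (by linarith [abs_nonneg v])]; exact abs_le.1 hN)
  by_cases hdiff : DifferentiableAt ℝ P.lF v
  · rcases lt_trichotomy (P.F (Real.exp v)) 0 with h0 | h0 | h0
    · have : deriv P.lF v = -P.psi v := by
        refine (Filter.EventuallyEq.deriv_eq (f := fun τ => -P.F (Real.exp τ)) ?_).trans hd.neg.deriv
        exact (hd.continuousAt.eventually_lt continuousAt_const h0).mono fun y hy => abs_of_neg hy
      rw [this, abs_neg]
    · have : deriv P.lF v = 0 := IsLocalMin.deriv_eq_zero <| Filter.Eventually.of_forall fun y => by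
        show P.lF v ≤ P.lF y
        simp [lF, h0]
      rw [this, abs_zero]
      exact abs_nonneg _
    · have : deriv P.lF v = P.psi v := by
        refine (Filter.EventuallyEq.deriv_eq (f := fun τ => P.F (Real.exp τ)) ?_).trans hd.deriv
        exact (continuousAt_const.eventually_lt hd.continuousAt h0).mono fun y hy => abs_of_pos hy
      rw [this]
  · rw [deriv_zero_of_not_differentiableAt hdiff, abs_zero]
    exact abs_nonneg _

/-- `∫ |F'(|x|)|`. -/
noncomputable def total : ℝ≥0∞ := ∫⁻ x : Fin (n + 2) → ℝ, ENNReal.ofReal |P.F' (nrm x)|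

lemma total_ne_top : P.total ≠ ⊤ := by
  have := P.intF'.hasFiniteIntegral
  rw [hasFiniteIntegral_iff_norm] at this
  exact this.ne

lemma weighted_psi : ∫⁻ v, ENNReal.ofReal (Real.exp (((n : ℝ) + 1) * v) * |P.psi v|) =
    P.total / polar n := by
  rw [total, lintegral_nrm n (f := fun y => ENNReal.ofReal |P.F' y|) P.mF'.abs.ennreal_ofReal,
    mul_comm (polar n)]
  rw [ENNReal.mul_div_cancel_right (polar_ne n).1 (polar_ne n).2]
  conv_rhs => rw [← Real.range_exp, ← Set.image_univ,
    lintegral_image_eq_lintegral_abs_deriv_mul MeasurableSet.univ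
      (fun x _ => (Real.hasDerivAt_exp x).hasDerivWithinAt) Real.exp_injective.injOn,
    Measure.restrict_univ]
  refine lintegral_congr fun v => ?_
  rw [← mul_assoc, ← ENNReal.ofReal_mul (abs_nonneg _), ← ENNReal.ofReal_mul (by positivity),
    psi, abs_mul, abs_of_pos (Real.exp_pos v)]
  congr 1
  rw [← Real.exp_nat_mul]
  push_cast
  ring

/-- The average of `|f|` over `B(x, t |x|)` at `log |x| = τ`. -/
noncomputable def ballMean (t τ : ℝ) : ℝ≥0∞ :=
  (∫⁻ z in euclBall (e0 n) t, ENNReal.ofReal |P.F (Real.exp τ * nrm z)|) / volume (euclBall (e0 n) t)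

lemma measurable_abs_F_scaled (τ : ℝ) :
    Measurable fun z : Fin (n + 2) → ℝ => ENNReal.ofReal |P.F (Real.exp τ * nrm z)| :=
  ((P.mF.comp (measurable_nrm.const_mul _)).abs).ennreal_ofReal

/-- The supremum over the radii comparable with `|x|` or larger. -/
noncomputable def bigMax (τ : ℝ) : ℝ≥0∞ := ⨆ (t : ℝ) (_ : 1 / 32 ≤ t), P.ballMean t τ

/-- The weight of the large radii. -/
noncomputable def bigWeight (n : ℕ) (s : ℝ) : ℝ := min (32 ^ (n + 2)) ((33 / s) ^ (n + 2))

lemma measurable_bigWeight (n : ℕ) : Measurable (bigWeight n) :=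
  measurable_const.min ((measurable_const.div measurable_id).pow_const _)

lemma lintegral_bigWeight (n : ℕ) : ∫⁻ s in Ioi 0, ENNReal.ofReal (bigWeight n s) ≠ ⊤ := by
  rw [← Ioc_union_Ioi_eq_Ioi (zero_le_one (α := ℝ)), lintegral_union measurableSet_Ioi Ioc_disjoint_Ioi_same]
  refine ENNReal.add_ne_top.2 ⟨ne_top_of_le_ne_top (b := ENNReal.ofReal (32 ^ (n + 2)) * volume (Ioc (0 : ℝ) 1))
    (by simp [Real.volume_Ioc]) ?_, ?_⟩
  · rw [← setLIntegral_const]
    exact setLIntegral_mono measurable_const fun s _ => ENNReal.ofReal_le_ofReal (min_le_left _ _)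
  · have hi := (integrableOn_Ioi_rpow_of_lt (a := -2) (by norm_num) one_pos).const_mul ((33 : ℝ) ^ (n + 2))
    refine ne_top_of_le_ne_top (hasFiniteIntegral_iff_norm _ |>.1 hi.hasFiniteIntegral).ne ?_
    refine setLIntegral_mono' measurableSet_Ioi fun s hs => ENNReal.ofReal_le_ofReal ?_
    have hs1 : (1 : ℝ) < s := hs
    have hs0 : (0 : ℝ) ≤ s := by linarith
    rw [Real.norm_eq_abs]
    refine le_trans (min_le_right _ _) (le_trans ?_ (le_abs_self _))
    rw [div_pow, show s ^ (-2 : ℝ) = (s ^ 2)⁻¹ by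
      rw [Real.rpow_neg hs0, ← Real.rpow_natCast s 2]; norm_num, div_eq_mul_inv]
    gcongr
    · exact hs1.le
    · omega

lemma inv_pow_le_bigWeight {t : ℝ} (ht : 1 / 32 ≤ t) {z : Fin (n + 2) → ℝ}
    (hz : z ∈ euclBall (e0 n) t) (hz0 : z ≠ 0) : (t ^ (n + 2))⁻¹ ≤ bigWeight n (nrm z) := by
  have ht0 : 0 < t := by linarith
  have hs := nrm_pos hz0
  have h1 : nrm z ≤ 33 * t := by
    have e : nrm (z - e0 n) ≤ t := by
      rw [nrm, Real.sqrt_le_left ht0.le]
      exact le_of_lt (by simpa [sq, euclBall] using hz)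
    have h2 := norm_add_le (WithLp.toLp 2 (z - e0 n)) (WithLp.toLp 2 (e0 n))
    rw [← WithLp.toLp_add, sub_add_cancel, norm_toLp, norm_toLp, norm_toLp, nrm_e0] at h2
    linarith
  rw [bigWeight, le_min_iff, ← inv_pow]
  constructor <;> refine pow_le_pow_left₀ (by positivity) ?_ _
  · rw [inv_le_iff_one_le_mul₀ ht0]; linarith
  · rw [inv_eq_one_div, div_le_div_iff₀ ht0 hs]; linarith

/-- The weighted derivative seen by the large radii. -/
noncomputable def bigDer (v : ℝ) : ℝ≥0∞ :=
  ∫⁻ z : Fin (n + 2) → ℝ, ENNReal.ofReal (bigWeight n (nrm z)) *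
    ENNReal.ofReal (Real.exp v * nrm z * |P.F' (Real.exp v * nrm z)|)

lemma measurable_bigDer_integrand :
    Measurable fun p : (Fin (n + 2) → ℝ) × ℝ => ENNReal.ofReal (bigWeight n (nrm p.1)) *
      ENNReal.ofReal (Real.exp p.2 * nrm p.1 * |P.F' (Real.exp p.2 * nrm p.1)|) := by
  have h1 : Measurable fun p : (Fin (n + 2) → ℝ) × ℝ => Real.exp p.2 * nrm p.1 :=
    (Real.measurable_exp.comp measurable_snd).mul (measurable_nrm.comp measurable_fst)
  exact ((measurable_bigWeight n).comp (measurable_nrm.comp measurable_fst)).ennreal_ofReal.mul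
    (h1.mul (P.mF'.comp h1).abs).ennreal_ofReal

lemma measurable_bigDer : Measurable P.bigDer :=
  P.measurable_bigDer_integrand.lintegral_prod_left'

/-- The constant of the large radii. -/
noncomputable def bigConst (n : ℕ) : ℝ≥0∞ := ∫⁻ s in Ioi 0, ENNReal.ofReal (bigWeight n s)

lemma weighted_bigDer :
    ∫⁻ v, ENNReal.ofReal (Real.exp (((n : ℝ) + 1) * v)) * P.bigDer v ≤ bigConst n * P.total := by
  have step : ∀ v, ENNReal.ofReal (Real.exp (((n : ℝ) + 1) * v)) * P.bigDer v =
      ∫⁻ w : Fin (n + 2) → ℝ, ENNReal.ofReal |P.F' (nrm w)| *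
        ENNReal.ofReal (bigWeight n (Real.exp (-v) * nrm w) * (Real.exp (-v) * nrm w)) := by
    intro v
    have hg : Measurable fun w : Fin (n + 2) → ℝ => ENNReal.ofReal |P.F' (nrm w)| *
        ENNReal.ofReal (bigWeight n (Real.exp (-v) * nrm w) * (Real.exp (-v) * nrm w)) :=
      (P.mF'.comp measurable_nrm).abs.ennreal_ofReal.mul
        ((((measurable_bigWeight n).comp (measurable_nrm.const_mul _))).mul
          (measurable_nrm.const_mul _)).ennreal_ofReal
    set g : (Fin (n + 2) → ℝ) → ℝ≥0∞ := fun w => ENNReal.ofReal |P.F' (nrm w)| *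
        ENNReal.ofReal (bigWeight n (Real.exp (-v) * nrm w) * (Real.exp (-v) * nrm w)) with hgdef
    have h2 : ∫⁻ w, g w =
        ENNReal.ofReal (Real.exp v ^ (n + 2)) * ∫⁻ z, g (Real.exp v • z) := by
      rw [lintegral_comp_smul hg (Real.exp_pos v), ← mul_assoc, ← ENNReal.ofReal_mul (by positivity),
        mul_inv_cancel₀ (by positivity), ENNReal.ofReal_one, one_mul]
    rw [h2]
    simp only [hgdef]
    rw [bigDer, ← lintegral_const_mul' _ _ ENNReal.ofReal_ne_top,
      ← lintegral_const_mul' _ _ ENNReal.ofReal_ne_top]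
    refine lintegral_congr fun z => ?_
    rw [nrm_smul _ (Real.exp_pos v).le, ← mul_assoc (Real.exp (-v)), ← Real.exp_add, neg_add_cancel,
      Real.exp_zero, one_mul, ← ENNReal.ofReal_mul' (by positivity [nrm_nonneg z]),
      ← ENNReal.ofReal_mul (Real.exp_nonneg _), ← ENNReal.ofReal_mul (abs_nonneg _),
      ← ENNReal.ofReal_mul (pow_nonneg (Real.exp_nonneg _) _)]
    congr 1
    rw [pow_succ, ← Real.exp_nat_mul]
    push_cast
    ring
  simp only [step]
  rw [lintegral_lintegral_swap]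
  · rw [total, ← lintegral_const_mul' (bigConst n) _ (lintegral_bigWeight n)]
    refine lintegral_mono_ae ?_
    have hz : ∀ᵐ w : Fin (n + 2) → ℝ, w ≠ 0 :=
      (measure_eq_zero_iff_ae_notMem.1 (measure_singleton (0 : Fin (n + 2) → ℝ))).mono
        fun w h => by simpa using h
    filter_upwards [hz] with w hw
    rw [lintegral_const_mul' _ _ ENNReal.ofReal_ne_top, mul_comm]
    refine mul_le_mul' (le_of_eq ?_) le_rfl
    have hs := nrm_pos hw
    have e : ∀ v, Real.exp (-v) * nrm w = Real.exp (Real.log (nrm w) - v) := fun v => by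
      rw [Real.exp_sub, Real.exp_log hs, Real.exp_neg]; ring
    simp only [e]
    rw [lintegral_sub_left_eq_self (fun u => ENNReal.ofReal (bigWeight n (Real.exp u) * Real.exp u))
      (Real.log (nrm w)), bigConst]
    conv_rhs => rw [← Real.range_exp, ← Set.image_univ,
      lintegral_image_eq_lintegral_abs_deriv_mul MeasurableSet.univ
        (fun x _ => (Real.hasDerivAt_exp x).hasDerivWithinAt) Real.exp_injective.injOn,
      Measure.restrict_univ]
    refine lintegral_congr fun u => ?_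
    rw [abs_of_pos (Real.exp_pos u), ← ENNReal.ofReal_mul (Real.exp_nonneg u), mul_comm]
  · refine Measurable.aemeasurable ?_
    have h1 : Measurable fun p : ℝ × (Fin (n + 2) → ℝ) => Real.exp (-p.1) * nrm p.2 :=
      (Real.measurable_exp.comp measurable_fst.neg).mul (measurable_nrm.comp measurable_snd)
    exact (P.mF'.comp (measurable_nrm.comp measurable_snd)).abs.ennreal_ofReal.mul
      (((measurable_bigWeight n).comp h1).mul h1).ennreal_ofReal

end Profile

end Vale.Agent.P137.Radial
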