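import Vale.Agent.P137.RadialLog

/-!
# P137: the gradient of the centred maximal function of a radial function, as a function of `log |x|`
-/

open MeasureTheory Set Filter Topology
open scoped ENNReal

namespace Vale.Agent.P137.Radial

namespace Profile

variable {n : ℕ} (P : Profile n)

lemma euclVol_pos {t : ℝ} (ht : 0 < t) :
    0 < t ^ (n + 2) * sqVol (n + 2) 1 := mul_pos (pow_pos ht _) (sqVol_one_pos _)

lemma continuous_lF : Continuous P.lF := continuous_iff_continuousAt.2 fun x =>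
  (P.lF_ac (x - 1) (x + 1)).continuousOn.continuousAt
    (by rw [uIcc_of_le (by linarith)]; exact Icc_mem_nhds (by linarith) (by linarith))

lemma ballMean_small {t : ℝ} (ht0 : 0 < t) (ht : t ≤ 1 / 32) (τ : ℝ) :
    P.ballMean t τ = ENNReal.ofReal ((ballKer n).mean P.lF t τ) := by
  have hh : Measurable fun s => ENNReal.ofReal |P.F (Real.exp τ * s)| :=
    (P.mF.comp (measurable_id.const_mul _)).abs.ennreal_ofReal
  rw [ballMean, show (fun z : Fin (n + 2) → ℝ => ENNReal.ofReal |P.F (Real.exp τ * nrm z)|) =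
      fun z => (fun s => ENNReal.ofReal |P.F (Real.exp τ * s)|) (Real.sqrt (sq z)) from rfl,
    lintegral_ball_log n ht0 ht hh, volume_euclBall_e0 n ht0, mul_comm (ENNReal.ofReal _),
    ENNReal.mul_div_cancel_right (by rw [Ne, ENNReal.ofReal_eq_zero, not_le]; exact euclVol_pos ht0)
      ENNReal.ofReal_ne_top]
  have hc : Continuous fun u => ballNu n t u * P.lF (τ + u) :=
    (continuous_ballNu n ht0 ht).mul (P.continuous_lF.comp (continuous_const.add continuous_id))
  have hcs : HasCompactSupport fun u => ballNu n t u * P.lF (τ + u) :=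
    HasCompactSupport.intro (K := Icc (-1) 1) isCompact_Icc fun u hu => by
      rw [ballNu_supp n ht0 ht, zero_mul]
      rw [mem_Icc, not_and_or, not_le, not_le] at hu
      rcases hu with h | h
      · exact le_trans (by linarith) (neg_le_abs u)
      · exact le_trans (by linarith) (le_abs_self u)
  have hnn : ∀ u, 0 ≤ ballNu n t u * P.lF (τ + u) := fun u =>
    mul_nonneg (ballNu_nonneg n ht0 u) (abs_nonneg _)
  have e : ∫ u, ballNu n t u * P.lF (τ + u) = (ballKer n).mean P.lF t τ := by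
    rw [Ker.mean]
    refine (intervalIntegral.integral_eq_integral_of_support_subset fun u hu => ?_).symm
    rw [Function.mem_support] at hu
    have h : |u| < 2 * t := by
      by_contra h
      exact hu (by rw [ballNu_supp n ht0 ht (not_lt.1 h), zero_mul])
    obtain ⟨h1, h2⟩ := abs_lt.1 h
    simp only [ballKer]
    constructor <;> linarith
  rw [← e, ofReal_integral_eq_lintegral_ofReal (hc.integrable_of_hasCompactSupport hcs)
    (Filter.Eventually.of_forall hnn)]
  refine lintegral_congr fun u => ?_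
  rw [← ENNReal.ofReal_mul (ballNu_nonneg n ht0 u), lF, Real.exp_add]

lemma bigMax_ne_top (τ : ℝ) : P.bigMax τ ≠ ⊤ := by
  have hfin : ∫⁻ z : Fin (n + 2) → ℝ, ENNReal.ofReal |P.F (Real.exp τ * nrm z)| ≠ ⊤ := by
    have h := lintegral_comp_smul (g := fun y : Fin (n + 2) → ℝ => ENNReal.ofReal |P.F (nrm y)|)
      (P.mF.comp measurable_nrm).abs.ennreal_ofReal (Real.exp_pos τ)
    simp only [nrm_smul _ (Real.exp_pos τ).le] at h
    rw [h]
    have h2 := P.intF.hasFiniteIntegral
    rw [hasFiniteIntegral_iff_norm] at h2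
    exact ENNReal.mul_ne_top ENNReal.ofReal_ne_top h2.ne
  refine ne_top_of_le_ne_top (ENNReal.div_ne_top hfin (y := ENNReal.ofReal
    ((1 / 32 : ℝ) ^ (n + 2) * sqVol (n + 2) 1)) ?_) (iSup₂_le fun t ht => ?_)
  · rw [Ne, ENNReal.ofReal_eq_zero, not_le]
    exact euclVol_pos (by norm_num)
  · have ht0 : 0 < t := by linarith
    refine ENNReal.div_le_div (setLIntegral_le_lintegral _ _) ?_
    rw [volume_euclBall_e0 n ht0]
    refine ENNReal.ofReal_le_ofReal (mul_le_mul_of_nonneg_right ?_ (sqVol_one_pos _).le)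
    exact pow_le_pow_left₀ (by norm_num) ht _

/-- The derivative bound for the large radii. -/
noncomputable def bigBound (v : ℝ) : ℝ := (P.bigDer v).toReal / sqVol (n + 2) 1

lemma lintegral_bigDer_ne_top (a b : ℝ) : ∫⁻ v in Icc a b, P.bigDer v ≠ ⊤ := by
  have h := P.weighted_bigDer
  have hfin : bigConst n * P.total ≠ ⊤ := ENNReal.mul_ne_top (lintegral_bigWeight n) P.total_ne_top
  set c := ENNReal.ofReal (Real.exp (((n : ℝ) + 1) * a)) with hc
  have hc0 : c ≠ 0 := by rw [hc, Ne, ENNReal.ofReal_eq_zero, not_le]; exact Real.exp_pos _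
  have h2 : c * ∫⁻ v in Icc a b, P.bigDer v ≤ bigConst n * P.total := by
    rw [← lintegral_const_mul _ P.measurable_bigDer]
    refine le_trans ?_ ((setLIntegral_le_lintegral (Icc a b) _).trans h)
    refine setLIntegral_mono' measurableSet_Icc fun v hv => mul_le_mul' ?_ le_rfl
    exact ENNReal.ofReal_le_ofReal (Real.exp_le_exp.2 (mul_le_mul_of_nonneg_left hv.1 (by positivity)))
  intro htop
  rw [htop, ENNReal.mul_top hc0] at h2
  exact hfin (top_le_iff.1 h2)

lemma intervalIntegrable_bigBound (a b : ℝ) : IntervalIntegrable P.bigBound volume a b := by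
  wlog hab : a ≤ b generalizing a b
  · exact (this b a (le_of_lt (not_le.1 hab))).symm
  rw [intervalIntegrable_iff_integrableOn_Icc_of_le hab]
  exact (integrable_toReal_of_lintegral_ne_top P.measurable_bigDer.aemeasurable
    (P.lintegral_bigDer_ne_top a b)).div_const _

lemma ofReal_integral_bigBound {a b : ℝ} (hab : a ≤ b) :
    (∫⁻ v in Icc a b, P.bigDer v) / ENNReal.ofReal (sqVol (n + 2) 1) =
      ENNReal.ofReal (∫ v in a..b, P.bigBound v) := by
  have hV := sqVol_one_pos (n + 2)
  rw [intervalIntegral.integral_of_le hab, ← integral_Icc_eq_integral_Ioc]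
  simp only [bigBound]
  rw [integral_div, integral_toReal P.measurable_bigDer.aemeasurable
    (ae_lt_top P.measurable_bigDer (P.lintegral_bigDer_ne_top a b)),
    ENNReal.ofReal_div_of_pos hV, ENNReal.ofReal_toReal (P.lintegral_bigDer_ne_top a b)]

lemma ballMean_le {t : ℝ} (ht : 1 / 32 ≤ t) {a b τ σ : ℝ} (hab : a ≤ b) (hτ : (τ = a ∧ σ = b) ∨ (τ = b ∧ σ = a)) :
    P.ballMean t τ ≤ P.ballMean t σ + ENNReal.ofReal (∫ v in a..b, P.bigBound v) := by
  have ht0 : 0 < t := by linarith
  have hV := sqVol_one_pos (n + 2)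
  have hz : ∀ᵐ z ∂(volume : Measure (Fin (n + 2) → ℝ)).restrict (euclBall (e0 n) t),
      z ≠ 0 ∧ z ∈ euclBall (e0 n) t := by
    refine (ae_restrict_mem (measurableSet_euclBall _ _)).mp ?_
    exact ae_restrict_of_ae ((measure_eq_zero_iff_ae_notMem.1
      (measure_singleton (0 : Fin (n + 2) → ℝ))).mono fun w h hm => ⟨by simpa using h, hm⟩)
  rw [← P.ofReal_integral_bigBound hab, ballMean, ballMean, volume_euclBall_e0 n ht0]
  set c := ENNReal.ofReal (t ^ (n + 2) * sqVol (n + 2) 1) with hc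
  set J := fun z : Fin (n + 2) → ℝ => ∫⁻ v in Icc a b,
    ENNReal.ofReal (Real.exp v * nrm z * |P.F' (Real.exp v * nrm z)|) with hJ
  have hJm : Measurable J := by
    refine Measurable.lintegral_prod_right'
      (f := fun p : (Fin (n + 2) → ℝ) × ℝ => ENNReal.ofReal (Real.exp p.2 * nrm p.1 *
        |P.F' (Real.exp p.2 * nrm p.1)|)) ?_
    have h1 : Measurable fun p : (Fin (n + 2) → ℝ) × ℝ => Real.exp p.2 * nrm p.1 :=
      (Real.measurable_exp.comp measurable_snd).mul (measurable_nrm.comp measurable_fst)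
    exact (h1.mul (P.mF'.comp h1).abs).ennreal_ofReal
  have hpt : ∀ᵐ z ∂(volume : Measure (Fin (n + 2) → ℝ)).restrict (euclBall (e0 n) t),
      ENNReal.ofReal |P.F (Real.exp τ * nrm z)| ≤
        ENNReal.ofReal |P.F (Real.exp σ * nrm z)| + J z := by
    filter_upwards [hz] with z hz
    have hs := nrm_pos hz.1
    have e : ∀ v, Real.exp v * nrm z = Real.exp (v + Real.log (nrm z)) := fun v => by
      rw [Real.exp_add, Real.exp_log hs]
    have h1 : |P.lF (b + Real.log (nrm z)) - P.lF (a + Real.log (nrm z))| ≤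
        ∫ v in a..b, |P.psi (v + Real.log (nrm z))| := by
      rw [intervalIntegral.integral_comp_add_right (fun v => |P.psi v|)]
      exact P.abs_lF_sub_le (by linarith)
    have h2 : ENNReal.ofReal (∫ v in a..b, |P.psi (v + Real.log (nrm z))|) = J z := by
      rw [intervalIntegral.integral_of_le hab, ← integral_Icc_eq_integral_Ioc,
        ofReal_integral_eq_lintegral_ofReal ?_ (Filter.Eventually.of_forall fun v => abs_nonneg _)]
      · refine lintegral_congr fun v => ?_
        rw [psi, abs_mul, abs_of_pos (Real.exp_pos _), e v]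
      · rw [← IntegrableOn, ← intervalIntegrable_iff_integrableOn_Icc_of_le hab]
        have := ((P.prim_psi (a + Real.log (nrm z)) (b + Real.log (nrm z))).1.abs).comp_add_right
          (Real.log (nrm z))
        simpa using this
    rw [← h2, e τ, e σ, ← ENNReal.ofReal_add (abs_nonneg _)
      (intervalIntegral.integral_nonneg hab fun v _ => abs_nonneg _)]
    refine ENNReal.ofReal_le_ofReal ?_
    obtain ⟨h3, h4⟩ := abs_le.1 h1
    simp only [lF] at h3 h4
    rcases hτ with ⟨rfl, rfl⟩ | ⟨rfl, rfl⟩ <;> linarith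
  have hJb : (∫⁻ z in euclBall (e0 n) t, J z) / c ≤
      (∫⁻ v in Icc a b, P.bigDer v) / ENNReal.ofReal (sqVol (n + 2) 1) := by
    rw [hc, ENNReal.ofReal_mul (by positivity), div_eq_mul_inv, ENNReal.mul_inv
      (Or.inr ENNReal.ofReal_ne_top) (Or.inl ENNReal.ofReal_ne_top), ← mul_assoc, ← div_eq_mul_inv]
    refine ENNReal.div_le_div_right ?_ _
    rw [mul_comm, ← ENNReal.ofReal_inv_of_pos (pow_pos ht0 _),
      ← lintegral_const_mul' _ _ ENNReal.ofReal_ne_top]
    calc ∫⁻ z in euclBall (e0 n) t, ENNReal.ofReal ((t ^ (n + 2))⁻¹) * J z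
        ≤ ∫⁻ z in euclBall (e0 n) t, ENNReal.ofReal (bigWeight n (nrm z)) * J z := by
          refine lintegral_mono_ae ?_
          filter_upwards [hz] with z hz
          exact mul_le_mul' (ENNReal.ofReal_le_ofReal (inv_pow_le_bigWeight ht hz.2 hz.1)) le_rfl
      _ ≤ ∫⁻ z, ENNReal.ofReal (bigWeight n (nrm z)) * J z := setLIntegral_le_lintegral _ _
      _ = ∫⁻ v in Icc a b, P.bigDer v := by
          simp only [hJ, ← lintegral_const_mul' _ _ ENNReal.ofReal_ne_top, bigDer]
          exact lintegral_lintegral_swap P.measurable_bigDer_integrand.aemeasurable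
  calc (∫⁻ z in euclBall (e0 n) t, ENNReal.ofReal |P.F (Real.exp τ * nrm z)|) / c
      ≤ (∫⁻ z in euclBall (e0 n) t, (ENNReal.ofReal |P.F (Real.exp σ * nrm z)| + J z)) / c :=
        ENNReal.div_le_div_right (lintegral_mono_ae hpt) _
    _ = (∫⁻ z in euclBall (e0 n) t, ENNReal.ofReal |P.F (Real.exp σ * nrm z)|) / c +
          (∫⁻ z in euclBall (e0 n) t, J z) / c := by
        rw [lintegral_add_right _ hJm, ENNReal.add_div]
    _ ≤ _ := add_le_add le_rfl hJb

/-- The supremum over the large radii, real valued. -/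
noncomputable def big (τ : ℝ) : ℝ := (P.bigMax τ).toReal

lemma abs_big_sub_le (a b : ℝ) : |P.big b - P.big a| ≤ |∫ v in a..b, P.bigBound v| := by
  wlog hab : a ≤ b generalizing a b
  · rw [abs_sub_comm, intervalIntegral.integral_symm, abs_neg]
    exact this b a (le_of_lt (not_le.1 hab))
  have hI : 0 ≤ ∫ v in a..b, P.bigBound v := intervalIntegral.integral_nonneg hab fun v _ =>
    div_nonneg ENNReal.toReal_nonneg (sqVol_one_pos _).le
  rw [abs_of_nonneg hI]
  have key : ∀ τ σ, (τ = a ∧ σ = b) ∨ (τ = b ∧ σ = a) →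
      P.big τ ≤ P.big σ + ∫ v in a..b, P.bigBound v := by
    intro τ σ h
    have h1 : P.bigMax τ ≤ P.bigMax σ + ENNReal.ofReal (∫ v in a..b, P.bigBound v) := by
      refine iSup₂_le fun t ht => (P.ballMean_le ht hab h).trans (add_le_add ?_ le_rfl)
      exact le_iSup₂_of_le t ht le_rfl
    have := ENNReal.toReal_mono (ENNReal.add_ne_top.2 ⟨P.bigMax_ne_top σ, ENNReal.ofReal_ne_top⟩) h1
    rwa [ENNReal.toReal_add (P.bigMax_ne_top σ) ENNReal.ofReal_ne_top, ENNReal.toReal_ofReal hI] at this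
  rw [abs_le]
  constructor <;> linarith [key a b (Or.inl ⟨rfl, rfl⟩), key b a (Or.inr ⟨rfl, rfl⟩)]

lemma big_ac (a b : ℝ) : AbsolutelyContinuousOnInterval P.big a b := by
  have h := (P.intervalIntegrable_bigBound a b).absolutelyContinuousOnInterval_intervalIntegral
    (c := a) left_mem_uIcc
  rw [absolutelyContinuousOnInterval_iff] at h ⊢
  intro ε hε
  obtain ⟨δ, hδ, h⟩ := h ε hε
  refine ⟨δ, hδ, fun E hE hsum => lt_of_le_of_lt (Finset.sum_le_sum fun i _ => ?_) (h E hE hsum)⟩
  rw [Real.dist_eq, Real.dist_eq, intervalIntegral.integral_interval_sub_left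
    (P.intervalIntegrable_bigBound _ _) (P.intervalIntegrable_bigBound _ _)]
  exact P.abs_big_sub_le _ _

/-- The maximal function at `log |x| = τ`. -/
noncomputable def gmax (τ : ℝ) : ℝ := max ((ballKer n).smallMax P.lF τ) (P.big τ)

/-- The constant of the small radii. -/
noncomputable def smallConst (n : ℕ) : ℝ :=
  30000 * (ballKer n).C ^ 3

lemma prim_small : Prim ((ballKer n).smallMax P.lF) ((ballKer n).smallDeriv P.lF (deriv P.lF)) := by
  intro a b
  rcases le_total a b with hab | hab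
  · exact ⟨((ballKer n).smallMax_ftc P.prim_lF hab).1, ((ballKer n).smallMax_ftc P.prim_lF hab).2.1⟩
  · obtain ⟨h1, h2, -⟩ := (ballKer n).smallMax_ftc P.prim_lF hab
    refine ⟨h1.symm, ?_⟩
    rw [intervalIntegral.integral_symm]
    linarith

lemma gmax_ac (a b : ℝ) : AbsolutelyContinuousOnInterval P.gmax a b :=
  ac_max (P.prim_small.ac a b) (P.big_ac a b)

lemma prim_gmax : Prim P.gmax (deriv P.gmax) := fun a b =>
  ⟨(P.gmax_ac a b).intervalIntegrable_deriv, (P.gmax_ac a b).integral_deriv_eq_sub.symm⟩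

lemma deriv_gmax_le : ∀ᵐ v, |deriv P.gmax v| ≤
    |(ballKer n).smallDeriv P.lF (deriv P.lF) v| + P.bigBound v := by
  set m := (ballKer n).smallMax P.lF with hm
  have h : ∀ᵐ v, ∀ N : ℕ, v ∈ uIcc (-(N : ℝ)) N →
      HasDerivAt m ((ballKer n).smallDeriv P.lF (deriv P.lF) v) v ∧ DifferentiableAt ℝ P.big v ∧
      DifferentiableAt ℝ P.gmax v ∧
      HasDerivAt (fun x => ∫ s in (-(N : ℝ))..x, P.bigBound s) (P.bigBound v) v := by
    refine ae_all_iff.2 fun N => ?_
    filter_upwards [P.prim_small.ae_hasDerivAt (-(N : ℝ)) N, (P.big_ac (-(N : ℝ)) N).ae_differentiableAt,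
      (P.gmax_ac (-(N : ℝ)) N).ae_differentiableAt,
      (P.intervalIntegrable_bigBound (-(N : ℝ)) N).ae_hasDerivAt_integral] with v h1 h2 h3 h4 hv
    exact ⟨h1 hv, h2 hv, h3 hv, h4 hv _ left_mem_uIcc⟩
  filter_upwards [h] with v hv
  obtain ⟨N, hN⟩ := exists_nat_ge |v|
  obtain ⟨hm', hL, hg, hH⟩ := hv N (by rw [uIcc_of_le (by linarith [abs_nonneg v])]; exact abs_le.1 hN)
  have hb0 : 0 ≤ P.bigBound v := div_nonneg ENNReal.toReal_nonneg (sqVol_one_pos _).le
  have hLb : |deriv P.big v| ≤ P.bigBound v := by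
    rw [← abs_of_nonneg hb0]
    refine le_of_tendsto_of_tendsto' (hasDerivAt_iff_tendsto_slope.1 hL.hasDerivAt).abs
      (hasDerivAt_iff_tendsto_slope.1 hH).abs fun y => ?_
    rw [slope_def_field, slope_def_field, abs_div, abs_div,
      intervalIntegral.integral_interval_sub_left (P.intervalIntegrable_bigBound _ _)
        (P.intervalIntegrable_bigBound _ _)]
    exact div_le_div_of_nonneg_right (P.abs_big_sub_le _ _) (abs_nonneg _)
  rcases lt_trichotomy (m v) (P.big v) with hlt | heq | hgt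
  · have : deriv P.gmax v = deriv P.big v := Filter.EventuallyEq.deriv_eq
      ((hm'.continuousAt.eventually_lt hL.continuousAt hlt).mono fun y hy => max_eq_right hy.le)
    rw [this]
    exact hLb.trans (le_add_of_nonneg_left (abs_nonneg _))
  · have hmin : IsLocalMin (fun y => P.gmax y - m y) v := Filter.Eventually.of_forall fun y => by
      show P.gmax v - m v ≤ P.gmax y - m y
      have e : P.gmax v = m v := by simp [gmax, hm, ← heq]
      rw [e, sub_self]
      exact sub_nonneg.2 (le_max_left _ _)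
    have := hmin.hasDerivAt_eq_zero (hg.hasDerivAt.sub hm')
    rw [show deriv P.gmax v = (ballKer n).smallDeriv P.lF (deriv P.lF) v by linarith]
    exact le_add_of_nonneg_right hb0
  · have : deriv P.gmax v = (ballKer n).smallDeriv P.lF (deriv P.lF) v := by
      rw [← hm'.deriv]
      exact Filter.EventuallyEq.deriv_eq
        ((hL.continuousAt.eventually_lt hm'.continuousAt hgt).mono fun y hy => max_eq_left hy.le)
    rw [this]
    exact le_add_of_nonneg_right hb0

lemma lintegral_small_piece (j : ℤ) :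
    ∫⁻ v in Ioc (j : ℝ) (j + 1), ENNReal.ofReal (Real.exp (((n : ℝ) + 1) * v) *
        |(ballKer n).smallDeriv P.lF (deriv P.lF) v|) ≤
      ENNReal.ofReal (smallConst n * Real.exp (2 * ((n : ℝ) + 1))) *
        ∫⁻ v in Ioc ((j : ℝ) - 1) (j + 2), ENNReal.ofReal (Real.exp (((n : ℝ) + 1) * v) * |P.psi v|) := by
  set A := ((n : ℝ) + 1) with hA
  have hA0 : 0 ≤ A := by positivity
  set sd := (ballKer n).smallDeriv P.lF (deriv P.lF) with hsd
  set j' : ℝ := (j : ℝ) with hj'
  obtain ⟨hi, -, hb⟩ := (ballKer n).smallMax_ftc P.prim_lF (show j' ≤ j' + 1 by linarith)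
  have hC0 : 0 ≤ smallConst n := mul_nonneg (by norm_num) (pow_nonneg (ballKer n).C_pos.le 3)
  have hTk : (ballKer n).T = 1 / 32 := rfl
  have hint : IntervalIntegrable (fun v => |P.psi v|) volume (j' - 1) (j' + 2) := (P.prim_psi _ _).1.abs
  have h1 : ∫⁻ v in Ioc j' (j' + 1), ENNReal.ofReal (Real.exp (A * v) * |sd v|) ≤
      ENNReal.ofReal (Real.exp (A * (j' + 1)) * ∫ v in j'..(j' + 1), |sd v|) := by
    rw [intervalIntegral.integral_of_le (by linarith), ← integral_const_mul,
      ofReal_integral_eq_lintegral_ofReal (hi.abs.1.const_mul _)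
        (Filter.Eventually.of_forall fun v => by positivity)]
    refine setLIntegral_mono' measurableSet_Ioc fun v hv => ENNReal.ofReal_le_ofReal ?_
    exact mul_le_mul_of_nonneg_right
      (Real.exp_le_exp.2 (mul_le_mul_of_nonneg_left hv.2 hA0)) (abs_nonneg _)
  have h2 : ∫ v in (j' - 3 * (ballKer n).T)..(j' + 1 + 3 * (ballKer n).T), |deriv P.lF v| ≤
      ∫ v in (j' - 1)..(j' + 2), |P.psi v| := by
    refine le_trans (intervalIntegral.integral_mono_interval (c := j' - 1) (d := j' + 2)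
      (by rw [hTk]; linarith) (by rw [hTk]; linarith)
      (by rw [hTk]; linarith) (Filter.Eventually.of_forall fun s => abs_nonneg _) (P.prim_lF _ _).1.abs) ?_
    exact intervalIntegral.integral_mono_ae (by linarith) (P.prim_lF _ _).1.abs hint P.deriv_lF_le
  refine h1.trans ?_
  rw [← lintegral_const_mul' _ _ ENNReal.ofReal_ne_top]
  calc ENNReal.ofReal (Real.exp (A * (j' + 1)) * ∫ v in j'..(j' + 1), |sd v|)
      ≤ ENNReal.ofReal (Real.exp (A * (j' + 1)) * (smallConst n * ∫ v in (j' - 1)..(j' + 2), |P.psi v|)) :=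
        ENNReal.ofReal_le_ofReal (mul_le_mul_of_nonneg_left
          (hb.trans (mul_le_mul_of_nonneg_left h2 hC0)) (Real.exp_nonneg _))
    _ = ∫⁻ v in Ioc (j' - 1) (j' + 2),
          ENNReal.ofReal (Real.exp (A * (j' + 1)) * smallConst n * |P.psi v|) := by
        rw [← mul_assoc, intervalIntegral.integral_of_le (by linarith), ← integral_const_mul,
          ofReal_integral_eq_lintegral_ofReal (hint.1.const_mul _)
            (Filter.Eventually.of_forall fun v => by positivity)]
    _ ≤ _ := by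
        refine setLIntegral_mono' measurableSet_Ioc fun v hv => ?_
        rw [← ENNReal.ofReal_mul (by positivity)]
        refine ENNReal.ofReal_le_ofReal ?_
        have e : Real.exp (A * (j' + 1)) ≤ Real.exp (2 * A) * Real.exp (A * v) := by
          rw [← Real.exp_add]
          exact Real.exp_le_exp.2 (by nlinarith [hv.1])
        calc Real.exp (A * (j' + 1)) * smallConst n * |P.psi v|
            ≤ Real.exp (2 * A) * Real.exp (A * v) * smallConst n * |P.psi v| := by gcongr
          _ = _ := by ring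

lemma weighted_small :
    ∫⁻ v, ENNReal.ofReal (Real.exp (((n : ℝ) + 1) * v) * |(ballKer n).smallDeriv P.lF (deriv P.lF) v|) ≤
      ENNReal.ofReal (smallConst n * Real.exp (2 * ((n : ℝ) + 1))) * (3 * (P.total / polar n)) := by
  rw [← P.weighted_psi]
  set g := fun v => ENNReal.ofReal (Real.exp (((n : ℝ) + 1) * v) * |P.psi v|) with hg
  have hsum : ∀ h : ℝ → ℝ≥0∞, ∫⁻ v, h v = ∑' j : ℤ, ∫⁻ v in Ioc (j : ℝ) (j + 1), h v := fun h => by
    rw [← lintegral_iUnion (fun j : ℤ => measurableSet_Ioc) (pairwise_disjoint_Ioc_intCast ℝ),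
      iUnion_Ioc_intCast, Measure.restrict_univ]
  rw [hsum]
  refine (ENNReal.tsum_le_tsum fun j => P.lintegral_small_piece j).trans ?_
  rw [ENNReal.tsum_mul_left]
  refine mul_le_mul' le_rfl (le_of_eq ?_)
  have split : ∀ j : ℤ, ∫⁻ v in Ioc ((j : ℝ) - 1) (j + 2), g v =
      (∫⁻ v in Ioc (((j + -1 : ℤ)) : ℝ) (((j + -1 : ℤ) : ℝ) + 1), g v) +
        ((∫⁻ v in Ioc (j : ℝ) (j + 1), g v) +
          ∫⁻ v in Ioc (((j + 1 : ℤ)) : ℝ) (((j + 1 : ℤ) : ℝ) + 1), g v) := by
    intro j
    push_cast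
    rw [show (j : ℝ) + -1 = (j : ℝ) - 1 by ring, show (j : ℝ) - 1 + 1 = (j : ℝ) by ring,
      ← lintegral_union measurableSet_Ioc (Ioc_disjoint_Ioc_of_le le_rfl),
      Ioc_union_Ioc_eq_Ioc (by linarith) (by linarith),
      ← lintegral_union measurableSet_Ioc (Ioc_disjoint_Ioc_of_le le_rfl),
      Ioc_union_Ioc_eq_Ioc (by linarith) (by linarith),
      show (j : ℝ) + 1 + 1 = (j : ℝ) + 2 by ring]
  simp only [← hg, split]
  rw [ENNReal.tsum_add, ENNReal.tsum_add]
  have e1 := (Equiv.addRight (-1 : ℤ)).tsum_eq (fun j : ℤ => ∫⁻ v in Ioc (j : ℝ) ((j : ℝ) + 1), g v)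
  have e2 := (Equiv.addRight (1 : ℤ)).tsum_eq (fun j : ℤ => ∫⁻ v in Ioc (j : ℝ) ((j : ℝ) + 1), g v)
  simp only [Equiv.coe_addRight] at e1 e2
  rw [e1, e2, ← hsum]
  ring

/-- The centred maximal function at `x ≠ 0`. -/
theorem centredMax_eq {x : Fin (n + 2) → ℝ} (hx : x ≠ 0) :
    centredMax (fun y => ENNReal.ofReal |P.F (nrm y)|) x =
      ENNReal.ofReal (P.gmax (Real.log (nrm x))) := by
  have hρ := nrm_pos hx
  set τ := Real.log (nrm x) with hτ
  have hterm : ∀ r, (∫⁻ y in euclBall x r, ENNReal.ofReal |P.F (nrm y)|) / volume (euclBall x r) =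
      P.ballMean (r / nrm x) τ := by
    intro r
    rw [ball_average_eq n hx (g := fun s => ENNReal.ofReal |P.F s|) P.mF.abs.ennreal_ofReal, ballMean,
      hτ, Real.exp_log hρ]
  have hmb : BddAbove ((fun t => (ballKer n).mean P.lF t τ) '' Ioc 0 (ballKer n).T) := by
    refine ⟨|P.lF (τ - 3 * (ballKer n).T)| +
      ∫ s, |(Ioc (τ - 3 * (ballKer n).T) (τ + 3 * (ballKer n).T)).indicator (deriv P.lF) s|, ?_⟩
    rintro _ ⟨t, ⟨h0, hT⟩, rfl⟩
    show (ballKer n).mean P.lF t τ ≤ _
    rw [(ballKer n).mean_eq_avg P.prim_lF h0 hT le_rfl le_rfl]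
    exact (le_abs_self _).trans ((ballKer n).abs_avg_le
      ((integrable_indicator_iff measurableSet_Ioc).2 (P.prim_lF _ _).1.1) _ h0 hT τ)
  refine le_antisymm (iSup₂_le fun r hr => ?_) ?_
  · rw [hterm]
    rcases le_or_gt (r / nrm x) (1 / 32) with h | h
    · rw [P.ballMean_small (div_pos hr hρ) h]
      refine ENNReal.ofReal_le_ofReal (le_trans ?_ (le_max_left _ _))
      exact le_csSup hmb ⟨_, ⟨div_pos hr hρ, h⟩, rfl⟩
    · calc P.ballMean (r / nrm x) τ ≤ P.bigMax τ := le_iSup₂_of_le _ h.le le_rfl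
        _ = ENNReal.ofReal (P.big τ) := (ENNReal.ofReal_toReal (P.bigMax_ne_top τ)).symm
        _ ≤ _ := ENNReal.ofReal_le_ofReal (le_max_right _ _)
  · have up : ∀ t, 0 < t →
        P.ballMean t τ ≤ centredMax (fun y => ENNReal.ofReal |P.F (nrm y)|) x := by
      intro t ht
      refine le_iSup₂_of_le (t * nrm x) (mul_pos ht hρ) (le_of_eq ?_)
      rw [hterm, mul_div_cancel_right₀ _ hρ.ne']
    rw [gmax, ENNReal.ofReal_max]
    refine max_le ?_ ?_
    · have hne : ((fun t => (ballKer n).mean P.lF t τ) '' Ioc 0 (ballKer n).T).Nonempty :=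
        (nonempty_Ioc.2 (ballKer n).T_pos).image _
      refine le_of_forall_lt fun c hc => ?_
      have hct : c ≠ ⊤ := ne_top_of_lt hc
      rw [ENNReal.lt_ofReal_iff_toReal_lt hct] at hc
      obtain ⟨_, ⟨t, ⟨h0, hT⟩, rfl⟩, hlt⟩ := exists_lt_of_lt_csSup hne hc
      refine lt_of_lt_of_le ?_ ((P.ballMean_small h0 hT τ).ge.trans (up t h0))
      exact (ENNReal.lt_ofReal_iff_toReal_lt hct).2 hlt
    · rw [big, ENNReal.ofReal_toReal (P.bigMax_ne_top τ)]
      exact iSup₂_le fun t ht => up t (by linarith)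

end Profile

end Vale.Agent.P137.Radial
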