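import Vale.Agent.P137.RadialKer

/-!
# P137: adding one octave of scales costs only the crossing charge
-/

open MeasureTheory Finset

namespace Vale.Agent.P137.Radial

/-- On a cell: with `D = max (G - u) 0` the gain in variation of `max u G` telescopes up to `E`. -/
lemma increase_le {u G : ℝ → ℝ} {Lu LG : NNReal} (hu : LipschitzWith Lu u) (hG : LipschitzWith LG G)
    {a b o₀ o₁ K E₀ E₁ : ℝ} (hab : a < b) (ho₀ : o₀ = 1 ∨ o₀ = -1) (ho₁ : o₁ = 1 ∨ o₁ = -1)
    (hK : 1 ≤ K) (hE₀ : 0 ≤ E₀) (hE₁ : 0 ≤ E₁)
    (H : ∀ τ ∈ Set.Ioo a b, ∀ d, HasDerivAt G d τ →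
      (-(o₀ * d) ≤ K * E₀ / (b - a) ∧ max (G τ - u τ) 0 ≤ K * (b - a) * (o₀ * d) + K * E₀) ∧
      (-(o₁ * d) ≤ K * E₁ / (b - a) ∧ max (G τ - u τ) 0 ≤ K * (b - a) * (o₁ * d) + K * E₁)) :
    (∫ x in a..b, |deriv (fun y => max (u y) (G y)) x|) - (∫ x in a..b, |deriv u x|) ≤
      o₁ * max (G b - u b) 0 - o₀ * max (G a - u a) 0 + 6 * K ^ 2 * (E₀ + E₁) := by
  set t := b - a with ht
  have ht0 : 0 < t := sub_pos.2 hab
  set D : ℝ → ℝ := fun y => max (G y - u y) 0 with hD
  set m : ℝ → ℝ := fun y => max (u y) (G y) with hm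
  set σ : ℝ → ℝ := fun y => o₀ + (o₁ - o₀) / t * (y - a) with hσ
  have hDl : LipschitzWith (LG + Lu) D := (hG.sub hu).max_const 0
  have hml : LipschitzWith (max Lu LG) m := hu.max hG
  have acD : AbsolutelyContinuousOnInterval D a b :=
    hDl.lipschitzOnWith.absolutelyContinuousOnInterval
  have acσ : AbsolutelyContinuousOnInterval σ a b := by
    have : ContDiffOn ℝ 1 σ (Set.uIcc a b) := by
      simp only [hσ]; fun_prop
    exact this.absolutelyContinuousOnInterval
  have acP := acσ.mul acD
  have iP := acP.intervalIntegrable_deriv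
  have im : IntervalIntegrable (fun x => |deriv m x|) volume a b :=
    (hml.lipschitzOnWith.absolutelyContinuousOnInterval.intervalIntegrable_deriv).abs
  have iu : IntervalIntegrable (fun x => |deriv u x|) volume a b :=
    (hu.lipschitzOnWith.absolutelyContinuousOnInterval.intervalIntegrable_deriv).abs
  set Q := 6 * K ^ 2 * (E₀ + E₁) / t with hQ
  have pt : ∀ᵐ x ∂volume, x ∈ Set.Ioo a b →
      |deriv m x| - |deriv u x| ≤ Q + deriv (σ * D) x := by
    filter_upwards [hu.ae_differentiableAt_real, hG.ae_differentiableAt_real,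
      hDl.ae_differentiableAt_real] with x du dG dD hx
    obtain ⟨⟨p1, p2⟩, ⟨q1, q2⟩⟩ := H x hx _ dG.hasDerivAt
    have hσd : HasDerivAt σ ((o₁ - o₀) / t) x := by
      simpa [hσ] using (((hasDerivAt_id x).sub_const a).const_mul ((o₁ - o₀) / t)).const_add o₀
    rw [(hσd.mul dD.hasDerivAt).deriv]
    set d := deriv G x
    have hσb : |σ x| ≤ 1 := by
      have : 0 ≤ (x - a) / t ∧ (x - a) / t ≤ 1 := by
        refine ⟨div_nonneg (by linarith [hx.1]) ht0.le, ?_⟩
        rw [div_le_one ht0, ht]; linarith [hx.2]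
      have e : σ x = o₀ + (o₁ - o₀) * ((x - a) / t) := by simp only [hσ]; ring
      rw [e, abs_le]
      rcases ho₀ with rfl | rfl <;> rcases ho₁ with rfl | rfl <;> constructor <;> nlinarith
    have hD0 : 0 ≤ D x := le_max_right _ _
    have hsd : (o₁ - o₀) / t * D x ≥ -Q + (|d| - σ x * d) := by
      have hK2 : K ≤ K ^ 2 := by nlinarith
      rcases eq_or_ne o₀ o₁ with e | e
      · subst e
        have e : σ x = o₀ := by simp [hσ]
        rw [e, sub_self, zero_div, zero_mul]
        have : |d| - o₀ * d ≤ 2 * (K * E₀ / t) := by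
          have : 0 ≤ K * E₀ / t := by positivity
          rcases ho₀ with rfl | rfl <;> rcases abs_cases d with ⟨e, _⟩ | ⟨e, _⟩ <;> linarith
        have h2 : 2 * (K * E₀ / t) ≤ Q := by
          rw [hQ, ← mul_div_assoc]
          refine div_le_div_of_nonneg_right ?_ ht0.le
          nlinarith
        linarith
      · have hd : |d| ≤ K * (E₀ + E₁) / t := by
          rw [mul_add, add_div]
          have : 0 ≤ K * E₀ / t := by positivity
          have : 0 ≤ K * E₁ / t := by positivity
          rcases ho₀ with rfl | rfl <;> rcases ho₁ with rfl | rfl <;>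
            first | exact absurd rfl e | (rw [abs_le]; constructor <;> linarith)
        have hDb : D x ≤ 2 * K ^ 2 * (E₀ + E₁) := by
          have h1 : o₀ * d ≤ |d| := by
            rcases ho₀ with rfl | rfl <;> linarith [le_abs_self d, neg_le_abs d]
          have h2 : t * |d| ≤ K * (E₀ + E₁) := by
            rw [le_div_iff₀ ht0] at hd; linarith
          have h3 := mul_le_mul_of_nonneg_left h1 (show 0 ≤ K * t by positivity)
          have h4 := mul_le_mul_of_nonneg_left h2 (show (0 : ℝ) ≤ K by positivity)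
          nlinarith
        have hs : |(o₁ - o₀) / t * D x| ≤ 2 / t * (2 * K ^ 2 * (E₀ + E₁)) := by
          rw [abs_mul, abs_of_nonneg hD0]
          refine mul_le_mul ?_ hDb hD0 (by positivity)
          rw [abs_div, abs_of_pos ht0]
          refine div_le_div_of_nonneg_right ?_ ht0.le
          rcases ho₀ with rfl | rfl <;> rcases ho₁ with rfl | rfl <;> norm_num
        have h3 : |d| - σ x * d ≤ 2 * (K * (E₀ + E₁) / t) := by
          have h := mul_le_mul_of_nonneg_right hσb (abs_nonneg d)
          rw [← abs_mul, one_mul] at h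
          linarith [(abs_le.1 h).1]
        have h4 : 2 / t * (2 * K ^ 2 * (E₀ + E₁)) + 2 * (K * (E₀ + E₁) / t) ≤ Q := by
          rw [hQ, div_mul_eq_mul_div, ← mul_div_assoc, ← add_div]
          refine div_le_div_of_nonneg_right ?_ ht0.le
          nlinarith
        linarith [(abs_le.1 hs).1]
    have hpos : 0 ≤ |d| - σ x * d := by
      have h := mul_le_mul_of_nonneg_right hσb (abs_nonneg d)
      rw [← abs_mul, one_mul] at h
      linarith [(abs_le.1 h).2]
    have key : |deriv m x| - |deriv u x| ≤ (|d| - σ x * d) + σ x * deriv D x := by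
      rcases lt_or_ge (u x) (G x) with h | h
      · have hev : ∀ᶠ y in nhds x, u y < G y :=
          (isOpen_lt hu.continuous hG.continuous).mem_nhds h
        have em : deriv m x = d := Filter.EventuallyEq.deriv_eq
          (hev.mono fun y hy => max_eq_right hy.le)
        have eD : deriv D x = d - deriv u x := by
          rw [Filter.EventuallyEq.deriv_eq (f := fun y => G y - u y)
            (hev.mono fun y hy => max_eq_left (sub_nonneg.2 hy.le)), deriv_fun_sub dG du]
        rw [em, eD]
        have h := mul_le_mul_of_nonneg_right hσb (abs_nonneg (deriv u x))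
        rw [← abs_mul, one_mul] at h
        linarith [(abs_le.1 h).2]
      · have eD : deriv D x = 0 := IsLocalMin.deriv_eq_zero <| Filter.Eventually.of_forall fun y => by
          show D x ≤ D y
          simp only [hD]
          rw [max_eq_right (sub_nonpos.2 h)]
          exact le_max_right _ _
        have em : deriv m x = deriv u x := by
          have e : m = fun y => u y + D y := by
            funext y
            simp only [hm, hD]
            rw [← max_add_add_left]
            simp [max_comm]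
          rw [e, deriv_fun_add du dD, eD, add_zero]
        rw [em, eD]
        simpa using hpos
    linarith
  have main : ∫ x in a..b, (|deriv m x| - |deriv u x|) ≤ ∫ x in a..b, (Q + deriv (σ * D) x) := by
    refine intervalIntegral.integral_mono_ae_restrict hab.le (im.sub iu)
      ((intervalIntegrable_const (c := Q)).add iP) ?_
    rw [Filter.EventuallyLE, ae_restrict_iff' measurableSet_Icc]
    have hne : ∀ᵐ x : ℝ, x ≠ a ∧ x ≠ b := by
      filter_upwards [measure_eq_zero_iff_ae_notMem.1 (Real.volume_singleton (a := a)),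
        measure_eq_zero_iff_ae_notMem.1 (Real.volume_singleton (a := b))] with x h1 h2
      exact ⟨by simpa using h1, by simpa using h2⟩
    filter_upwards [pt, hne] with x hx hxne hxI
    exact hx ⟨lt_of_le_of_ne hxI.1 (Ne.symm hxne.1), lt_of_le_of_ne hxI.2 hxne.2⟩
  rw [intervalIntegral.integral_sub im iu, intervalIntegral.integral_add intervalIntegrable_const iP,
    acP.integral_deriv_eq_sub, intervalIntegral.integral_const, smul_eq_mul] at main
  refine main.trans (le_of_eq ?_)
  have e1 : σ a = o₀ := by simp [hσ]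
  have e2 : σ b = o₁ := by
    simp only [hσ]
    rw [← ht, div_mul_cancel₀ _ ht0.ne']
    ring
  simp only [Pi.mul_apply, e1, e2, hQ, hD, ← ht]
  field_simp
  ring

namespace Ker

variable (k : Ker) {φ : ℝ → ℝ} (hφ : Integrable φ) (c : ℝ)

/-- The function whose averages are `Ker.avg`. -/
noncomputable def prim (φ : ℝ → ℝ) (c x : ℝ) : ℝ := c + ∫ s in Set.Iic x, φ s

include hφ

omit k in
lemma prim_sub (a b : ℝ) : prim φ c b - prim φ c a = ∫ s in a..b, φ s := by
  rw [prim, prim, add_sub_add_left_eq_sub,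
    intervalIntegral.integral_Iic_sub_Iic hφ.integrableOn hφ.integrableOn]

omit k in
lemma abs_prim_le (x : ℝ) : |prim φ c x| ≤ |c| + ∫ s, |φ s| :=
  (abs_add_le _ _).trans (add_le_add le_rfl ((abs_integral_le_integral_abs).trans
    (setIntegral_le_integral hφ.abs (Filter.Eventually.of_forall fun s => abs_nonneg _))))

/-- The charge of the window `j` at scale `P` on the grid of step `h`. -/
noncomputable def winCharge (φ : ℝ → ℝ) (c h : ℝ) (P j : ℕ) : ℝ :=
  charge (fun l : ℕ => prim φ c (l * h)) (|c| + ∫ s, |φ s|) P (j * P) ((j + 8) * P) +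
    Real.sqrt (1 / P) * ∫ s in ((j * P : ℕ) : ℝ) * h..(((j + 8) * P : ℕ) : ℝ) * h, |φ s|

/-- The sign of the net change over the window. -/
noncomputable def winSign (φ : ℝ → ℝ) (c h : ℝ) (P j : ℕ) : ℝ :=
  if prim φ c (((j * P : ℕ) : ℝ) * h) ≤ prim φ c ((((j + 8) * P : ℕ) : ℝ) * h) then 1 else -1

omit k hφ in
lemma winSign_eq (h : ℝ) (P j : ℕ) : winSign φ c h P j = 1 ∨ winSign φ c h P j = -1 := by
  unfold winSign; split_ifs <;> simp

omit k in
lemma winCharge_nonneg {h : ℝ} (hh : 0 ≤ h) (P j : ℕ) : 0 ≤ winCharge φ c h P j := by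
  refine add_nonneg (charge_nonneg _ ((abs_nonneg _).trans (abs_prim_le hφ c 0)) _ _ _)
    (mul_nonneg (Real.sqrt_nonneg _) (intervalIntegral.integral_nonneg ?_ fun s _ => abs_nonneg _))
  exact mul_le_mul_of_nonneg_right (by exact_mod_cast Nat.mul_le_mul_right P (Nat.le_add_right j 8)) hh

lemma window_bounds {h : ℝ} (hh : 0 < h) {P : ℕ} (hP : 0 < P) (hT : (P : ℝ) * h ≤ k.T) (j : ℕ)
    {τ : ℝ} (h1 : ((j : ℝ) + 2) * (P * h) ≤ τ) (h2 : τ + 2 * (P * h) ≤ ((j : ℝ) + 8) * (P * h))
    {r : ℝ} (hr : r ∈ Set.Icc ((P : ℝ) * h / 2) (P * h)) :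
    -(winSign φ c h P j * k.slope φ r τ) ≤ 3 * k.C * winCharge φ c h P j / (P * h) ∧
    k.avg φ c r τ - k.avg φ c ((P : ℝ) * h / 2) τ ≤
      k.C * (P * h) * (winSign φ c h P j * k.slope φ r τ) + 14 * k.C ^ 2 * winCharge φ c h P j := by
  set t := (P : ℝ) * h with ht
  set o := winSign φ c h P j with ho
  set E := winCharge φ c h P j with hE
  have ht0 : 0 < t := by positivity
  have hC := k.C_pos
  have hC1 := k.one_le_C
  have hr0 : 0 < r := by linarith [hr.1]
  have hrT : r ≤ k.T := hr.2.trans hT
  have hl0 : 0 < t / 2 := by positivity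
  have hlT : t / 2 ≤ k.T := by linarith
  have hE0 : 0 ≤ E := winCharge_nonneg hφ c hh.le P j
  have hos : o = 1 ∨ o = -1 := winSign_eq c h P j
  have hsgn : 0 ≤ o * (prim φ c ((((j + 8) * P : ℕ) : ℝ) * h) - prim φ c (((j * P : ℕ) : ℝ) * h)) := by
    simp only [ho, winSign]
    split_ifs with h3
    · linarith
    · linarith [not_le.1 h3]
  have hwin : ∀ {w : ℝ → ℝ}, (∀ s, 2 * t ≤ |s - τ| → w s = 0) →
      ∫ s, w s * φ s = ∫ s in ((j * P : ℕ) : ℝ) * h..(((j + 8) * P : ℕ) : ℝ) * h, w s * φ s := by
    intro w hw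
    refine (intervalIntegral.integral_eq_integral_of_support_subset fun s hs => ?_).symm
    rw [Function.mem_support] at hs
    have h3 : |s - τ| < 2 * t := by
      by_contra h4
      exact hs (by rw [hw s (not_lt.1 h4), zero_mul])
    obtain ⟨h4, h5⟩ := abs_lt.1 h3
    push_cast
    rw [mul_assoc, mul_assoc, ← ht]
    constructor <;> nlinarith
  have hsq : ∀ a b : ℝ, k.C / r * Real.sqrt (|a - b| / r) ≤
      3 * k.C / t * Real.sqrt (|a - b| / t) := fun a b => by
    calc k.C / r * Real.sqrt (|a - b| / r) ≤ k.C / (t / 2) * Real.sqrt (|a - b| / (t / 2)) :=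
          mul_le_mul (div_le_div_of_nonneg_left hC.le hl0 hr.1)
            (Real.sqrt_le_sqrt (div_le_div_of_nonneg_left (abs_nonneg _) hl0 hr.1))
            (Real.sqrt_nonneg _) (by positivity)
      _ = 2 * k.C / t * Real.sqrt (2 * (|a - b| / t)) := by
          rw [show k.C / (t / 2) = 2 * k.C / t by ring, show |a - b| / (t / 2) = 2 * (|a - b| / t) by ring]
      _ ≤ 2 * k.C / t * (3 / 2 * Real.sqrt (|a - b| / t)) := by
          rw [Real.sqrt_mul (by norm_num)]
          gcongr
          rw [Real.sqrt_le_iff]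
          norm_num
      _ = 3 * k.C / t * Real.sqrt (|a - b| / t) := by ring
  have hcont := k.continuous_nu hr0 hrT
  have hN1 := k.continuous_N hr0 hrT
  have hN2 := k.continuous_N hl0 hlT
  have p1 : -(o * k.slope φ r τ) ≤ 3 * k.C * E / t := by
    have := sign_integral_le hφ (w := fun s => k.ν r (s - τ)) (fun s => k.nonneg r _ hr0 hrT)
      (by fun_prop) (Φ := prim φ c) (fun a b => prim_sub hφ c a b) (abs_prim_le hφ c) hh
      (P := (P : ℝ)) (H := 3 * k.C / t) (by exact_mod_cast hP) (by positivity)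
      (fun a b => (k.hol r _ _ hr0 hrT).trans (le_trans (hsq _ _)
        (le_of_eq (by rw [ht, sub_sub_sub_cancel_right]))))
      (Nat.mul_le_mul_right P (Nat.le_add_right j 8)) hos hsgn
    rw [← hwin (fun s hs => k.supp r _ hr0 hrT (le_trans (by linarith [hr.2]) hs))] at this
    refine this.trans (le_of_eq ?_)
    rw [hE, winCharge]
    ring
  refine ⟨p1, ?_⟩
  -- the increment is the pairing with a kernel dominated by the density
  set w : ℝ → ℝ := fun s => k.C * r * k.ν r (s - τ) -
    o * (k.N (t / 2) (s - τ) - k.N r (s - τ)) with hw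
  have hTb : ∀ s, |k.N (t / 2) (s - τ) - k.N r (s - τ)| ≤ k.C * r * k.ν r (s - τ) := fun s => by
    rw [abs_sub_comm]
    exact k.cdf r (t / 2) _ hr0 hrT (by linarith [hr.2]) hr.1
  have := sign_integral_le hφ (w := w) (fun s => by
      have := abs_le.1 (hTb s)
      rcases hos with e | e <;> simp only [hw, e] <;> linarith)
    (by simp only [hw]; fun_prop) (Φ := prim φ c) (fun a b => prim_sub hφ c a b)
    (abs_prim_le hφ c) hh (P := (P : ℝ)) (H := 11 * k.C ^ 2) (by exact_mod_cast hP) (by positivity)
    (fun a b => by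
      rw [← ht]
      have q1 := k.hol r (a - τ) (b - τ) hr0 hrT
      rw [sub_sub_sub_cancel_right] at q1
      have q2 : |(k.N (t / 2) (a - τ) - k.N r (a - τ)) - (k.N (t / 2) (b - τ) - k.N r (b - τ))| ≤
          8 * k.C * Real.sqrt (|a - b| / t) := by
        rcases le_or_gt (|a - b| / t) 1 with hx | hx
        · have z0 : 0 ≤ |a - b| / t := by positivity
          have z1 : |a - b| / t ≤ Real.sqrt (|a - b| / t) :=
            Real.le_sqrt_of_sq_le (by nlinarith)
          have n1 := k.N_lip hl0 hlT (a - τ) (b - τ)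
          have n2 := k.N_lip hr0 hrT (a - τ) (b - τ)
          rw [sub_sub_sub_cancel_right] at n1 n2
          have n3 : 2 * k.C / r * |a - b| ≤ 4 * k.C * (|a - b| / t) := by
            calc 2 * k.C / r * |a - b| ≤ 2 * k.C / (t / 2) * |a - b| := by
                  gcongr; exact hr.1
              _ = _ := by ring
          have n4 : 2 * k.C / (t / 2) * |a - b| = 4 * k.C * (|a - b| / t) := by ring
          have := mul_le_mul_of_nonneg_left z1 (show 0 ≤ 8 * k.C by positivity)
          rw [abs_le] at n1 n2 ⊢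
          constructor <;> linarith
        · have z1 : 1 ≤ Real.sqrt (|a - b| / t) := by
            rw [Real.one_le_sqrt]; exact hx.le
          have m1 := k.N_mem hl0 hlT (a - τ)
          have m2 := k.N_mem hl0 hlT (b - τ)
          have m3 := k.N_mem hr0 hrT (a - τ)
          have m4 := k.N_mem hr0 hrT (b - τ)
          rw [abs_le]
          constructor <;> nlinarith
      have q3 : k.C * r * |k.ν r (a - τ) - k.ν r (b - τ)| ≤
          3 * k.C ^ 2 * Real.sqrt (|a - b| / t) := by
        refine (mul_le_mul_of_nonneg_left (q1.trans (hsq a b)) (by positivity)).trans ?_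
        calc k.C * r * (3 * k.C / t * Real.sqrt (|a - b| / t))
            ≤ k.C * t * (3 * k.C / t * Real.sqrt (|a - b| / t)) := by gcongr; exact hr.2
          _ = _ := by field_simp
      have h8 : 8 * k.C * Real.sqrt (|a - b| / t) ≤ 8 * k.C ^ 2 * Real.sqrt (|a - b| / t) := by
        gcongr; nlinarith
      have e : w a - w b = k.C * r * (k.ν r (a - τ) - k.ν r (b - τ)) -
          o * ((k.N (t / 2) (a - τ) - k.N r (a - τ)) - (k.N (t / 2) (b - τ) - k.N r (b - τ))) := by
        simp only [hw]; ring
      rw [e]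
      refine (abs_sub _ _).trans ?_
      rw [abs_mul (k.C * r), abs_of_pos (show 0 < k.C * r by positivity), abs_mul o,
        show |o| = 1 by rcases hos with e' | e' <;> simp [e'], one_mul]
      linarith)
    (Nat.mul_le_mul_right P (Nat.le_add_right j 8)) hos hsgn
  rw [← hwin (w := w) fun s hs => ?_] at this
  · have e : ∫ s, w s * φ s = k.C * r * k.slope φ r τ -
        o * (k.avg φ c r τ - k.avg φ c (t / 2) τ) := by
      rw [avg, avg, add_sub_add_left_eq_sub, slope,
        ← integral_sub (k.integrable_avg hφ hr0 hrT τ) (k.integrable_avg hφ hl0 hlT τ),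
        ← integral_const_mul, ← integral_const_mul, ← integral_sub
          ((k.integrable_slope hφ hr0 hrT τ).const_mul _)
          (((k.integrable_avg hφ hr0 hrT τ).sub' (k.integrable_avg hφ hl0 hlT τ)).const_mul _)]
      refine integral_congr_ae (Filter.Eventually.of_forall fun s => ?_)
      simp only [hw]
      ring
    rw [e] at this
    have hH : 11 * k.C ^ 2 * (charge (fun l : ℕ => prim φ c (l * h)) (|c| + ∫ s, |φ s|) P
        (j * P) ((j + 8) * P) + Real.sqrt (1 / P) *
        ∫ s in ((j * P : ℕ) : ℝ) * h..(((j + 8) * P : ℕ) : ℝ) * h, |φ s|) = 11 * k.C ^ 2 * E := rfl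
    rw [hH] at this
    have oo : o * o = 1 := by rcases hos with e' | e' <;> simp [e']
    have s1 : (t - r) * -(o * k.slope φ r τ) ≤ 3 * k.C * E := by
      refine (mul_le_mul_of_nonneg_left p1 (sub_nonneg.2 hr.2)).trans ?_
      calc (t - r) * (3 * k.C * E / t) ≤ t * (3 * k.C * E / t) := by gcongr; linarith
        _ = _ := by field_simp
    have s2 := mul_le_mul_of_nonneg_left s1 hC.le
    rcases hos with e' | e' <;> rw [e'] at this s2 ⊢ <;> linarith
  · simp only [hw]
    rw [k.supp r _ hr0 hrT (le_trans (by linarith [hr.2]) hs)]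
    rcases le_or_gt 0 (s - τ) with h3 | h3
    · rw [abs_of_nonneg h3] at hs
      rw [k.right (t / 2) _ hl0 hlT (by linarith), k.right r _ hr0 hrT (by linarith [hr.2])]
      ring
    · rw [abs_of_neg h3] at hs
      rw [k.left (t / 2) _ hl0 hlT (by linarith), k.left r _ hr0 hrT (by linarith [hr.2])]
      ring

end Ker

end Vale.Agent.P137.Radial
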