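import Vale.Agent.P137.Basic

/-!
# P137: the distribution of `|z|` on a ball centred at the first unit vector
-/

open MeasureTheory Set
open scoped ENNReal

namespace Vale.Agent.P137.Radial

/-- The squared Euclidean norm. -/
def sq {m : ℕ} (y : Fin m → ℝ) : ℝ := ∑ i, y i ^ 2

lemma measurable_sq {m : ℕ} : Measurable (sq (m := m)) := by unfold sq; fun_prop

lemma continuous_sq {m : ℕ} : Continuous (sq (m := m)) := by unfold sq; fun_prop

lemma sq_nonneg' {m : ℕ} (y : Fin m → ℝ) : 0 ≤ sq y := Finset.sum_nonneg fun i _ => sq_nonneg (y i)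

lemma sq_smul {m : ℕ} (c : ℝ) (y : Fin m → ℝ) : sq (c • y) = c ^ 2 * sq y := by
  simp [sq, Finset.mul_sum, mul_pow]

/-- The volume of `{sq y < A}`. -/
noncomputable def sqVol (m : ℕ) (A : ℝ) : ℝ := volume.real {y : Fin m → ℝ | sq y < A}

lemma sq_lt_subset (m : ℕ) (A : ℝ) :
    {y : Fin m → ℝ | sq y < A} ⊆ Metric.closedBall 0 (Real.sqrt A) := by
  intro y hy
  rw [Metric.mem_closedBall, dist_zero_right, pi_norm_le_iff_of_nonneg (Real.sqrt_nonneg _)]
  intro i
  refine Real.abs_le_sqrt (le_trans ?_ (le_of_lt hy))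
  exact Finset.single_le_sum (f := fun j => y j ^ 2) (fun j _ => sq_nonneg (y j)) (Finset.mem_univ i)

lemma sq_lt_ne_top (m : ℕ) (A : ℝ) : volume {y : Fin m → ℝ | sq y < A} ≠ ⊤ :=
  ne_top_of_le_ne_top (measure_closedBall_lt_top).ne (measure_mono (sq_lt_subset m A))

lemma sqVol_eq (m : ℕ) (A : ℝ) : sqVol (m + 1) A = Real.sqrt A ^ (m + 1) * sqVol (m + 1) 1 := by
  rcases le_or_gt A 0 with h | h
  · have e : {y : Fin (m + 1) → ℝ | sq y < A} = ∅ :=
      Set.eq_empty_of_forall_notMem fun y hy => by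
        have := sq_nonneg' y; simp only [Set.mem_ofPred_eq] at hy; linarith
    rw [sqVol, e, Real.sqrt_eq_zero_of_nonpos h]
    simp
  · have hs : 0 < Real.sqrt A := Real.sqrt_pos.2 h
    have e : {y : Fin (m + 1) → ℝ | sq y < A} =
        (fun y => (Real.sqrt A)⁻¹ • y) ⁻¹' {y | sq y < 1} := by
      ext y
      simp only [Set.mem_ofPred_eq, Set.mem_preimage, sq_smul, inv_pow, Real.sq_sqrt h.le]
      rw [inv_mul_lt_iff₀ h, mul_one]
    rw [sqVol, e, measureReal_def, Measure.addHaar_preimage_smul _ (inv_ne_zero hs.ne'),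
      ENNReal.toReal_mul, ENNReal.toReal_ofReal (abs_nonneg _), Module.finrank_pi, Fintype.card_fin,
      inv_pow, inv_inv, abs_of_pos (by positivity)]
    rfl

lemma sqVol_one_pos (m : ℕ) : 0 < sqVol m 1 := by
  refine ENNReal.toReal_pos ?_ (sq_lt_ne_top m 1)
  exact ((isOpen_lt continuous_sq continuous_const).measure_pos volume ⟨0, by simp [sq]⟩).ne'

/-- The square of the radius of the intersection sphere of `|z - e| = t` and `|z| = s`. -/
noncomputable def lensA (t s : ℝ) : ℝ := t ^ 2 - ((1 + s ^ 2 - t ^ 2) / 2 - 1) ^ 2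

lemma lensA_eq (t s : ℝ) : lensA t s = s ^ 2 - ((1 + s ^ 2 - t ^ 2) / 2) ^ 2 := by
  unfold lensA; ring

/-- The density of `|z|` on the ball `B(e, t)`, unnormalised. -/
noncomputable def dens (n : ℕ) (t s : ℝ) : ℝ :=
  ∫ y in {y : Fin (n + 1) → ℝ | sq y < lensA t s}, s / Real.sqrt (s ^ 2 - sq y)

lemma sub_pos_of_lt {t s q : ℝ} (ht : t < 1) (ht0 : 0 ≤ t) (hq : q < lensA t s) :
    ((1 + s ^ 2 - t ^ 2) / 2) ^ 2 < s ^ 2 - q ∧ 0 < (1 + s ^ 2 - t ^ 2) / 2 := by
  have h1 : t ^ 2 < 1 := by nlinarith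
  have := lensA_eq t s
  constructor <;> nlinarith [sq_nonneg s]

lemma integrableOn_dens (n : ℕ) {t s : ℝ} (ht0 : 0 ≤ t) (ht : t < 1) (hs : 0 ≤ s) :
    IntegrableOn (fun y : Fin (n + 1) → ℝ => s / Real.sqrt (s ^ 2 - sq y))
      {y | sq y < lensA t s} := by
  have hm : Measurable fun y : Fin (n + 1) → ℝ => s / Real.sqrt (s ^ 2 - sq y) :=
    measurable_const.div ((measurable_const.sub measurable_sq).sqrt)
  refine IntegrableOn.of_bound (lt_top_iff_ne_top.2 (sq_lt_ne_top _ _)) hm.aestronglyMeasurable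
    (s / ((1 + s ^ 2 - t ^ 2) / 2)) ?_
  rw [ae_restrict_iff' (measurableSet_lt measurable_sq measurable_const)]
  refine Filter.Eventually.of_forall fun y hy => ?_
  obtain ⟨h1, h2⟩ := sub_pos_of_lt ht ht0 hy
  rw [Real.norm_eq_abs, abs_of_nonneg (by positivity)]
  exact div_le_div_of_nonneg_left hs h2 (Real.le_sqrt_of_sq_le h1.le)

lemma slice_change {t : ℝ} (ht0 : 0 < t) (ht : t ≤ 1 / 4) {q : ℝ} (hq : 0 ≤ q) (h : ℝ → ℝ≥0∞) :
    ∫⁻ z in {z : ℝ | (z - 1) ^ 2 + q < t ^ 2}, h (Real.sqrt (z ^ 2 + q)) =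
      ∫⁻ s in Ioi 0, {s : ℝ | q < lensA t s}.indicator
        (fun s => ENNReal.ofReal (s / Real.sqrt (s ^ 2 - q)) * h s) s := by
  set S := Ioi (0 : ℝ) ∩ {s : ℝ | q < lensA t s} with hS
  have hmA : MeasurableSet {s : ℝ | q < lensA t s} :=
    measurableSet_lt measurable_const (by unfold lensA; fun_prop)
  have hpos : ∀ s ∈ S, ((1 + s ^ 2 - t ^ 2) / 2) ^ 2 < s ^ 2 - q ∧ 0 < (1 + s ^ 2 - t ^ 2) / 2 :=
    fun s hs => sub_pos_of_lt (by linarith) ht0.le hs.2
  have hd : ∀ s ∈ S, HasDerivWithinAt (fun s => Real.sqrt (s ^ 2 - q))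
      (s / Real.sqrt (s ^ 2 - q)) S s := by
    intro s hs
    have hne : s ^ 2 - q ≠ 0 := by nlinarith [hpos s hs]
    have := (((hasDerivAt_pow 2 s).sub_const q).sqrt hne).hasDerivWithinAt (s := S)
    refine this.congr_deriv ?_
    simp only [Nat.cast_ofNat, Nat.add_one_sub_one, pow_one]
    rw [mul_div_mul_left _ _ two_ne_zero]
  have hinj : InjOn (fun s => Real.sqrt (s ^ 2 - q)) S := by
    intro a ha b hb hab
    simp only at hab
    rw [Real.sqrt_inj (by nlinarith [hpos a ha]) (by nlinarith [hpos b hb])] at hab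
    have ha0 : 0 < a := ha.1
    have hb0 : 0 < b := hb.1
    nlinarith
  have himg : (fun s => Real.sqrt (s ^ 2 - q)) '' S = {z : ℝ | (z - 1) ^ 2 + q < t ^ 2} := by
    ext z
    simp only [mem_image, mem_ofPred_eq]
    constructor
    · rintro ⟨s, hs, rfl⟩
      obtain ⟨h1, h2⟩ := hpos s hs
      have h3 : (1 + s ^ 2 - t ^ 2) / 2 < Real.sqrt (s ^ 2 - q) := (Real.lt_sqrt h2.le).2 h1
      have h4 := Real.sq_sqrt (show 0 ≤ s ^ 2 - q by nlinarith)
      nlinarith
    · intro hz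
      have h1 : (z - 1) ^ 2 < t ^ 2 := by linarith
      have hz0 : 0 < z := by nlinarith
      refine ⟨Real.sqrt (z ^ 2 + q), ⟨Real.sqrt_pos.2 (by positivity), ?_⟩, ?_⟩
      · simp only [mem_ofPred_eq, lensA_eq, Real.sq_sqrt (show 0 ≤ z ^ 2 + q by positivity)]
        have h2 : (1 + (z ^ 2 + q) - t ^ 2) / 2 < z := by nlinarith
        have h3 : 0 ≤ (1 + (z ^ 2 + q) - t ^ 2) / 2 := by nlinarith
        nlinarith
      · rw [Real.sq_sqrt (by positivity), add_sub_cancel_right, Real.sqrt_sq hz0.le]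
  rw [← himg, lintegral_image_eq_lintegral_abs_deriv_mul (measurableSet_Ioi.inter hmA) hd hinj,
    setLIntegral_indicator hmA, Set.inter_comm]
  refine setLIntegral_congr_fun (hmA.inter measurableSet_Ioi) fun s hs => ?_
  have hs' : s ∈ S := ⟨hs.2, hs.1⟩
  obtain ⟨h1, -⟩ := hpos s hs'
  have hs0 : 0 < s := hs.2
  rw [abs_of_pos (div_pos hs0 (Real.sqrt_pos.2 (by nlinarith))), Real.sq_sqrt (by nlinarith),
    sub_add_cancel, Real.sqrt_sq hs0.le]

/-- The centre `e`. -/
def e0 (n : ℕ) : Fin (n + 2) → ℝ := Fin.cons 1 0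

theorem lintegral_ball_radial (n : ℕ) {t : ℝ} (ht0 : 0 < t) (ht : t ≤ 1 / 4) {h : ℝ → ℝ≥0∞}
    (hh : Measurable h) :
    ∫⁻ z in euclBall (e0 n) t, h (Real.sqrt (sq z)) =
      ∫⁻ s in Ioi 0, ENNReal.ofReal (dens n t s) * h s := by
  set e := MeasurableEquiv.piFinSuccAbove (fun _ : Fin (n + 2) => ℝ) 0 with he
  have hmp : MeasurePreserving e volume volume := volume_preserving_piFinSuccAbove _ 0
  have hball : MeasurableSet {p : ℝ × (Fin (n + 1) → ℝ) | (p.1 - 1) ^ 2 + sq p.2 < t ^ 2} :=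
    measurableSet_lt (((measurable_fst.sub_const 1).pow_const 2).add
      (measurable_sq.comp measurable_snd)) measurable_const
  have e1 : euclBall (e0 n) t =
      e ⁻¹' {p : ℝ × (Fin (n + 1) → ℝ) | (p.1 - 1) ^ 2 + sq p.2 < t ^ 2} := by
    ext z
    simp only [euclBall, mem_ofPred_eq, mem_preimage, he, e0]
    rw [Fin.sum_univ_succ]
    simp [sq, MeasurableEquiv.piFinSuccAbove_apply, Fin.insertNthEquiv, Fin.tail]
  have e2 : ∀ z : Fin (n + 2) → ℝ, sq z = (e z).1 ^ 2 + sq (e z).2 := by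
    intro z
    rw [sq, Fin.sum_univ_succ]
    simp [sq, he, MeasurableEquiv.piFinSuccAbove_apply, Fin.insertNthEquiv, Fin.tail]
  simp only [e2]
  have hmG : Measurable fun p : ℝ × (Fin (n + 1) → ℝ) => h (Real.sqrt (p.1 ^ 2 + sq p.2)) :=
    hh.comp (((measurable_fst.pow_const 2).add (measurable_sq.comp measurable_snd)).sqrt)
  rw [e1, hmp.setLIntegral_comp_preimage hball hmG, ← lintegral_indicator hball, Measure.volume_eq_prod,
    lintegral_prod_symm _ ((hmG.indicator hball).aemeasurable)]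
  have inner : ∀ y : Fin (n + 1) → ℝ,
      ∫⁻ z, {p : ℝ × (Fin (n + 1) → ℝ) | (p.1 - 1) ^ 2 + sq p.2 < t ^ 2}.indicator
        (fun p => h (Real.sqrt (p.1 ^ 2 + sq p.2))) (z, y) =
      ∫⁻ s in Ioi 0, {s : ℝ | sq y < lensA t s}.indicator
        (fun s => ENNReal.ofReal (s / Real.sqrt (s ^ 2 - sq y)) * h s) s := by
    intro y
    rw [← slice_change ht0 ht (sq_nonneg' y) h,
      ← lintegral_indicator (measurableSet_lt (by fun_prop) measurable_const)]
    rfl
  simp only [inner]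
  rw [lintegral_lintegral_swap]
  · refine setLIntegral_congr_fun measurableSet_Ioi fun s hs => ?_
    have hs0 : (0 : ℝ) ≤ s := le_of_lt hs
    have e3 : ∀ y : Fin (n + 1) → ℝ, {s : ℝ | sq y < lensA t s}.indicator
        (fun s => ENNReal.ofReal (s / Real.sqrt (s ^ 2 - sq y)) * h s) s =
        {y : Fin (n + 1) → ℝ | sq y < lensA t s}.indicator
          (fun y => ENNReal.ofReal (s / Real.sqrt (s ^ 2 - sq y))) y * h s := fun y => by
      simp only [Set.indicator, mem_ofPred_eq]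
      split_ifs <;> simp
    simp only [e3]
    have hm : Measurable fun y : Fin (n + 1) → ℝ => ENNReal.ofReal (s / Real.sqrt (s ^ 2 - sq y)) :=
      (measurable_const.div ((measurable_const.sub measurable_sq).sqrt)).ennreal_ofReal
    rw [lintegral_mul_const _ (hm.indicator (measurableSet_lt measurable_sq measurable_const)),
      lintegral_indicator (measurableSet_lt measurable_sq measurable_const), dens,
      ofReal_integral_eq_lintegral_ofReal (integrableOn_dens n ht0.le (by linarith) hs0)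
        (Filter.Eventually.of_forall fun y => by positivity)]
  · refine Measurable.aemeasurable ?_
    have : (fun p : (Fin (n + 1) → ℝ) × ℝ => {s : ℝ | sq p.1 < lensA t s}.indicator
        (fun s => ENNReal.ofReal (s / Real.sqrt (s ^ 2 - sq p.1)) * h s) p.2) =
        {p : (Fin (n + 1) → ℝ) × ℝ | sq p.1 < lensA t p.2}.indicator
          (fun p => ENNReal.ofReal (p.2 / Real.sqrt (p.2 ^ 2 - sq p.1)) * h p.2) := rfl
    change Measurable fun p : (Fin (n + 1) → ℝ) × ℝ => {s : ℝ | sq p.1 < lensA t s}.indicator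
        (fun s => ENNReal.ofReal (s / Real.sqrt (s ^ 2 - sq p.1)) * h s) p.2
    rw [this]
    refine Measurable.indicator ?_ ?_
    · exact (measurable_snd.div (((measurable_snd.pow_const 2).sub
        (measurable_sq.comp measurable_fst)).sqrt)).ennreal_ofReal.mul (hh.comp measurable_snd)
    · exact measurableSet_lt (measurable_sq.comp measurable_fst)
        ((by unfold lensA; fun_prop : Measurable (lensA t)).comp measurable_snd)

end Vale.Agent.P137.Radial
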