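import Vale.Agent.P137.RadialOctave

/-!
# P137: the variation of the supremum over finitely many octaves
-/

open MeasureTheory Finset

namespace Vale.Agent.P137.Radial

namespace Ker

variable (k : Ker)

/-- The supremum over the octaves `τ₀, 2 τ₀, ..., 2^i τ₀`. -/
noncomputable def run (φ : ℝ → ℝ) (c τ₀ : ℝ) : ℕ → ℝ → ℝ
  | 0 => k.octave φ c τ₀
  | i + 1 => fun x => max (run φ c τ₀ i x) (k.octave φ c (τ₀ * 2 ^ (i + 1)) x)

/-- Lipschitz and constant outside `[6 T, (N + 2) T]`. -/
def Tame (φ : ℝ → ℝ) (c : ℝ) (N : ℕ) (f : ℝ → ℝ) : Prop :=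
  (∃ L, LipschitzWith L f) ∧ (∀ x < 6 * k.T, f x = c) ∧
    ∀ x, ((N : ℝ) + 2) * k.T < x → f x = c + ∫ s, φ s

lemma integral_windows_le {φ : ℝ → ℝ} (hφ : Integrable φ) {s : ℝ} (hs : 0 ≤ s) (n : ℕ) :
    ∑ j ∈ range n, (∫ x in (j : ℝ) * s..((j : ℝ) + 8) * s, |φ x|) ≤ 8 * ∫ x, |φ x| := by
  have hi : ∀ a b, IntervalIntegrable (fun x => |φ x|) volume a b :=
    fun a b => hφ.abs.intervalIntegrable
  have e : ∀ j : ℕ, ∫ x in (j : ℝ) * s..((j : ℝ) + 8) * s, |φ x| =
      ∑ r ∈ range 8, ∫ x in ((j : ℝ) + r) * s..((j : ℝ) + r + 1) * s, |φ x| := by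
    intro j
    have := intervalIntegral.sum_integral_adjacent_intervals (n := 8)
      (a := fun r : ℕ => ((j : ℝ) + r) * s) (f := fun x => |φ x|) (μ := volume) (fun r _ => hi _ _)
    simp only [Nat.cast_zero, add_zero, Nat.cast_ofNat, Nat.cast_add, Nat.cast_one,
      ← add_assoc] at this
    exact this.symm
  simp only [e]
  rw [Finset.sum_comm]
  refine le_trans (Finset.sum_le_card_nsmul _ _ (∫ x, |φ x|) fun r _ => ?_) (le_of_eq ?_)
  · have := intervalIntegral.sum_integral_adjacent_intervals (n := n)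
      (a := fun j : ℕ => ((j : ℝ) + r) * s) (f := fun x => |φ x|) (μ := volume) (fun r _ => hi _ _)
    simp only [Nat.cast_add, Nat.cast_one, Nat.cast_zero, zero_add, add_right_comm _ (1 : ℝ)] at this
    rw [this, intervalIntegral.integral_of_le (mul_le_mul_of_nonneg_right (by simp) hs)]
    exact setIntegral_le_integral hφ.abs (Filter.Eventually.of_forall fun x => abs_nonneg _)
  · simp

variable {φ : ℝ → ℝ} {c : ℝ} {N : ℕ}

lemma tame_integral {f : ℝ → ℝ} (hf : k.Tame φ c N f) {a b : ℝ} (ha : a ≤ 5 * k.T)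
    (hb : ((N : ℝ) + 3) * k.T ≤ b) : ∫ x in a..b, |deriv f x| = ∫ x, |deriv f x| := by
  refine intervalIntegral.integral_eq_integral_of_support_subset fun x hx => ?_
  have hT := k.T_pos
  rw [Function.mem_support] at hx
  by_contra h
  apply hx
  rw [abs_eq_zero]
  rw [Set.mem_Ioc, not_and_or, not_lt, not_le] at h
  rcases h with h | h
  · rw [Filter.EventuallyEq.deriv_eq (f := fun _ => c) (Filter.eventuallyEq_of_mem
      (isOpen_Iio.mem_nhds (show x < 6 * k.T by linarith)) fun y hy => hf.2.1 y hy), deriv_const]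
  · rw [Filter.EventuallyEq.deriv_eq (f := fun _ => c + ∫ s, φ s) (Filter.eventuallyEq_of_mem
      (isOpen_Ioi.mem_nhds (show ((N : ℝ) + 2) * k.T < x by linarith)) fun y hy => hf.2.2 y hy),
      deriv_const]

lemma tame_octave (hφ : Integrable φ) (hsL : ∀ s < 8 * k.T, φ s = 0)
    (hsR : ∀ s, (N : ℝ) * k.T < s → φ s = 0) {t : ℝ} (h0 : 0 < t) (hT : t ≤ k.T) :
    k.Tame φ c N (k.octave φ c t) := by
  have hne : (Set.Icc (t / 2) t).Nonempty := ⟨t, by linarith, le_rfl⟩
  refine ⟨⟨Real.toNNReal (4 * k.C / t * ∫ s, |φ s|), LipschitzWith.of_dist_le' fun a b => ?_⟩,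
    fun x hx => ?_, fun x hx => ?_⟩
  · exact k.octave_lip hφ c h0 hT a b
  · rw [octave, Set.image_congr (g := fun _ => c) fun r hr => k.avg_left c hsL (by linarith [hr.1])
      (hr.2.trans hT) (by linarith [hr.2]), hne.image_const, csSup_singleton]
  · rw [octave, Set.image_congr (g := fun _ => c + ∫ s, φ s) fun r hr => k.avg_right c hsR
      (by linarith [hr.1]) (hr.2.trans hT) (by linarith [hr.2]), hne.image_const, csSup_singleton]

lemma tame_run (hφ : Integrable φ) (hsL : ∀ s < 8 * k.T, φ s = 0)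
    (hsR : ∀ s, (N : ℝ) * k.T < s → φ s = 0) {τ₀ : ℝ} (h0 : 0 < τ₀) :
    ∀ i, τ₀ * 2 ^ i ≤ k.T → k.Tame φ c N (k.run φ c τ₀ i)
  | 0, h => k.tame_octave hφ hsL hsR h0 (by simpa using h)
  | i + 1, h => by
    have h' : τ₀ * 2 ^ i ≤ k.T := le_trans (by rw [pow_succ]; nlinarith [pow_pos (two_pos (α := ℝ)) i]) h
    obtain ⟨⟨L, hL⟩, l1, r1⟩ := tame_run hφ hsL hsR h0 i h'
    obtain ⟨⟨L', hL'⟩, l2, r2⟩ :=
      k.tame_octave (c := c) hφ hsL hsR (show 0 < τ₀ * 2 ^ (i + 1) by positivity) h
    exact ⟨⟨_, hL.max hL'⟩, fun x hx => by simp [run, l1 x hx, l2 x hx],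
      fun x hx => by simp [run, r1 x hx, r2 x hx]⟩

lemma octave_le_run {τ₀ : ℝ} : ∀ (i : ℕ) (x : ℝ), k.octave φ c (τ₀ * 2 ^ i) x ≤ k.run φ c τ₀ i x
  | 0, x => by simp [run]
  | i + 1, x => le_max_right _ _

lemma run_succ_le (hφ : Integrable φ) (hsL : ∀ s < 8 * k.T, φ s = 0)
    (hsR : ∀ s, (N : ℝ) * k.T < s → φ s = 0) {K M i : ℕ} (hM : 0 < M) (hi : i < K) :
    ∫ x, |deriv (k.run φ c (k.T / 2 ^ K) (i + 1)) x| ≤
      (∫ x, |deriv (k.run φ c (k.T / 2 ^ K) i) x|) + 168 * k.C ^ 3 *
        ∑ j ∈ range ((N + 4) * 2 ^ (K - (i + 1)) + 1),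
          winCharge φ c (k.T / 2 ^ K / M) (2 ^ (i + 1) * M) j := by
  have hTp := k.T_pos
  have hC := k.C_pos
  set τ₀ := k.T / 2 ^ K with hτ₀
  set h := τ₀ / M with hh
  set P := 2 ^ (i + 1) * M with hP
  set t := (P : ℝ) * h with ht
  set n := (N + 4) * 2 ^ (K - (i + 1)) with hn
  have h0 : 0 < τ₀ := by positivity
  have hh0 : 0 < h := by positivity
  have hP0 : 0 < P := by positivity
  have ht0 : 0 < t := by positivity
  have et : t = τ₀ * 2 ^ (i + 1) := by
    simp only [ht, hP, hh]; push_cast; field_simp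
  have hle : ∀ l ≤ K, τ₀ * 2 ^ l ≤ k.T := fun l hl => by
    rw [hτ₀, div_mul_eq_mul_div, div_le_iff₀ (by positivity)]
    exact mul_le_mul_of_nonneg_left (pow_le_pow_right₀ one_le_two hl) hTp.le
  have htT : t ≤ k.T := et ▸ hle _ hi
  have hnt : (n : ℝ) * t = ((N : ℝ) + 4) * k.T := by
    rw [et, hn, hτ₀]
    push_cast
    have e : (2 : ℝ) ^ K = 2 ^ (K - (i + 1)) * 2 ^ (i + 1) := by
      rw [← pow_add, Nat.sub_add_cancel hi]
    rw [e]
    field_simp
  set u := k.run φ c τ₀ i with hu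
  set G := k.octave φ c t with hG
  have tu : k.Tame φ c N u := k.tame_run hφ hsL hsR h0 i (hle i hi.le)
  have tm : k.Tame φ c N (k.run φ c τ₀ (i + 1)) := k.tame_run hφ hsL hsR h0 (i + 1) (hle _ hi)
  have em : k.run φ c τ₀ (i + 1) = fun x => max (u x) (G x) := by
    funext x; simp [run, hu, hG, et]
  have tG : k.Tame φ c N G := k.tame_octave hφ hsL hsR ht0 htT
  obtain ⟨⟨Lu, hLu⟩, ul, ur⟩ := tu
  obtain ⟨⟨LG, hLG⟩, Gl, Gr⟩ := tG
  set E : ℕ → ℝ := fun j => winCharge φ c h P j with hE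
  have hE0 : ∀ j, 0 ≤ E j := fun j => winCharge_nonneg hφ c hh0.le P j
  set o : ℕ → ℝ := fun j => winSign φ c h P j with ho
  set D : ℕ → ℝ := fun j => max (G (((j : ℝ) + 4) * t) - u (((j : ℝ) + 4) * t)) 0 with hD
  have cell : ∀ j : ℕ, (∫ x in ((j : ℝ) + 4) * t..((j : ℝ) + 5) * t, |deriv (fun y => max (u y) (G y)) x|) -
      (∫ x in ((j : ℝ) + 4) * t..((j : ℝ) + 5) * t, |deriv u x|) ≤
      o (j + 1) * D (j + 1) - o j * D j + 84 * k.C ^ 3 * (E j + E (j + 1)) := by
    intro j
    have := increase_le (u := u) (G := G) hLu hLG (a := ((j : ℝ) + 4) * t) (b := ((j : ℝ) + 5) * t)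
      (o₀ := o j) (o₁ := o (j + 1)) (K := k.C) (E₀ := 14 * k.C * E j) (E₁ := 14 * k.C * E (j + 1))
      (by nlinarith) (winSign_eq c h P j) (winSign_eq c h P (j + 1)) k.one_le_C
      (by have := hE0 j; positivity) (by have := hE0 (j + 1); positivity) fun τ hτ d hd => by
        have e : ((j : ℝ) + 5) * t - ((j : ℝ) + 4) * t = t := by ring
        rw [e]
        have one : ∀ j', (j' = j ∨ j' = j + 1) →
            -(o j' * d) ≤ k.C * (14 * k.C * E j') / t ∧
            max (G τ - u τ) 0 ≤ k.C * t * (o j' * d) + k.C * (14 * k.C * E j') := by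
          intro j' hj'
          have w1 : ((j' : ℝ) + 2) * t ≤ τ ∧ τ + 2 * t ≤ ((j' : ℝ) + 8) * t := by
            obtain ⟨a1, a2⟩ := hτ
            rcases hj' with rfl | rfl <;> push_cast <;> constructor <;> nlinarith
          have hE' := hE0 j'
          have hos : o j' = 1 ∨ o j' = -1 := winSign_eq c h P j'
          have b1 : -(o j' * d) ≤ 3 * k.C * E j' / t := by
            refine le_of_forall_pos_le_add fun ε hε => ?_
            obtain ⟨r, hr, -, hr2⟩ := k.octave_deriv hφ c ht0 htT hd hε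
            have := (k.window_bounds hφ c hh0 hP0 htT j' w1.1 w1.2 hr).1
            rw [abs_le] at hr2
            simp only [ho, hE] at *
            rcases hos with e' | e' <;> rw [e'] at this ⊢ <;> linarith
          have b2 : G τ - u τ ≤ k.C * t * (o j' * d) + 14 * k.C ^ 2 * E j' := by
            refine le_of_forall_pos_le_add fun ε hε => ?_
            have hε' : 0 < ε / (k.C * t + 1) := by positivity
            obtain ⟨r, hr, hr1, hr2⟩ := k.octave_deriv hφ c ht0 htT hd hε'
            have h2 := (k.window_bounds hφ c hh0 hP0 htT j' w1.1 w1.2 hr).2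
            have h3 : k.avg φ c (t / 2) τ ≤ u τ := by
              have e2 : t / 2 = τ₀ * 2 ^ i := by rw [et, pow_succ]; ring
              rw [e2]
              exact (k.avg_le_octave hφ c (by positivity) (hle i hi.le)
                (half_le_self (by positivity)) le_rfl τ).trans (k.octave_le_run i τ)
            have h4 : k.C * t * (ε / (k.C * t + 1)) + ε / (k.C * t + 1) = ε := by field_simp
            rw [abs_le] at hr2
            have h5 := mul_le_mul_of_nonneg_left hr2.1 (show 0 ≤ k.C * t by positivity)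
            have h6 := mul_le_mul_of_nonneg_left hr2.2 (show 0 ≤ k.C * t by positivity)
            simp only [ho, hE] at *
            rcases hos with e' | e' <;> rw [e'] at h2 ⊢ <;> linarith
          have b3 : 0 ≤ k.C * t * (o j' * d) + k.C * (14 * k.C * E j') := by
            rw [le_div_iff₀ ht0] at b1
            have := mul_le_mul_of_nonneg_left b1 hC.le
            nlinarith
          have hC1 := k.one_le_C
          have z : k.C * E j' ≤ k.C * (k.C * E j') :=
            le_mul_of_one_le_left (by positivity) hC1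
          refine ⟨b1.trans ?_, max_le (b2.trans (le_of_eq (by ring))) b3⟩
          refine div_le_div_of_nonneg_right ?_ ht0.le
          nlinarith
        exact ⟨one j (Or.inl rfl), one (j + 1) (Or.inr rfl)⟩
    refine this.trans (le_of_eq ?_)
    simp only [hD]
    push_cast
    ring_nf
  have sum_cells : ∀ f : ℝ → ℝ, (∃ L, LipschitzWith L f) →
      ∑ j ∈ range n, ∫ x in ((j : ℝ) + 4) * t..((j : ℝ) + 5) * t, |deriv f x| =
        ∫ x in 4 * t..((n : ℝ) + 4) * t, |deriv f x| := by
    rintro f ⟨L, hL⟩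
    have := intervalIntegral.sum_integral_adjacent_intervals (n := n)
      (a := fun j : ℕ => ((j : ℝ) + 4) * t) (f := fun x => |deriv f x|) (μ := volume)
      (fun r _ => (hL.lipschitzOnWith.absolutelyContinuousOnInterval.intervalIntegrable_deriv).abs)
    simp only [Nat.cast_zero, zero_add, Nat.cast_add, Nat.cast_one] at this
    rw [← this]
    exact Finset.sum_congr rfl fun j _ => by ring_nf
  have hb : ((N : ℝ) + 3) * k.T ≤ ((n : ℝ) + 4) * t := by nlinarith
  have ha : 4 * t ≤ 5 * k.T := by linarith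
  rw [← k.tame_integral tm ha hb, ← k.tame_integral ⟨⟨Lu, hLu⟩, ul, ur⟩ ha hb,
    ← sum_cells u ⟨Lu, hLu⟩, ← sum_cells _ tm.1, em]
  have tot := Finset.sum_le_sum fun j (_ : j ∈ range n) => cell j
  rw [Finset.sum_sub_distrib, Finset.sum_add_distrib,
    Finset.sum_range_sub (fun j => o j * D j)] at tot
  have d0 : D 0 = 0 := by
    simp only [hD, Nat.cast_zero, zero_add]
    rw [Gl _ (by linarith), ul _ (by linarith), sub_self, max_self]
  have dn : D n = 0 := by
    simp only [hD]
    rw [Gr _ (by nlinarith), ur _ (by nlinarith), sub_self, max_self]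
  rw [d0, dn, mul_zero, mul_zero, sub_zero, zero_add, ← Finset.mul_sum, Finset.sum_add_distrib] at tot
  have t1 : ∑ j ∈ range n, E j ≤ ∑ j ∈ range (n + 1), E j := by
    rw [Finset.sum_range_succ]; linarith [hE0 n]
  have t2 : ∑ j ∈ range n, E (j + 1) ≤ ∑ j ∈ range (n + 1), E j := by
    rw [Finset.sum_range_succ' E]; linarith [hE0 0]
  have t3 := mul_le_mul_of_nonneg_left (add_le_add t1 t2) (show 0 ≤ 84 * k.C ^ 3 by positivity)
  simp only [hE] at t3 tot ⊢
  linarith

lemma run_zero_le (hφ : Integrable φ) (hsL : ∀ s < 8 * k.T, φ s = 0)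
    (hsR : ∀ s, (N : ℝ) * k.T < s → φ s = 0) (K : ℕ) :
    ∫ x, |deriv (k.run φ c (k.T / 2 ^ K) 0) x| ≤ 32 * k.C * ∫ s, |φ s| := by
  have hTp := k.T_pos
  have hC := k.C_pos
  set t := k.T / 2 ^ K with ht
  set n := (N + 4) * 2 ^ K with hn
  have ht0 : 0 < t := by positivity
  have htT : t ≤ k.T := div_le_self hTp.le (one_le_pow₀ one_le_two)
  have hnt : (n : ℝ) * t = ((N : ℝ) + 4) * k.T := by
    rw [hn, ht]; push_cast; field_simp
  have tG : k.Tame φ c N (k.octave φ c t) := k.tame_octave hφ hsL hsR ht0 htT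
  obtain ⟨⟨L, hL⟩, -, -⟩ := id tG
  have hint : ∀ a b, IntervalIntegrable (fun x => |deriv (k.octave φ c t) x|) volume a b :=
    fun a b => (hL.lipschitzOnWith.absolutelyContinuousOnInterval.intervalIntegrable_deriv).abs
  change ∫ x, |deriv (k.octave φ c t) x| ≤ _
  rw [← k.tame_integral tG (a := 4 * t) (b := ((n : ℝ) + 4) * t) (by linarith) (by nlinarith)]
  have cell : ∀ j : ℕ, ∫ x in ((j : ℝ) + 4) * t..((j : ℝ) + 5) * t, |deriv (k.octave φ c t) x| ≤
      4 * k.C * ∫ x in (j : ℝ) * t..((j : ℝ) + 8) * t, |φ x| := by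
    intro j
    set W := ∫ x in (j : ℝ) * t..((j : ℝ) + 8) * t, |φ x| with hW
    have bd : ∀ᵐ x ∂volume, x ∈ Set.Icc (((j : ℝ) + 4) * t) (((j : ℝ) + 5) * t) →
        |deriv (k.octave φ c t) x| ≤ 4 * k.C / t * W := by
      filter_upwards [hL.ae_differentiableAt_real] with x hx hxI
      refine le_of_forall_pos_le_add fun ε hε => ?_
      obtain ⟨r, hr, -, hr2⟩ := k.octave_deriv hφ c ht0 htT hx.hasDerivAt hε
      have hr0 : 0 < r := by linarith [hr.1]
      have hs : |k.slope φ r x| ≤ 4 * k.C / t * W := by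
        rw [slope, ← intervalIntegral.integral_eq_integral_of_support_subset
          (a := (j : ℝ) * t) (b := ((j : ℝ) + 8) * t) fun s hs => ?_]
        · have hle : (j : ℝ) * t ≤ ((j : ℝ) + 8) * t := by nlinarith
          refine (intervalIntegral.abs_integral_le_integral_abs hle).trans ?_
          rw [hW, ← intervalIntegral.integral_const_mul]
          refine intervalIntegral.integral_mono_on hle
            (k.integrable_slope hφ hr0 (hr.2.trans htT) x).intervalIntegrable.abs
            (hφ.abs.intervalIntegrable.const_mul _) fun s _ => ?_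
          rw [abs_mul]
          refine mul_le_mul_of_nonneg_right ((k.nu_le hr0 (hr.2.trans htT) _).trans ?_) (abs_nonneg _)
          rw [div_le_div_iff₀ hr0 ht0]
          nlinarith [hr.1]
        · rw [Function.mem_support] at hs
          have h3 : |s - x| < 2 * r := by
            by_contra h4
            exact hs (by rw [k.supp r _ hr0 (hr.2.trans htT) (not_lt.1 h4), zero_mul])
          obtain ⟨h4, h5⟩ := abs_lt.1 h3
          constructor <;> nlinarith [hr.2, hxI.1, hxI.2]
      have := abs_sub_abs_le_abs_sub (deriv (k.octave φ c t) x) (k.slope φ r x)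
      linarith
    refine (intervalIntegral.integral_mono_ae_restrict (by nlinarith) (hint _ _)
      (intervalIntegrable_const (c := 4 * k.C / t * W)) ?_).trans (le_of_eq ?_)
    · rw [Filter.EventuallyLE, ae_restrict_iff' measurableSet_Icc]
      exact bd
    · rw [intervalIntegral.integral_const, smul_eq_mul]
      field_simp
      ring
  have := intervalIntegral.sum_integral_adjacent_intervals (n := n)
    (a := fun j : ℕ => ((j : ℝ) + 4) * t) (f := fun x => |deriv (k.octave φ c t) x|) (μ := volume)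
    (fun r _ => hint _ _)
  simp only [Nat.cast_zero, zero_add, Nat.cast_add, Nat.cast_one] at this
  rw [← this]
  refine (Finset.sum_le_sum fun j _ => le_trans (le_of_eq ?_) (cell j)).trans ?_
  · ring_nf
  rw [← Finset.mul_sum]
  have := mul_le_mul_of_nonneg_left (integral_windows_le hφ ht0.le n)
    (show 0 ≤ 4 * k.C by positivity)
  linarith

lemma run_le (hφ : Integrable φ) (hsL : ∀ s < 8 * k.T, φ s = 0)
    (hsR : ∀ s, (N : ℝ) * k.T < s → φ s = 0) (K : ℕ) :
    ∫ x, |deriv (k.run φ c (k.T / 2 ^ K) K) x| ≤ 20000 * k.C ^ 3 * ∫ s, |φ s| := by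
  have hTp := k.T_pos
  have hC := k.C_pos
  set τ₀ := k.T / 2 ^ K with hτ₀
  set I := ∫ s, |φ s| with hI
  have hI0 : 0 ≤ I := integral_nonneg fun s => abs_nonneg _
  refine le_of_forall_pos_le_add fun ε hε => ?_
  obtain ⟨M, hM⟩ := exists_nat_gt ((1344 * k.C ^ 3 * ((K : ℝ) + 1) * I / ε) ^ 2 + 1)
  have hM0 : 0 < M := by
    have : (0 : ℝ) < M := by nlinarith [sq_nonneg (1344 * k.C ^ 3 * ((K : ℝ) + 1) * I / ε)]
    exact_mod_cast this
  set h := τ₀ / M with hh
  have hh0 : 0 < h := by positivity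
  set n : ℕ → ℕ := fun i => (N + 4) * 2 ^ (K - i) + 1 with hn
  have step : ∀ i ≤ K, ∫ x, |deriv (k.run φ c τ₀ i) x| ≤ 32 * k.C * I +
      168 * k.C ^ 3 * ∑ l ∈ range (i + 1), ∑ j ∈ range (n l), winCharge φ c h (2 ^ l * M) j := by
    intro i
    induction i with
    | zero =>
      intro _
      refine (k.run_zero_le hφ hsL hsR K).trans (le_add_of_nonneg_right ?_)
      exact mul_nonneg (by positivity) (Finset.sum_nonneg fun l _ => Finset.sum_nonneg fun j _ =>
        winCharge_nonneg hφ c hh0.le _ j)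
    | succ i ih =>
      intro hi
      rw [Finset.sum_range_succ _ (i + 1), mul_add]
      have h1 := k.run_succ_le (c := c) hφ hsL hsR (M := M) hM0 (show i < K by omega)
      have h2 := ih (by omega)
      simp only [hn, hh, hτ₀, hI] at *
      linarith
  refine (step K le_rfl).trans ?_
  set Lm := (N + 13) * 2 ^ K * M with hLm
  have hw : ∀ i < K + 1, ∀ j < n i, (j + 8) * (2 ^ i * M) ≤ Lm := by
    intro i hi j hj
    have e : 2 ^ (K - i) * 2 ^ i = 2 ^ K := by rw [← pow_add, Nat.sub_add_cancel (by omega)]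
    have e2 : 2 ^ i ≤ 2 ^ K := Nat.pow_le_pow_right two_pos (by omega)
    calc (j + 8) * (2 ^ i * M) ≤ ((N + 4) * 2 ^ (K - i) + 8) * (2 ^ i * M) :=
          Nat.mul_le_mul_right _ (by simp only [hn] at hj; omega)
      _ = ((N + 4) * (2 ^ (K - i) * 2 ^ i) + 8 * 2 ^ i) * M := by ring
      _ ≤ ((N + 4) * 2 ^ K + 9 * 2 ^ K) * M := by
          rw [e]; exact Nat.mul_le_mul_right _ (by omega)
      _ = Lm := by rw [hLm]; ring
  set x : ℕ → ℝ := fun l => prim φ c (l * h) with hx
  have hint : ∀ a b, IntervalIntegrable (fun s => |φ s|) volume a b :=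
    fun a b => hφ.abs.intervalIntegrable
  have hvar : ∑ l ∈ range Lm, |x (l + 1) - x l| ≤ I := by
    have := intervalIntegral.sum_integral_adjacent_intervals (n := Lm)
      (a := fun l : ℕ => (l : ℝ) * h) (f := fun s => |φ s|) (μ := volume) (fun r _ => hint _ _)
    calc ∑ l ∈ range Lm, |x (l + 1) - x l|
        ≤ ∑ l ∈ range Lm, ∫ s in (l : ℝ) * h..((l + 1 : ℕ) : ℝ) * h, |φ s| := by
          refine Finset.sum_le_sum fun l _ => ?_
          simp only [hx]
          rw [prim_sub hφ c]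
          exact intervalIntegral.abs_integral_le_integral_abs (by push_cast; linarith)
      _ ≤ I := by
          rw [this, intervalIntegral.integral_of_le (by simp only [Nat.cast_zero, zero_mul]; positivity)]
          exact setIntegral_le_integral hφ.abs (Filter.Eventually.of_forall fun s => abs_nonneg _)
  have hch := sum_charge_le (x := x) (B := |c| + I) (fun l => abs_prim_le hφ c _) hM0 (K + 1) n Lm hw
  have herr : ∀ l ∈ range (K + 1), ∑ j ∈ range (n l),
      (Real.sqrt (1 / ((2 ^ l * M : ℕ) : ℝ)) *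
        ∫ s in ((j * (2 ^ l * M) : ℕ) : ℝ) * h..(((j + 8) * (2 ^ l * M) : ℕ) : ℝ) * h, |φ s|) ≤
      Real.sqrt (1 / (M : ℝ)) * (8 * I) := by
    intro l _
    rw [← Finset.mul_sum]
    refine mul_le_mul (Real.sqrt_le_sqrt ?_) ?_ ?_ (Real.sqrt_nonneg _)
    · refine one_div_le_one_div_of_le (by exact_mod_cast hM0) ?_
      exact_mod_cast Nat.le_mul_of_pos_left M (by positivity)
    · have := integral_windows_le hφ (s := ((2 ^ l * M : ℕ) : ℝ) * h) (by positivity) (n l)
      push_cast at this ⊢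
      simpa only [← mul_assoc] using this
    · refine Finset.sum_nonneg fun j _ => intervalIntegral.integral_nonneg ?_ fun s _ => abs_nonneg _
      exact mul_le_mul_of_nonneg_right (by exact_mod_cast Nat.mul_le_mul_right _ (Nat.le_add_right j 8)) hh0.le
  have hsum : ∑ l ∈ range (K + 1), ∑ j ∈ range (n l), winCharge φ c h (2 ^ l * M) j ≤
      108 * I + ((K : ℝ) + 1) * (Real.sqrt (1 / (M : ℝ)) * (8 * I)) := by
    simp only [winCharge, Finset.sum_add_distrib]
    refine add_le_add (le_trans (le_of_eq ?_) (hch.trans (mul_le_mul_of_nonneg_left hvar (by norm_num))))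
      ((Finset.sum_le_card_nsmul _ _ _ herr).trans (le_of_eq ?_))
    · simp [hx, hI]
    · simp [nsmul_eq_mul]
  have h1 := mul_le_mul_of_nonneg_left hsum (show 0 ≤ 168 * k.C ^ 3 by positivity)
  have h2 : 1344 * k.C ^ 3 * ((K : ℝ) + 1) * I * Real.sqrt (1 / (M : ℝ)) ≤ ε := by
    set Q := 1344 * k.C ^ 3 * ((K : ℝ) + 1) * I with hQ
    have hQ0 : 0 ≤ Q := by positivity
    rw [Real.sqrt_div' _ (by positivity), Real.sqrt_one, mul_one_div,
      div_le_iff₀ (Real.sqrt_pos.2 (by exact_mod_cast hM0))]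
    have h3 : Q / ε ≤ Real.sqrt M := Real.le_sqrt_of_sq_le (by linarith)
    rw [div_le_iff₀ hε] at h3
    linarith
  have h3 : k.C ≤ k.C ^ 3 := le_self_pow₀ k.one_le_C (by norm_num)
  have h4 := mul_le_mul_of_nonneg_right h3 hI0
  nlinarith [mul_nonneg (pow_nonneg hC.le 3) hI0]

end Ker

end Vale.Agent.P137.Radial
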