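import Vale.Agent.P137.RadialCrossing

/-!
# P137: the level-crossing charge of a window
-/

open MeasureTheory Finset

namespace Vale.Agent.P137.Radial

/-- The indicator of `{l | lam < x l}`. -/
noncomputable def level (x : ℕ → ℝ) (lam : ℝ) (l : ℕ) : ℝ := if lam < x l then 1 else 0

/-- The crossing charge of the block `[p, q)`, gaps measured in units of `c`. -/
noncomputable def charge (x : ℕ → ℝ) (B c : ℝ) (p q : ℕ) : ℝ :=
  ∫ lam in (-B)..B, pairSum (level x lam) (fun l m => Real.sqrt (((m : ℝ) - l) / c)) p q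

lemma level_mem (x : ℕ → ℝ) (lam : ℝ) (l : ℕ) : level x lam l = 0 ∨ level x lam l = 1 := by
  unfold level; split_ifs <;> simp

lemma measurable_step (a : ℝ) : Measurable fun lam : ℝ => if lam < a then (1 : ℝ) else 0 :=
  Measurable.ite (measurableSet_lt measurable_id measurable_const) measurable_const measurable_const

lemma intervalIntegrable_of_bound {g : ℝ → ℝ} (hg : Measurable g) {C : ℝ} (hC : ∀ x, |g x| ≤ C)
    (a b : ℝ) : IntervalIntegrable g volume a b :=
  IntervalIntegrable.mono_fun' (intervalIntegrable_const (c := C)) hg.aestronglyMeasurable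
    (Filter.Eventually.of_forall fun x => by simpa using hC x)

lemma measurable_level (x : ℕ → ℝ) (l : ℕ) : Measurable fun lam => level x lam l :=
  measurable_step (x l)

lemma measurable_flip (x : ℕ → ℝ) (l : ℕ) : Measurable fun lam => flip' (level x lam) l :=
  ((measurable_level x (l + 1)).sub (measurable_level x l)).abs

lemma measurable_pairInd (x : ℕ → ℝ) (l m : ℕ) :
    Measurable fun lam => pairInd (level x lam) l m :=
  ((measurable_flip x l).mul (measurable_flip x m)).mul
    (Finset.measurable_prod _ fun i _ => measurable_const.sub (measurable_flip x i))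

lemma pairInd_le_one {b : ℕ → ℝ} (hb : ∀ l, b l = 0 ∨ b l = 1) (l m : ℕ) : pairInd b l m ≤ 1 :=
  mul_le_one₀ (mul_le_one₀ (flip_mem hb l).2 (flip_mem hb m).1 (flip_mem hb m).2)
    (Finset.prod_nonneg fun i _ => sub_nonneg.2 (flip_mem hb i).2)
    (Finset.prod_le_one (fun i _ => sub_nonneg.2 (flip_mem hb i).2)
      fun i _ => sub_le_self _ (flip_mem hb i).1)

lemma intervalIntegrable_pairSum (x : ℕ → ℝ) (v : ℕ → ℕ → ℝ) (p q : ℕ) (a b : ℝ) :
    IntervalIntegrable (fun lam => pairSum (level x lam) v p q) volume a b := by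
  refine intervalIntegrable_of_bound ?_ (C := ∑ m ∈ Ico p q, ∑ l ∈ Ico p m, |v l m|) (fun lam => ?_) a b
  · exact Finset.measurable_sum _ fun m _ => Finset.measurable_sum _ fun l _ =>
      (measurable_pairInd x l m).mul_const _
  · refine (Finset.abs_sum_le_sum_abs _ _).trans (Finset.sum_le_sum fun m _ => ?_)
    refine (Finset.abs_sum_le_sum_abs _ _).trans (Finset.sum_le_sum fun l _ => ?_)
    rw [abs_mul, abs_of_nonneg (pairInd_nonneg (level_mem x lam) l m)]
    exact mul_le_of_le_one_left (abs_nonneg _) (pairInd_le_one (level_mem x lam) l m)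

lemma charge_nonneg (x : ℕ → ℝ) {B : ℝ} (hB : 0 ≤ B) (c : ℝ) (p q : ℕ) : 0 ≤ charge x B c p q :=
  intervalIntegral.integral_nonneg (by linarith) fun lam _ =>
    pairSum_nonneg (level_mem x lam) (fun _ _ => Real.sqrt_nonneg _) p q

lemma integral_step {a B : ℝ} (ha : |a| ≤ B) :
    ∫ lam in (-B)..B, (if lam < a then (1 : ℝ) else 0) = a + B := by
  obtain ⟨h1, h2⟩ := abs_le.1 ha
  have hi : ∀ u v : ℝ, IntervalIntegrable (fun lam => if lam < a then (1 : ℝ) else 0) volume u v :=
    intervalIntegrable_of_bound (measurable_step a) (C := 1) fun x => by split_ifs <;> simp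
  rw [← intervalIntegral.integral_add_adjacent_intervals (hi (-B) a) (hi a B),
    intervalIntegral.integral_congr_ae (g := fun _ => (1 : ℝ)),
    intervalIntegral.integral_congr_ae (a := a) (b := B) (g := fun _ => (0 : ℝ))]
  · simp [sub_neg_eq_add]
  · refine Filter.Eventually.of_forall fun lam h => ?_
    rw [Set.uIoc_of_le h2] at h
    exact if_neg (not_lt.2 h.1.le)
  · have : ∀ᵐ lam : ℝ, lam ≠ a := (measure_eq_zero_iff_ae_notMem.1 Real.volume_singleton).mono
      fun lam h => by simpa using h
    filter_upwards [this] with lam hne h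
    rw [Set.uIoc_of_le h1] at h
    exact if_pos (lt_of_le_of_ne h.2 hne)

lemma sign_sum_le_charge {x w : ℕ → ℝ} {B c H : ℝ} (hx : ∀ l, |x l| ≤ B) (hH : 0 ≤ H)
    {p q : ℕ} (hpq : p ≤ q) (hw : ∀ l, 0 ≤ w l)
    (hh : ∀ l m, p ≤ l → l < m → m < q → |w l - w m| ≤ H * Real.sqrt (((m : ℝ) - l) / c))
    {o : ℝ} (ho : o = 1 ∨ o = -1) (h : 0 ≤ o * (x q - x p)) :
    -(o * ∑ l ∈ Ico p q, w l * (x (l + 1) - x l)) ≤ H * charge x B c p q := by
  have hB : 0 ≤ B := (abs_nonneg _).trans (hx 0)
  have hi : ∀ l, IntervalIntegrable (fun lam => level x lam l) volume (-B) B := fun l =>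
    intervalIntegrable_of_bound (measurable_level x l) (C := 1)
      (fun lam => by rcases level_mem x lam l with e | e <;> simp [e]) _ _
  have e : -(o * ∑ l ∈ Ico p q, w l * (x (l + 1) - x l)) = ∫ lam in (-B)..B,
      -(o * ∑ l ∈ Ico p q, w l * (level x lam (l + 1) - level x lam l)) := by
    rw [intervalIntegral.integral_neg, intervalIntegral.integral_const_mul,
      intervalIntegral.integral_finsetSum fun l _ => (((hi (l + 1)).sub (hi l)).const_mul (w l))]
    congr 2
    refine Finset.sum_congr rfl fun l _ => ?_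
    rw [intervalIntegral.integral_const_mul, intervalIntegral.integral_sub (hi _) (hi _)]
    simp only [level]
    rw [integral_step (hx _), integral_step (hx _)]
    ring
  rw [e, charge, ← intervalIntegral.integral_const_mul]
  refine intervalIntegral.integral_mono_on (by linarith) ?_
    ((intervalIntegrable_pairSum x _ p q _ _).const_mul H) fun lam _ => ?_
  · refine IntervalIntegrable.neg ?_
    refine IntervalIntegrable.const_mul ?_ o
    have := IntervalIntegrable.sum (Ico p q)
      (f := fun l lam => w l * (level x lam (l + 1) - level x lam l))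
      fun l _ => ((hi (l + 1)).sub (hi l)).const_mul (w l)
    simpa only [Finset.sum_fn] using this
  · refine (sign_sum_le (level_mem x lam) hw hpq ho ?_).trans ?_
    · unfold level
      rcases ho with rfl | rfl <;> split_ifs <;> first | (norm_num; done) | linarith
    · rw [pairSum, pairSum, Finset.mul_sum]
      refine Finset.sum_le_sum fun m hm => ?_
      rw [Finset.mul_sum]
      refine Finset.sum_le_sum fun l hl => ?_
      rw [Finset.mem_Ico] at hm hl
      calc pairInd (level x lam) l m * |w l - w m|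
          ≤ pairInd (level x lam) l m * (H * Real.sqrt (((m : ℝ) - l) / c)) :=
            mul_le_mul_of_nonneg_left (hh l m hl.1 hl.2 hm.2) (pairInd_nonneg (level_mem x lam) l m)
        _ = _ := by ring

lemma sum_charge_le {x : ℕ → ℝ} {B : ℝ} (hx : ∀ l, |x l| ≤ B) {M : ℕ} (hM : 0 < M) (K : ℕ)
    (n : ℕ → ℕ) (Lm : ℕ) (hn : ∀ i < K, ∀ j < n i, (j + 8) * (2 ^ i * M) ≤ Lm) :
    ∑ i ∈ range K, ∑ j ∈ range (n i),
      charge x B (2 ^ i * M) (j * (2 ^ i * M)) ((j + 8) * (2 ^ i * M)) ≤
      108 * ∑ l ∈ range Lm, |x (l + 1) - x l| := by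
  have hB : 0 ≤ B := (abs_nonneg _).trans (hx 0)
  have hf : ∀ l, IntervalIntegrable (fun lam => flip' (level x lam) l) volume (-B) B := fun l =>
    intervalIntegrable_of_bound (measurable_flip x l) (C := 1)
      (fun lam => by rw [abs_of_nonneg (flip_mem (level_mem x lam) l).1]
                     exact (flip_mem (level_mem x lam) l).2) _ _
  have e : ∀ l, ∫ lam in (-B)..B, flip' (level x lam) l = |x (l + 1) - x l| := by
    intro l
    have e1 : ∀ lam, flip' (level x lam) l =
        (if lam < max (x (l + 1)) (x l) then (1 : ℝ) else 0) -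
          (if lam < min (x (l + 1)) (x l) then (1 : ℝ) else 0) := by
      intro lam
      unfold flip' level
      rcases le_total (x l) (x (l + 1)) with h | h
      · rw [max_eq_left h, min_eq_right h]
        split_ifs <;> first | (norm_num; done) | linarith
      · rw [max_eq_right h, min_eq_left h]
        split_ifs <;> first | (norm_num; done) | linarith
    have b1 : |max (x (l + 1)) (x l)| ≤ B := by
      rcases max_choice (x (l + 1)) (x l) with h | h <;> rw [h] <;> apply hx
    have b2 : |min (x (l + 1)) (x l)| ≤ B := by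
      rcases min_choice (x (l + 1)) (x l) with h | h <;> rw [h] <;> apply hx
    simp only [e1]
    rw [intervalIntegral.integral_sub
      (intervalIntegrable_of_bound (measurable_step _) (C := 1) (fun x => by split_ifs <;> simp) _ _)
      (intervalIntegrable_of_bound (measurable_step _) (C := 1) (fun x => by split_ifs <;> simp) _ _),
      integral_step b1, integral_step b2, add_sub_add_right_eq_sub, max_sub_min_eq_abs, abs_sub_comm]
  simp only [← e, charge]
  rw [← intervalIntegral.integral_finsetSum fun l _ => hf l, ← intervalIntegral.integral_const_mul,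
    Finset.sum_congr rfl fun i _ =>
      (intervalIntegral.integral_finsetSum fun j _ => intervalIntegrable_pairSum x _ _ _ _ _).symm,
    ← intervalIntegral.integral_finsetSum ?_]
  · refine intervalIntegral.integral_mono_on (by linarith) ?_ ?_ fun lam _ => ?_
    · simpa only [Finset.sum_fn] using IntervalIntegrable.sum (range K)
        (f := fun i lam => ∑ j ∈ range (n i), pairSum (level x lam)
          (fun l m => Real.sqrt (((m : ℝ) - l) / (2 ^ i * M))) (j * (2 ^ i * M)) ((j + 8) * (2 ^ i * M)))
        fun i _ => by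
          simpa only [Finset.sum_fn] using IntervalIntegrable.sum (range (n i))
            fun j _ => intervalIntegrable_pairSum x _ _ _ _ _
    · refine IntervalIntegrable.const_mul ?_ _
      simpa only [Finset.sum_fn] using IntervalIntegrable.sum (range Lm) fun l _ => hf l
    · exact count_le (level_mem x lam) hM K n Lm hn
  · intro i _
    simpa only [Finset.sum_fn] using IntervalIntegrable.sum (range (n i))
      fun j _ => intervalIntegrable_pairSum x _ _ _ _ _

/-- A window of eight cells at scale `P h`: against the net change the integral is at most the charge. -/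
lemma sign_integral_le {φ w : ℝ → ℝ} (hφ : Integrable φ) (hw : ∀ s, 0 ≤ w s) (hwc : Continuous w)
    {Φ : ℝ → ℝ} (hΦ : ∀ a b, Φ b - Φ a = ∫ s in a..b, φ s) {B : ℝ} (hB : ∀ s, |Φ s| ≤ B)
    {h : ℝ} (hh : 0 < h) {P H : ℝ} (hP : 0 < P) (hH : 0 ≤ H)
    (hol : ∀ a b, |w a - w b| ≤ H * Real.sqrt (|a - b| / (P * h)))
    {p q : ℕ} (hpq : p ≤ q) {o : ℝ} (ho : o = 1 ∨ o = -1)
    (hsgn : 0 ≤ o * (Φ (q * h) - Φ (p * h))) :
    -(o * ∫ s in (p * h)..(q * h), w s * φ s) ≤
      H * (charge (fun l : ℕ => Φ (l * h)) B P p q +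
        Real.sqrt (1 / P) * ∫ s in (p * h)..(q * h), |φ s|) := by
  have hint : ∀ u v, IntervalIntegrable φ volume u v := fun u v => hφ.intervalIntegrable
  have hwi : ∀ u v, IntervalIntegrable (fun s => w s * φ s) volume u v := fun u v =>
    (hint u v).continuousOn_mul hwc.continuousOn
  have e1 : ∫ s in (p * h)..(q * h), w s * φ s =
      ∑ l ∈ Ico p q, ∫ s in (l * h)..(((l + 1 : ℕ) : ℝ) * h), w s * φ s :=
    (intervalIntegral.sum_integral_adjacent_intervals_Ico (a := fun l : ℕ => (l : ℝ) * h) hpq
      fun k _ => hwi _ _).symm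
  have e2 : ∫ s in (p * h)..(q * h), |φ s| =
      ∑ l ∈ Ico p q, ∫ s in (l * h)..(((l + 1 : ℕ) : ℝ) * h), |φ s| :=
    (intervalIntegral.sum_integral_adjacent_intervals_Ico (a := fun l : ℕ => (l : ℝ) * h) hpq
      fun k _ => (hint _ _).abs).symm
  set x : ℕ → ℝ := fun l => Φ (l * h) with hx
  have main := sign_sum_le_charge (x := x) (w := fun l : ℕ => w (l * h)) (c := P) (fun l => hB _) hH
    hpq (fun l => hw _) (fun l m _ hlm _ => (hol _ _).trans (le_of_eq (by
      rw [abs_sub_comm, show (m : ℝ) * h - l * h = ((m : ℝ) - l) * h by ring,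
        abs_of_nonneg (mul_nonneg (sub_nonneg.2 (by exact_mod_cast hlm.le)) hh.le),
        mul_div_mul_right _ _ hh.ne']))) ho hsgn
  have err : |(∫ s in (p * h)..(q * h), w s * φ s) -
      ∑ l ∈ Ico p q, w (l * h) * (x (l + 1) - x l)| ≤
      H * (Real.sqrt (1 / P) * ∫ s in (p * h)..(q * h), |φ s|) := by
    rw [e1, e2, ← Finset.sum_sub_distrib, Finset.mul_sum, Finset.mul_sum]
    refine (Finset.abs_sum_le_sum_abs _ _).trans (Finset.sum_le_sum fun l _ => ?_)
    have hle : (l : ℝ) * h ≤ ((l + 1 : ℕ) : ℝ) * h := by push_cast; linarith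
    simp only [hx]
    rw [hΦ, ← intervalIntegral.integral_const_mul, ← intervalIntegral.integral_sub (hwi _ _)
      ((hint _ _).const_mul _), ← intervalIntegral.integral_const_mul,
      ← intervalIntegral.integral_const_mul]
    refine (intervalIntegral.abs_integral_le_integral_abs hle).trans
      (intervalIntegral.integral_mono_on hle ((hwi _ _).sub ((hint _ _).const_mul _)).abs
        (((hint _ _).abs.const_mul _).const_mul _) fun s hs => ?_)
    rw [← sub_mul, abs_mul, ← mul_assoc]
    refine mul_le_mul_of_nonneg_right ?_ (abs_nonneg _)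
    refine (hol _ _).trans (mul_le_mul_of_nonneg_left (Real.sqrt_le_sqrt ?_) hH)
    rw [div_le_div_iff₀ (by positivity) hP, abs_of_nonneg (sub_nonneg.2 hs.1)]
    have h2 : s - l * h ≤ h := by
      have := hs.2; push_cast at this; linarith
    nlinarith
  obtain ⟨a1, a2⟩ := abs_le.1 err
  rw [mul_add]
  rcases ho with rfl | rfl <;> linarith

end Vale.Agent.P137.Radial
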