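import Vale.Agent.P137.Boxing

/-!
# P137: trace estimates on coordinate hyperplanes
-/

open MeasureTheory Set
open scoped ENNReal NNReal

namespace Vale.Agent.P137

variable {d n : ℕ}

theorem ball_subset_euclBall (hd : 0 < d) (x : Fin d → ℝ) {r : ℝ} (hr : 0 < r) :
    Metric.ball x (r / d) ⊆ euclBall x r := by
  intro y hy
  have hd' : (1 : ℝ) ≤ d := by exact_mod_cast hd
  have hne : (Finset.univ : Finset (Fin d)).Nonempty := ⟨⟨0, hd⟩, Finset.mem_univ _⟩
  rw [Metric.mem_ball, dist_pi_lt_iff (by positivity)] at hy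
  have h : ∑ i, (y i - x i) ^ 2 < ∑ _i : Fin d, (r / d) ^ 2 :=
    Finset.sum_lt_sum_of_nonempty hne fun i _ => sq_lt_sq.2 (by
      rw [abs_of_pos (by positivity : (0 : ℝ) < r / d), ← Real.dist_eq]; exact hy i)
  refine h.trans_le ?_
  rw [Finset.sum_const, Finset.card_univ, Fintype.card_fin, nsmul_eq_mul]
  have e : (d : ℝ) * (r / d) ^ 2 = r ^ 2 / d := by field_simp
  rw [e]; exact div_le_self (sq_nonneg r) hd'

theorem volume_euclBall_ge (hd : 0 < d) (x : Fin d → ℝ) {r : ℝ} (hr : 0 < r) :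
    ENNReal.ofReal ((2 * (r / d)) ^ d) ≤ volume (euclBall x r) := by
  refine le_trans (le_of_eq ?_) (measure_mono (ball_subset_euclBall hd x hr))
  rw [Real.volume_pi_ball _ (by positivity), Fintype.card_fin]

/-- Decay of the maximal function of a sup-norm ball. -/
theorem centredMax_box_le (hd : 0 < d) (c : Fin d → ℝ) {R : ℝ} (hR : 0 < R) (x : Fin d → ℝ) :
    centredMax ((Metric.closedBall c R).indicator 1) x
      ≤ ENNReal.ofReal ((4 * d) ^ d) * ENNReal.ofReal ((1 + dist x c / R) ^ d)⁻¹ := by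
  set D := dist x c with hD
  have hD0 : 0 ≤ D := dist_nonneg
  have hd' : (1 : ℝ) ≤ d := by exact_mod_cast hd
  rw [← ENNReal.ofReal_mul (by positivity), ← div_eq_mul_inv, ← div_pow]
  refine iSup₂_le fun r hr => ?_
  rw [lintegral_indicator_one Metric.isClosed_closedBall.measurableSet,
    Measure.restrict_apply Metric.isClosed_closedBall.measurableSet]
  rcases (Metric.closedBall c R ∩ euclBall x r).eq_empty_or_nonempty with he | ⟨y, hyc, hyx⟩
  · simp [he]
  rcases le_or_gt D (2 * R) with hle | hgt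
  · refine le_trans (ENNReal.div_le_of_le_mul ?_) (ENNReal.one_le_ofReal.2 (one_le_pow₀ ?_))
    · rw [one_mul]; exact measure_mono inter_subset_right
    · rw [le_div_iff₀ (by positivity), one_mul]
      have : D / R ≤ 2 := by rw [div_le_iff₀ hR]; exact hle
      linarith
  · have hdist : D ≤ r + R := by
      refine (dist_triangle x y c).trans (add_le_add ?_ hyc)
      refine (dist_pi_le_iff hr.le).2 fun i => ?_
      rw [Real.dist_eq, ← abs_of_pos hr, abs_sub_comm]
      refine sq_le_sq.1 ?_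
      exact (Finset.single_le_sum (f := fun j => (y j - x j) ^ 2) (fun j _ => sq_nonneg _)
        (Finset.mem_univ i)).trans hyx.le
    have hrD : D / 2 ≤ r := by linarith
    refine (ENNReal.div_le_div (measure_mono inter_subset_left) (volume_euclBall_ge hd x hr)).trans ?_
    rw [Real.volume_pi_closedBall _ hR.le, Fintype.card_fin, ← ENNReal.ofReal_div_of_pos (by positivity),
      ← div_pow]
    refine ENNReal.ofReal_le_ofReal (pow_le_pow_left₀ (by positivity) ?_ _)
    rw [div_le_div_iff₀ (by positivity) (by positivity)]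
    have h1 : R + D ≤ 2 * D := by linarith
    field_simp
    nlinarith

/-- The universal constant in the trace of a box. -/
noncomputable def traceConst (n : ℕ) : ℝ≥0∞ :=
  ENNReal.ofReal ((4 * ((n + 1 : ℕ) : ℝ)) ^ (n + 1))
    * ∫⁻ y : Fin n → ℝ, ENNReal.ofReal ((1 + ‖y‖) ^ (-((n : ℝ) + 1)))

theorem traceConst_ne_top (n : ℕ) : traceConst n ≠ ⊤ :=
  ENNReal.mul_ne_top ENNReal.ofReal_ne_top
    (finite_integral_one_add_norm (by simp)).ne

theorem trace_box (i : Fin (n + 1)) (c : Fin (n + 1) → ℝ) {R : ℝ} (hR : 0 < R) :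
    ∫⁻ x' : Fin n → ℝ, centredMax ((Metric.closedBall c R).indicator 1) (i.insertNth 0 x')
      ≤ traceConst n * ENNReal.ofReal R ^ n := by
  set c' : Fin n → ℝ := fun j => c (i.succAbove j)
  set g : (Fin n → ℝ) → ℝ≥0∞ := fun y => ENNReal.ofReal ((1 + ‖y‖) ^ (-((n : ℝ) + 1)))
  have hg : Measurable g := by fun_prop
  have step : ∀ x' : Fin n → ℝ,
      centredMax ((Metric.closedBall c R).indicator 1) (i.insertNth 0 x')
        ≤ ENNReal.ofReal ((4 * ((n + 1 : ℕ) : ℝ)) ^ (n + 1)) * g (R⁻¹ • (x' - c')) := by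
    intro x'
    refine (centredMax_box_le n.succ_pos c hR _).trans (mul_le_mul_right (ENNReal.ofReal_le_ofReal ?_) _)
    have hd : dist x' c' ≤ dist (i.insertNth (α := fun _ => ℝ) 0 x') c := by
      refine (dist_pi_le_iff dist_nonneg).2 fun j => ?_
      refine le_trans (le_of_eq ?_) (dist_le_pi_dist _ _ (i.succAbove j))
      simp [c']
    rw [norm_smul, Real.norm_of_nonneg (inv_pos.2 hR).le, ← dist_eq_norm,
      Real.rpow_neg (by positivity), show (n : ℝ) + 1 = ((n + 1 : ℕ) : ℝ) by push_cast; ring,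
      Real.rpow_natCast, ← div_eq_inv_mul]
    gcongr
  refine (lintegral_mono step).trans (le_of_eq ?_)
  rw [lintegral_const_mul' _ _ ENNReal.ofReal_ne_top, traceConst, mul_assoc]
  congr 1
  rw [lintegral_sub_right_eq_self (fun y => g (R⁻¹ • y)) c',
    ← lintegral_map hg (measurable_const_smul R⁻¹), Measure.map_addHaar_smul volume (inv_ne_zero hR.ne'),
    lintegral_smul_measure, smul_eq_mul, mul_comm]
  congr 1
  simp [abs_of_pos hR, ENNReal.ofReal_pow hR.le]

theorem centredMax_tsum_le {ι : Type*} [Countable ι] {F : (Fin d → ℝ) → ℝ≥0∞} {a : ι → ℝ≥0∞}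
    {S : ι → Set (Fin d → ℝ)} (hS : ∀ p, MeasurableSet (S p))
    (h : ∀ᵐ y, F y ≤ ∑' p, a p * (S p).indicator 1 y) (x : Fin d → ℝ) :
    centredMax F x ≤ ∑' p, a p * centredMax ((S p).indicator 1) x := by
  refine iSup₂_le fun r hr => ?_
  have h1 : ∫⁻ y in euclBall x r, F y ≤ ∑' p, a p * ∫⁻ y in euclBall x r, (S p).indicator 1 y := by
    refine (lintegral_mono_ae (ae_restrict_of_ae h)).trans ?_
    have hmp : ∀ p, Measurable ((S p).indicator (1 : (Fin d → ℝ) → ℝ≥0∞)) := fun p =>
      measurable_one.indicator (hS p)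
    rw [lintegral_tsum fun p => ((hmp p).const_mul _).aemeasurable]
    exact ENNReal.tsum_le_tsum fun p => le_of_eq (lintegral_const_mul _ (hmp p))
  refine (ENNReal.div_le_div_right h1 _).trans ?_
  rw [div_eq_mul_inv, ← ENNReal.tsum_mul_right]
  refine ENNReal.tsum_le_tsum fun p => ?_
  rw [mul_assoc, ← div_eq_mul_inv]
  gcongr
  exact le_iSup₂_of_le r hr le_rfl

theorem ae_ne_zero : ∀ᵐ y : Fin (n + 1) → ℝ, ∀ j, y j ≠ 0 := by
  rw [ae_all_iff]
  intro j
  rw [ae_iff]
  simp only [not_not, volume_pi]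
  exact Measure.pi_hyperplane (μ := fun _ : Fin (n + 1) => (volume : Measure ℝ)) j 0

/-- A down-set is covered by the reflected enlargements of its stopped cubes. -/
theorem indicator_le_boxes {E : Set (Fin (n + 1) → ℝ)} (hE : DownSet E) (hfin : volume E ≠ ⊤)
    {y : Fin (n + 1) → ℝ} (hy : ∀ j, y j ≠ 0) :
    E.indicator 1 y ≤ ∑' p : {p // Stopped E p} × (Fin (n + 1) → Bool), (1 : ℝ≥0∞) *
      (Metric.closedBall (fun j => if p.2 j then (p.1.1.2 j : ℝ) * 2 ^ p.1.1.1
        else -((p.1.1.2 j : ℝ) * 2 ^ p.1.1.1)) (3 * 2 ^ p.1.1.1)).indicator 1 y := by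
  by_cases hyE : y ∈ E
  · rw [indicator_of_mem hyE]
    obtain ⟨p, hp, hpy⟩ := exists_stopped hE hfin (hE y (fun j => |y j|) (fun j => by simp) hyE)
      fun j => abs_pos.2 (hy j)
    refine le_trans ?_ (ENNReal.le_tsum ((⟨p, hp⟩ : {p // Stopped E p}), fun j => decide (0 < y j)))
    rw [one_mul, indicator_of_mem]
    refine (dist_pi_le_iff (by have := zpow_two_pos p.1; positivity)).2 fun j => ?_
    rw [Real.dist_eq]
    have hpj := hpy j
    rcases (hy j).lt_or_gt with h | h
    · rw [abs_of_neg h] at hpj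
      simp only [decide_eq_true_eq, not_lt.2 h.le, if_false, sub_neg_eq_add]
      rw [← abs_neg, neg_add']; exact hpj
    · rw [abs_of_pos h] at hpj
      simp only [h, decide_true, if_true]; exact hpj
  · simp [hyE]

/-- The trace constant for down-sets. -/
noncomputable def downConst (n : ℕ) : ℝ≥0∞ :=
  2 ^ (n + 1) * (traceConst n * 3 ^ n) * ((theta (n + 1))⁻¹ * 2)

theorem downConst_ne_top (n : ℕ) : downConst n ≠ ⊤ :=
  ENNReal.mul_ne_top
    (ENNReal.mul_ne_top (by simp) (ENNReal.mul_ne_top (traceConst_ne_top n) (by simp)))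
    (ENNReal.mul_ne_top (ENNReal.inv_ne_top.2 (theta_pos _)) (by simp))

theorem measurable_insert (i : Fin (n + 1)) (t : ℝ) :
    Measurable fun x' : Fin n → ℝ => i.insertNth (α := fun _ => ℝ) t x' :=
  (measurable_slice i).comp (measurable_const.prodMk measurable_id)

theorem trace_downSet {E : Set (Fin (n + 1) → ℝ)} (hE : DownSet E) (hm : MeasurableSet E)
    (hfin : volume E ≠ ⊤) (i : Fin (n + 1)) :
    ∫⁻ x' : Fin n → ℝ, centredMax (E.indicator 1) (i.insertNth 0 x')
      ≤ downConst n * ∑ j, volume (shadow E j) := by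
  set c : {p // Stopped E p} × (Fin (n + 1) → Bool) → Fin (n + 1) → ℝ := fun p j =>
    if p.2 j then (p.1.1.2 j : ℝ) * 2 ^ p.1.1.1 else -((p.1.1.2 j : ℝ) * 2 ^ p.1.1.1)
  set S := fun p => Metric.closedBall (c p) (3 * 2 ^ p.1.1.1)
  have hS : ∀ p, MeasurableSet (S p) := fun p => Metric.isClosed_closedBall.measurableSet
  have hmS : ∀ p, Measurable fun x' : Fin n → ℝ =>
      centredMax ((S p).indicator 1) (i.insertNth 0 x') := fun p =>
    (measurable_centredMax (measurable_const.indicator (hS p))).comp (measurable_insert i 0)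
  calc ∫⁻ x' : Fin n → ℝ, centredMax (E.indicator 1) (i.insertNth 0 x')
      ≤ ∫⁻ x' : Fin n → ℝ, ∑' p, centredMax ((S p).indicator 1) (i.insertNth 0 x') := by
        refine lintegral_mono fun x' => ?_
        refine (centredMax_tsum_le hS (ae_ne_zero.mono fun y hy => indicator_le_boxes hE hfin hy) _).trans
          (le_of_eq (tsum_congr fun p => one_mul _))
    _ = ∑' p, ∫⁻ x' : Fin n → ℝ, centredMax ((S p).indicator 1) (i.insertNth 0 x') :=
        lintegral_tsum fun p => (hmS p).aemeasurable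
    _ ≤ ∑' p : {p // Stopped E p} × (Fin (n + 1) → Bool),
          traceConst n * 3 ^ n * ENNReal.ofReal (2 ^ p.1.1.1) ^ n := by
        refine ENNReal.tsum_le_tsum fun p =>
          (trace_box i (c p) (by have := zpow_two_pos p.1.1.1; positivity)).trans (le_of_eq ?_)
        rw [ENNReal.ofReal_mul (by norm_num), mul_pow, mul_assoc]
        norm_num
    _ = 2 ^ (n + 1) * (traceConst n * 3 ^ n) *
          ∑' p : {p // Stopped E p}, ENNReal.ofReal (2 ^ p.1.1) ^ n := by
        rw [ENNReal.tsum_prod', ← ENNReal.tsum_mul_left]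
        refine tsum_congr fun p => ?_
        rw [tsum_fintype]
        dsimp only
        rw [Finset.sum_const, Finset.card_univ, nsmul_eq_mul, ← mul_assoc]
        simp [mul_assoc]
    _ ≤ 2 ^ (n + 1) * (traceConst n * 3 ^ n) *
          ((theta (n + 1))⁻¹ * 2 * ∑ j, ∑' p : {p // Stopped E p}, volume (changing E j p.1)) := by
        refine mul_le_mul_right ?_ _
        rw [← Summable.tsum_finsetSum (fun _ _ => ENNReal.summable), ← ENNReal.tsum_mul_left]
        refine ENNReal.tsum_le_tsum fun p => ?_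
        rw [mul_assoc]
        calc ENNReal.ofReal (2 ^ p.1.1) ^ n
            = (theta (n + 1))⁻¹ * (theta (n + 1) * ENNReal.ofReal (2 ^ p.1.1) ^ n) := by
              rw [← mul_assoc, ENNReal.inv_mul_cancel (theta_pos _) (by simp [theta]), one_mul]
          _ ≤ _ := mul_le_mul_right (stopped_boundary hE hm p.2) _
    _ ≤ _ := by
        rw [downConst, mul_assoc (2 ^ (n + 1) * (traceConst n * 3 ^ n))]
        gcongr with j
        exact tsum_changing_le hE hm j

/-- Dyadic layers control a value from both sides. -/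
theorem layers (v : ℝ≥0∞) :
    v ≤ ∑' k : ℤ, (if (2 : ℝ≥0∞) ^ k < v then 2 ^ (k + 1) else 0) ∧
      ∑' k : ℤ, (if (2 : ℝ≥0∞) ^ k < v then 2 ^ (k + 1) else 0) ≤ 4 * v := by
  rcases eq_or_ne v 0 with rfl | h0
  · simp
  rcases eq_or_ne v ⊤ with rfl | htop
  · refine ⟨?_, by simp⟩
    have hlt : ∀ k : ℤ, (2 : ℝ≥0∞) ^ k < ⊤ := fun k =>
      (ENNReal.zpow_ne_top (by norm_num) (by norm_num) k).lt_top
    refine le_of_eq (Eq.symm (top_le_iff.1 ?_))
    calc (⊤ : ℝ≥0∞) = ∑' _ : ℕ, (1 : ℝ≥0∞) := (ENNReal.tsum_const_eq_top_of_ne_zero one_ne_zero).symm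
      _ ≤ ∑' j : ℕ, (if (2 : ℝ≥0∞) ^ (j : ℤ) < ⊤ then 2 ^ ((j : ℤ) + 1) else 0) :=
          ENNReal.tsum_le_tsum fun j => by
            rw [if_pos (hlt _), show (j : ℤ) + 1 = ((j + 1 : ℕ) : ℤ) by push_cast; ring, zpow_natCast]
            exact one_le_pow₀ (by norm_num)
      _ ≤ _ := ENNReal.tsum_comp_le_tsum_of_injective Nat.cast_injective
          (fun k : ℤ => if (2 : ℝ≥0∞) ^ k < ⊤ then (2 : ℝ≥0∞) ^ (k + 1) else 0)
  obtain ⟨K, hK1, hK2⟩ := ENNReal.exists_mem_Ioc_zpow h0 htop (show (1 : ℝ≥0∞) < 2 by norm_num) (by norm_num)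
  refine ⟨hK2.trans (le_trans (by rw [if_pos hK1]) (ENNReal.le_tsum K)), ?_⟩
  have hsupp : (Function.support fun k : ℤ => if (2 : ℝ≥0∞) ^ k < v then (2 : ℝ≥0∞) ^ (k + 1) else 0)
      ⊆ range fun j : ℕ => K - (j : ℤ) := by
    intro k hk
    refine ⟨(K - k).toNat, ?_⟩
    have hkK : k ≤ K := by
      by_contra hlt
      refine hk (if_neg (not_lt.2 (hK2.trans ?_)))
      exact ENNReal.zpow_le_of_le (by norm_num) (by omega)
    simp only; omega
  have hinj : Function.Injective fun j : ℕ => K - (j : ℤ) := fun a b h => by simpa using h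
  rw [← hinj.tsum_eq hsupp]
  calc ∑' j : ℕ, (if (2 : ℝ≥0∞) ^ (K - (j : ℤ)) < v then (2 : ℝ≥0∞) ^ (K - (j : ℤ) + 1) else 0)
      ≤ ∑' j : ℕ, 2 * v * (2⁻¹ : ℝ≥0∞) ^ j := by
        refine ENNReal.tsum_le_tsum fun j => ?_
        split_ifs
        · rw [show K - (j : ℤ) + 1 = (1 + K) + -(j : ℤ) by ring,
            ENNReal.zpow_add (by norm_num) (by norm_num), ENNReal.zpow_add (by norm_num) (by norm_num),
            zpow_one, ENNReal.zpow_neg, zpow_natCast, ENNReal.inv_pow]
          gcongr
        · exact zero_le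
    _ = 4 * v := by
        rw [ENNReal.tsum_mul_left, ENNReal.tsum_geometric, ENNReal.one_sub_inv_two, inv_inv]
        ring

theorem centredMax_ne_top {f : (Fin (n + 1) → ℝ) → ℝ} (hf : BlockDecreasing f)
    (hi : ∫⁻ y, ENNReal.ofReal (f y) ≠ ⊤) {x : Fin (n + 1) → ℝ} (hx : ∀ j, x j ≠ 0) :
    centredMax (fun y => ENNReal.ofReal (f y)) x ≠ ⊤ := by
  obtain ⟨j0, hj0⟩ := Finite.exists_min fun j => |x j|
  set δ := |x j0| / 2 with hδ
  have hδ0 : 0 < δ := by have := abs_pos.2 (hx j0); positivity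
  have hB : volume (euclBall x δ) ≠ 0 :=
    (lt_of_lt_of_le (ENNReal.ofReal_pos.2 (by positivity)) (volume_euclBall_ge n.succ_pos x hδ0)).ne'
  have hA : ENNReal.ofReal (f fun j => |x j| / 2)
      + (∫⁻ y, ENNReal.ofReal (f y)) / volume (euclBall x δ) ≠ ⊤ :=
    ENNReal.add_ne_top.2 ⟨ENNReal.ofReal_ne_top, ENNReal.div_ne_top hi hB⟩
  refine ne_top_of_le_ne_top hA (iSup₂_le fun r hr => ?_)
  rcases le_or_gt r δ with hle | hgt
  · refine le_trans (ENNReal.div_le_of_le_mul ?_) le_self_add
    refine (setLIntegral_mono' (measurableSet_euclBall _ _) fun y hy => ?_).trans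
      (le_of_eq (setLIntegral_const _ _))
    refine ENNReal.ofReal_le_ofReal (hf.2 _ _ fun j => ?_)
    have h1 : |y j - x j| ≤ δ := by
      rw [← abs_of_pos hδ0]
      refine sq_le_sq.1 ?_
      exact ((Finset.single_le_sum (f := fun j => (y j - x j) ^ 2) (fun j _ => sq_nonneg _)
        (Finset.mem_univ j)).trans hy.le).trans (pow_le_pow_left₀ hr.le hle 2)
    have h2 := abs_sub_abs_le_abs_sub (x j) (y j)
    rw [abs_sub_comm] at h2
    have h3 : |x j0| ≤ |x j| := hj0 j
    rw [abs_div, abs_abs, abs_two]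
    linarith
  · exact le_add_left (ENNReal.div_le_div (setLIntegral_le_lintegral _ _)
      (measure_mono (euclBall_mono hδ0.le hgt.le)))

/-- The trace of the maximal function is controlled by the variation. -/
theorem trace_le_variation {f : (Fin (n + 1) → ℝ) → ℝ} (hf : BlockDecreasing f) (hm : Measurable f)
    (hi : ∫⁻ y, ENNReal.ofReal (f y) ≠ ⊤) (i : Fin (n + 1)) :
    ∫⁻ x' : Fin n → ℝ, centredMax (fun y => ENNReal.ofReal (f y)) (i.insertNth 0 x')
      ≤ downConst n * 4 * ((n : ℝ≥0∞) + 1) * coordVariation f := by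
  set F : (Fin (n + 1) → ℝ) → ℝ≥0∞ := fun y => ENNReal.ofReal (f y) with hF
  have hFm : Measurable F := hm.ennreal_ofReal
  set E : ℤ → Set (Fin (n + 1) → ℝ) := fun k => {y | (2 : ℝ≥0∞) ^ k < F y}
  have hEm : ∀ k, MeasurableSet (E k) := fun k => measurableSet_lt measurable_const hFm
  have hEd : ∀ k, DownSet (E k) := fun k x y h hx =>
    lt_of_lt_of_le hx (ENNReal.ofReal_le_ofReal (hf.2 x y h))
  have hEf : ∀ k, volume (E k) ≠ ⊤ := fun k => by
    refine ne_top_of_le_ne_top (ENNReal.div_ne_top hi (ENNReal.zpow_pos two_ne_zero (by norm_num) k).ne')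
      ((measure_mono fun y hy => show (2 : ℝ≥0∞) ^ k ≤ F y from le_of_lt hy).trans ?_)
    rw [ENNReal.le_div_iff_mul_le (Or.inl (ENNReal.zpow_pos two_ne_zero (by norm_num) k).ne')
      (Or.inl (ENNReal.zpow_ne_top two_ne_zero (by norm_num) k)), mul_comm]
    exact mul_meas_ge_le_lintegral hFm _
  set G : Fin (n + 1) → (Fin n → ℝ) → ℝ≥0∞ := fun j x' =>
    ⨆ m : ℕ, F (j.insertNth (1 / ((m : ℝ) + 1)) x')
  have hGm : ∀ j, Measurable (G j) := fun j =>
    Measurable.iSup fun m => hFm.comp (measurable_insert j _)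
  have hsh : ∀ k j, shadow (E k) j ⊆ {x' | (2 : ℝ≥0∞) ^ k < G j x'} := fun k j x' hx => by
    obtain ⟨⟨q, hq⟩, hqx⟩ := mem_iUnion.1 hx
    obtain ⟨m, hmq⟩ := exists_nat_one_div_lt (show (0 : ℝ) < q by exact_mod_cast hq)
    have hlt : (2 : ℝ≥0∞) ^ k < F (j.insertNth ((q : ℚ) : ℝ) x') := hqx
    refine lt_of_lt_of_le (lt_of_lt_of_le hlt ?_) (le_iSup _ m)
    exact BlockDec.slice (F := F) (fun x y h => ENNReal.ofReal_le_ofReal (hf.2 x y h)) j x' _ _ (by
      rw [abs_of_pos (by positivity), abs_of_pos (by exact_mod_cast hq)]; exact hmq.le)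
  have hmM : ∀ k, Measurable fun x' : Fin n → ℝ =>
      centredMax ((E k).indicator 1) (i.insertNth 0 x') := fun k =>
    (measurable_centredMax (measurable_const.indicator (hEm k))).comp (measurable_insert i 0)
  calc ∫⁻ x' : Fin n → ℝ, centredMax F (i.insertNth 0 x')
      ≤ ∫⁻ x' : Fin n → ℝ,
          ∑' k : ℤ, (2 : ℝ≥0∞) ^ (k + 1) * centredMax ((E k).indicator 1) (i.insertNth 0 x') := by
        refine lintegral_mono fun x' => centredMax_tsum_le hEm (Filter.Eventually.of_forall fun y => ?_) _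
        refine (layers (F y)).1.trans (le_of_eq (tsum_congr fun k => ?_))
        by_cases hk : (2 : ℝ≥0∞) ^ k < F y <;> simp [E, hk]
    _ = ∑' k : ℤ, (2 : ℝ≥0∞) ^ (k + 1) *
          ∫⁻ x' : Fin n → ℝ, centredMax ((E k).indicator 1) (i.insertNth 0 x') := by
        rw [lintegral_tsum fun k => ((hmM k).const_mul _).aemeasurable]
        exact tsum_congr fun k => lintegral_const_mul _ (hmM k)
    _ ≤ ∑' k : ℤ, (2 : ℝ≥0∞) ^ (k + 1) *
          (downConst n * ∑ j, volume {x' | (2 : ℝ≥0∞) ^ k < G j x'}) := by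
        refine ENNReal.tsum_le_tsum fun k => mul_le_mul_right ((trace_downSet (hEd k) (hEm k) (hEf k) i).trans ?_) _
        gcongr with j
        exact hsh k j
    _ = downConst n * ∑ j, ∫⁻ x', ∑' k : ℤ, (if (2 : ℝ≥0∞) ^ k < G j x' then 2 ^ (k + 1) else 0) := by
        simp only [mul_left_comm _ (downConst n), Finset.mul_sum]
        rw [Summable.tsum_finsetSum (fun _ _ => ENNReal.summable)]
        refine Finset.sum_congr rfl fun j _ => ?_
        rw [ENNReal.tsum_mul_left]
        congr 1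
        rw [lintegral_tsum fun k => (Measurable.ite (measurableSet_lt measurable_const (hGm j))
          measurable_const measurable_const).aemeasurable]
        refine tsum_congr fun k => ?_
        rw [← lintegral_indicator_const (measurableSet_lt measurable_const (hGm j))]
        refine lintegral_congr fun x' => ?_
        simp [Set.indicator_apply]
    _ ≤ downConst n * ∑ _j : Fin (n + 1), 4 * coordVariation f := by
        gcongr with j
        refine (lintegral_mono fun x' => (layers (G j x')).2).trans ?_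
        rw [lintegral_const_mul _ (hGm j)]
        exact mul_le_mul_right (variation_lower hf hm hi j) _
    _ = _ := by
        rw [Finset.sum_const, Finset.card_univ, Fintype.card_fin, nsmul_eq_mul]
        push_cast; ring

/-- Difference quotients of the maximal function. -/
theorem variation_centredMax {f : (Fin (n + 1) → ℝ) → ℝ} (hf : BlockDecreasing f) (hm : Measurable f)
    (hi : ∫⁻ y, ENNReal.ofReal (f y) ≠ ⊤) (i : Fin (n + 1)) (h : ℝ) :
    ∫⁻ x, ENNReal.ofReal |(centredMax (fun y => ENNReal.ofReal (f y)) (x + Pi.single i h)).toReal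
        - (centredMax (fun y => ENNReal.ofReal (f y)) x).toReal|
      ≤ 4 * (downConst n * 4 * ((n : ℝ≥0∞) + 1)) * ENNReal.ofReal |h| * coordVariation f := by
  set G := centredMax fun y => ENNReal.ofReal (f y)
  have hb : BlockDec fun y => ENNReal.ofReal (f y) := fun x y h => ENNReal.ofReal_le_ofReal (hf.2 x y h)
  have hGd : BlockDec G := hb.centredMax hm.ennreal_ofReal
  have hGm : Measurable G := measurable_centredMax hm.ennreal_ofReal
  set v : Fin (n + 1) → ℝ := Pi.single i h
  have hsh : Measurable fun x => G (x + v) := hGm.comp (measurable_id.add_const v)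
  have hne : ∀ᵐ x, G x ≠ ⊤ := ae_ne_zero.mono fun x hx => centredMax_ne_top hf hi hx
  have hne' : ∀ᵐ x, G (x + v) ≠ ⊤ :=
    (measurePreserving_add_right volume v).quasiMeasurePreserving.ae hne
  calc ∫⁻ x, ENNReal.ofReal |(G (x + v)).toReal - (G x).toReal|
      ≤ ∫⁻ x, ((G (x + v) - G x) + (G x - G (x + v))) := by
        refine lintegral_mono_ae ((hne.and hne').mono fun x hx => ?_)
        rcases le_total (G (x + v)) (G x) with hle | hle
        · rw [abs_sub_comm, abs_of_nonneg (sub_nonneg.2 (ENNReal.toReal_mono hx.1 hle)),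
            ← ENNReal.toReal_sub_of_le hle hx.1, ENNReal.ofReal_toReal (ENNReal.sub_ne_top hx.1)]
          exact le_add_left le_rfl
        · rw [abs_of_nonneg (sub_nonneg.2 (ENNReal.toReal_mono hx.2 hle)),
            ← ENNReal.toReal_sub_of_le hle hx.2, ENNReal.ofReal_toReal (ENNReal.sub_ne_top hx.2)]
          exact le_self_add
    _ = (∫⁻ x, (G (x + v) - G x)) + ∫⁻ x, (G x - G (x + v)) := lintegral_add_left (hsh.sub hGm) _
    _ ≤ 2 * ENNReal.ofReal |h| * (∫⁻ x' : Fin n → ℝ, G (i.insertNth 0 x'))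
          + 2 * ENNReal.ofReal |h| * (∫⁻ x' : Fin n → ℝ, G (i.insertNth 0 x')) := by
        refine add_le_add (variation_upper hGd hGm i h) ?_
        have e := (measurePreserving_add_right (volume : Measure (Fin (n + 1) → ℝ)) (-v)).lintegral_comp
          (hGm.sub hsh)
        simp only [Pi.sub_apply] at e
        rw [← e]
        have := variation_upper hGd hGm i (-h)
        rw [abs_neg, Pi.single_neg] at this
        simpa [v] using this
    _ ≤ _ := by
        rw [← two_mul]
        calc 2 * (2 * ENNReal.ofReal |h| * ∫⁻ x' : Fin n → ℝ, G (i.insertNth 0 x'))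
            ≤ 2 * (2 * ENNReal.ofReal |h| * (downConst n * 4 * ((n : ℝ≥0∞) + 1) * coordVariation f)) := by
              gcongr
              exact trace_le_variation hf hm hi i
          _ = _ := by ring

/-- Local integrability of the maximal function. -/
theorem integral_centredMax_closedBall {f : (Fin (n + 1) → ℝ) → ℝ} (hf : BlockDecreasing f)
    (hm : Measurable f) (hi : ∫⁻ y, ENNReal.ofReal (f y) ≠ ⊤) (R : ℝ) :
    ∫⁻ x in Metric.closedBall 0 R, centredMax (fun y => ENNReal.ofReal (f y)) x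
      ≤ 2 * (downConst n * 4 * ((n : ℝ≥0∞) + 1)) * ENNReal.ofReal R * coordVariation f := by
  set G := centredMax fun y => ENNReal.ofReal (f y)
  have hb : BlockDec fun y => ENNReal.ofReal (f y) := fun x y h => ENNReal.ofReal_le_ofReal (hf.2 x y h)
  have hGd : BlockDec G := hb.centredMax hm.ennreal_ofReal
  have hGm : Measurable G := measurable_centredMax hm.ennreal_ofReal
  rw [← lintegral_indicator Metric.isClosed_closedBall.measurableSet,
    lintegral_slices (0 : Fin (n + 1)) (hGm.indicator Metric.isClosed_closedBall.measurableSet)]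
  calc _ ≤ ∫⁻ x' : Fin n → ℝ, 2 * ENNReal.ofReal R * G ((0 : Fin (n + 1)).insertNth 0 x') := by
        refine lintegral_mono fun x' => ?_
        calc _ ≤ ∫⁻ t : ℝ, (Icc (-R) R).indicator (fun _ => G ((0 : Fin (n + 1)).insertNth 0 x')) t := by
              refine lintegral_mono fun t => indicator_apply_le' (fun ht => ?_) (fun _ => zero_le)
              have h0 := (dist_le_pi_dist _ _ (0 : Fin (n + 1))).trans (Metric.mem_closedBall.1 ht)
              simp only [Fin.insertNth_apply_same, Pi.zero_apply, Real.dist_eq, sub_zero] at h0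
              rw [indicator_of_mem (show t ∈ Icc (-R) R from abs_le.1 h0)]
              exact hGd.slice 0 x' _ _ (by simp)
          _ = _ := by
              rw [lintegral_indicator_const measurableSet_Icc, Real.volume_Icc, sub_neg_eq_add,
                ← two_mul, ENNReal.ofReal_mul (by norm_num), ENNReal.ofReal_ofNat]
              ring
    _ ≤ 2 * ENNReal.ofReal R * (downConst n * 4 * ((n : ℝ≥0∞) + 1) * coordVariation f) := by
        rw [lintegral_const_mul' _ _ (by finiteness)]
        gcongr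
        exact trace_le_variation hf hm hi 0
    _ = _ := by ring

end Vale.Agent.P137
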